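import Vale.Agent.P193.Host.Shift

/-!
# The shift host: finitely presented, compatible, generated, universal
-/

namespace Vale.P193.Host

open Equiv

variable {P S : Type} [Group P] [MulAction P S] {s₀ : S}

theorem Lvl.dbl_twist_zero {n : ℕ} (g : P) :
    (Lvl.twist (n := n + 1) 0 g).dbl = Lvl.twist 0 g * Lvl.twist 1 g := by
  refine Lvl.ext ?_ ?_
  · ext i
    refine Fin.cases ?_ (fun j => ?_) i <;> simp [Lvl.dbl]
  · funext i
    have h1 : (1 : Fin (n + 2)) = Fin.succ 0 := rfl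
    refine Fin.cases ?_ (fun j => ?_) i
    · simp [Lvl.dbl]
    · refine Fin.cases ?_ (fun l => ?_) j
      · show (Lvl.twist (0 : Fin (n + 1)) g).t 0 = _
        rw [h1]; simp
      · show (Lvl.twist (0 : Fin (n + 1)) g).t l.succ = _
        rw [h1]; simp [Fin.ext_iff]

theorem Lvl.dbl_twist_succ {n : ℕ} (q : Fin n) (g : P) :
    (Lvl.twist q.succ g).dbl = Lvl.twist q.succ.succ g := by
  refine Lvl.ext ?_ ?_
  · ext i
    refine Fin.cases ?_ (fun j => ?_) i <;> simp [Lvl.dbl]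
  · funext i
    refine Fin.cases ?_ (fun j => ?_) i
    · simp [Lvl.dbl, (Fin.succ_ne_zero q).symm]
    · simp [Lvl.dbl, Pi.mulSingle_apply]

theorem Lvl.dbl_swap_succ {n : ℕ} (a b : Fin n) :
    (Lvl.perm (swap a.succ b.succ) : Lvl P (n + 1)).dbl = Lvl.perm (swap a.succ.succ b.succ.succ) := by
  refine Lvl.ext ?_ ?_
  · refine Equiv.ext fun i => Fin.cases ?_ (fun j => ?_) i
    · simp [Lvl.dbl, swap_apply_of_ne_of_ne (Fin.succ_ne_zero _).symm (Fin.succ_ne_zero _).symm]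
    · simp [Lvl.dbl, (Fin.succ_injective _).map_swap]
  · funext i
    refine Fin.cases ?_ (fun j => ?_) i <;> simp [Lvl.dbl]

theorem twist_last_comm_up {n : ℕ} (g : P) (w : Lvl P n) :
    Lvl.twist (Fin.last n) g * up n w = up n w * Lvl.twist (Fin.last n) g := by
  refine Lvl.ext ?_ ?_
  · simp
  · funext i
    refine Fin.lastCases ?_ (fun j => ?_) i
    · simp [up, Equiv.permCongr_apply]
    · simp [up, Equiv.permCongr_apply, (Fin.castSucc_lt_last _).ne]

theorem swap_last_comm_up {n : ℕ} (w : Lvl P n) :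
    Lvl.perm (swap (Fin.last n).castSucc (Fin.last (n + 1))) * up (n + 1) (up n w) =
      up (n + 1) (up n w) * Lvl.perm (swap (Fin.last n).castSucc (Fin.last (n + 1))) := by
  refine Lvl.ext ?_ ?_
  · refine Equiv.ext fun i => ?_
    refine Fin.lastCases ?_ (fun j => ?_) i
    · simp [up_σ_last, up_σ_castSucc]
    · refine Fin.lastCases ?_ (fun l => ?_) j
      · simp [up_σ_last, up_σ_castSucc]
      · simp [up_σ_castSucc, swap_apply_of_ne_of_ne,
          (Fin.castSucc_lt_last _).ne]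
  · funext i
    refine Fin.lastCases ?_ (fun j => ?_) i
    · simp [up]
    · refine Fin.lastCases ?_ (fun l => ?_) j
      · simp [up]
      · simp [up, swap_apply_of_ne_of_ne, (Fin.castSucc_lt_last _).ne]

/-- A family with a shift, in terms of the basic values. -/
structure Fam {k : ℕ} {G : Type} [Group G] (Q : Pre k G) (p lam : P → G)
    (ρ : ∀ n, Lvl P n →* G) : Prop where
  hsh : ∀ n w, ρ (n + 1) (up n w) = Q.sh (ρ n w)
  hp : ∀ g, ρ 1 (Lvl.twist 0 g) = p g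
  hlam : ∀ n g, ρ (n + 2) (Lvl.twist (Fin.last (n + 1)) g) = lam g
  hE : ρ 2 (s01 0) = Q.sE
  hM : ∀ n, ρ (n + 3) (Lvl.perm (swap (Fin.last (n + 1)).castSucc (Fin.last (n + 2)))) = Q.sM

namespace Fam

variable {k : ℕ} {G : Type} [Group G] {Q : Pre k G} {p lam : P → G} {ρ : ∀ n, Lvl P n →* G}

theorem twist_castSucc (F : Fam Q p lam ρ) {n : ℕ} (q : Fin n) (g : P) :
    ρ (n + 1) (Lvl.twist q.castSucc g) = Q.sh (ρ n (Lvl.twist q g)) := by
  rw [← up_twist, F.hsh]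

theorem swap_castSucc (F : Fam Q p lam ρ) {n : ℕ} (a b : Fin n) :
    ρ (n + 1) (Lvl.perm (swap a.castSucc b.castSucc)) = Q.sh (ρ n (Lvl.perm (swap a b))) := by
  rw [← up_perm, F.hsh]

variable (F : Fam Q p lam ρ)
include F

theorem t20 (g : P) : ρ 2 (Lvl.twist 0 g) = Q.sh (p g) := by
  rw [← F.hp]; exact F.twist_castSucc (0 : Fin 1) g

theorem t30 (g : P) : ρ 3 (Lvl.twist 0 g) = Q.sh (Q.sh (p g)) := by
  rw [← F.t20]; exact F.twist_castSucc (0 : Fin 2) g

theorem t40 (g : P) : ρ 4 (Lvl.twist 0 g) = Q.sh (Q.sh (Q.sh (p g))) := by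
  rw [← F.t30]; exact F.twist_castSucc (0 : Fin 3) g

theorem t21 (g : P) : ρ 2 (Lvl.twist 1 g) = lam g := F.hlam 0 g

theorem t31 (g : P) : ρ 3 (Lvl.twist 1 g) = Q.sh (lam g) := by
  rw [← F.t21]; exact F.twist_castSucc (1 : Fin 2) g

theorem t41 (g : P) : ρ 4 (Lvl.twist 1 g) = Q.sh (Q.sh (lam g)) := by
  rw [← F.t31]; exact F.twist_castSucc (1 : Fin 3) g

theorem a20 : ρ 2 (Lvl.perm (swap 0 1)) = Q.sE := F.hE

theorem a30 : ρ 3 (Lvl.perm (swap 0 1)) = Q.sh Q.sE := by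
  rw [← F.a20]; exact F.swap_castSucc (0 : Fin 2) 1

theorem a31 : ρ 3 (Lvl.perm (swap 1 2)) = Q.sM := F.hM 0

theorem a40 : ρ 4 (Lvl.perm (swap 0 1)) = Q.sh (Q.sh Q.sE) := by
  rw [← F.a30]; exact F.swap_castSucc (0 : Fin 3) 1

theorem a41 : ρ 4 (Lvl.perm (swap 1 2)) = Q.sh Q.sM := by
  rw [← F.a31]; exact F.swap_castSucc (1 : Fin 3) 2

theorem a42 : ρ 4 (Lvl.perm (swap 2 3)) = Q.sM := F.hM 1

theorem val02 : ρ 3 (s02 0) = Pre.e02 Q := by
  have e : (s02 0 : Lvl P 3) =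
      Lvl.perm (swap 0 1) * Lvl.perm (swap 1 2) * Lvl.perm (swap 0 1) := by
    rw [← map_mul, ← map_mul]
    exact congrArg _ (by decide)
  rw [e, map_mul, map_mul, F.a30, F.a31]
  rfl

theorem valPi : ρ 4 (sπ 0) = Pre.ePi Q := by
  have e : (sπ 0 : Lvl P 4) = Lvl.perm (swap 0 1) * Lvl.perm (swap 1 2) * Lvl.perm (swap 2 3) *
      Lvl.perm (swap 1 2) * Lvl.perm (swap 0 1) * Lvl.perm (swap 1 2) := by
    simp only [← map_mul]
    exact congrArg _ (by decide)
  rw [e]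
  simp only [map_mul, F.a40, F.a41, F.a42]
  rfl

theorem val02' : ρ 4 (s02 1) = Q.sh (Pre.e02 Q) := by
  rw [← F.val02]; exact F.swap_castSucc (0 : Fin 3) 2

theorem x0_eq : x0 ρ = Q.sE * Q.sM * Q.sh Q.sE := by
  rw [x0, map_mul Lvl.perm, map_mul (ρ 3), F.hE, F.a30, F.a31, mul_assoc]

theorem disj_side : ρ 3 (s02 0) * ρ 4 (sπ 0) = Pre.e02 Q * Pre.ePi Q ∧
    ρ 2 (s01 0) * ρ 3 (s02 0) = Q.sE * Pre.e02 Q := by
  rw [F.val02, F.valPi, F.hE]
  exact ⟨rfl, rfl⟩

theorem coord_side (c : P) :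
    ρ 2 (Lvl.twist 0 c) * ρ 3 (tw01 1 c⁻¹) * ρ 3 (s02 0) * ρ 3 (Lvl.twist 0 c) *
        ρ 4 (tw01 2 c⁻¹) * ρ 4 (s02 1) =
      Q.sh (p c) * (Q.sh (Q.sh (p c⁻¹)) * Q.sh (lam c⁻¹)) * Pre.e02 Q * Q.sh (Q.sh (p c)) *
        (Q.sh (Q.sh (Q.sh (p c⁻¹))) * Q.sh (Q.sh (lam c⁻¹))) * Q.sh (Pre.e02 Q) ∧
    ρ 1 (Lvl.twist 0 c) * ρ 2 (tw01 0 c⁻¹) * ρ 3 (s02 0) =
      p c * (Q.sh (p c⁻¹) * lam c⁻¹) * Pre.e02 Q := by
  simp only [tw01, map_mul, F.t20, F.t30, F.t40, F.t21, F.t31, F.t41, F.val02, F.val02', F.hp,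
    and_self]

end Fam

theorem s02_up (n : ℕ) : (s02 (n + 1) : Lvl P (n + 4)) = up (n + 3) (s02 n) := by
  rw [s02, s02, up_perm]
  rfl

theorem s01_up (n : ℕ) : (s01 (n + 1) : Lvl P (n + 3)) = up (n + 2) (s01 n) := by
  rw [s01, s01, up_perm]
  rfl

theorem sπ_up (n : ℕ) : (sπ (n + 1) : Lvl P (n + 5)) = up (n + 4) (sπ n) := by
  rw [sπ, sπ, map_mul, map_mul, map_mul, up_perm, up_perm]
  rfl

theorem tw0_up (n : ℕ) (g : P) :
    (Lvl.twist 0 g : Lvl P (n + 2)) = up (n + 1) (Lvl.twist 0 g) := by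
  rw [up_twist]
  rfl

theorem tw01_up (n : ℕ) (g : P) : tw01 (n + 1) g = up (n + 2) (tw01 n g) := by
  rw [tw01, tw01, map_mul, up_twist, up_twist]
  rfl

theorem decomposeFin_zero_mul {n : ℕ} (e e' : Perm (Fin n)) :
    Perm.decomposeFin.symm (0, e * e') =
      Perm.decomposeFin.symm (0, e) * Perm.decomposeFin.symm (0, e') := by
  ext i
  refine Fin.cases ?_ (fun j => ?_) i <;> simp

theorem decomposeFin_fix {n : ℕ} (σ : Perm (Fin (n + 1))) (h : σ 0 = 0) :
    ∃ e, σ = Perm.decomposeFin.symm (0, e) := by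
  refine ⟨(Perm.decomposeFin σ).2, ?_⟩
  have e : Perm.decomposeFin.symm (Perm.decomposeFin σ) = σ := Equiv.symm_apply_apply _ _
  have h0 : (Perm.decomposeFin σ).1 = 0 := by
    rw [← Perm.decomposeFin_symm_apply_zero (Perm.decomposeFin σ).1 (Perm.decomposeFin σ).2]
    simpa only [Prod.mk.eta, e] using h
  rw [← h0, Prod.mk.eta, e]

namespace ShiftAlg

variable {k : ℕ} {φ : FreeGroup (Fin k) →* P} {G : Type} [Group G] {Q : Pre k G}
  (A : ShiftAlg φ Q) {R : Set (FreeGroup (Fin k))} {hs : Set (FreeGroup (Fin k))}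
  {cw : FreeGroup (Fin k)} (hrel : Q.Rel R hs cw)

theorem fam : Fam Q A.p A.lam (A.rho hrel) where
  hsh := A.rho_up hrel
  hp g := by simp [rho_twist, lv, Pre.pw]
  hlam n g := by simp [rho_twist, lv, Pre.pw]
  hE := by
    rw [show s01 0 = Lvl.perm (swap (⟨0, by omega⟩ : Fin 2) ⟨1, by omega⟩) from rfl,
      A.rho_swap hrel 2 0 (by omega)]
    rfl
  hM n := by
    rw [show (Lvl.perm (swap (Fin.last (n + 1)).castSucc (Fin.last (n + 2))) : Lvl P (n + 3)) =
      Lvl.perm (swap ⟨n + 1, by omega⟩ ⟨n + 1 + 1, by omega⟩) from rfl,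
      A.rho_swap hrel (n + 3) (n + 1) (by omega)]
    simp [sg, Pre.pw]

theorem dbl_rel (φh : Subgroup.closure (φ '' hs) = (MulAction.stabilizer P s₀))
    (n : ℕ) (w : Lvl P (n + 1)) (hw : Lvl.Dblable (S := S) s₀ w) :
    A.rho hrel (n + 2) w.dbl = A.rho hrel (n + 1) w := by
  let K : Subgroup (Lvl P (n + 1)) :=
    { carrier := {w | Lvl.Dblable s₀ w ∧ A.rho hrel (n + 2) w.dbl = A.rho hrel (n + 1) w}
      one_mem' := ⟨⟨by simp, by simp⟩, by simp [Lvl.dbl_one]⟩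
      mul_mem' := fun {a b} ha hb => ⟨⟨by simp [ha.1.1, hb.1.1],
          by simp [hb.1.1, mul_smul, ha.1.2, hb.1.2]⟩,
        by rw [Lvl.dbl_mul hb.1.1, map_mul, map_mul, ha.2, hb.2]⟩
      inv_mem' := fun {a} ha => by
        have hσ : a⁻¹.σ 0 = 0 := by
          rw [Lvl.inv_σ, Equiv.Perm.inv_eq_iff_eq]
          exact ha.1.1.symm
        refine ⟨⟨hσ, ?_⟩, ?_⟩
        · rw [Lvl.inv_t, Lvl.inv_σ] at *
          rw [hσ, inv_smul_eq_iff, ha.1.2]
        · have h := Lvl.dbl_mul (w := a⁻¹) ha.1.1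
          rw [inv_mul_cancel, Lvl.dbl_one] at h
          rw [eq_inv_of_mul_eq_one_left h.symm, map_inv, map_inv, ha.2] }
  suffices w ∈ K from this.2
  refine Lvl.mem_of_twist_mem K ?_ fun i => ?_
  · obtain ⟨e, he⟩ := decomposeFin_fix w.σ hw.1
    rw [he]
    clear he hw w
    rcases n with - | n
    · rw [Subsingleton.elim e 1]
      have : Perm.decomposeFin.symm ((0 : Fin 1), (1 : Perm (Fin 0))) = 1 := Subsingleton.elim _ _
      rw [this, map_one]
      exact one_mem K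
    have hmem : e ∈ Submonoid.closure (Set.range fun i : Fin n => swap i.castSucc i.succ) := by
      rw [Perm.mclosure_swap_castSucc_succ]; trivial
    induction hmem using Submonoid.closure_induction with
    | mem x hx =>
        obtain ⟨i, rfl⟩ := hx
        have e1 : Perm.decomposeFin.symm ((0 : Fin (n + 2)), swap i.castSucc i.succ) =
            swap i.castSucc.succ i.succ.succ := by
          ext j
          refine Fin.cases ?_ (fun l => ?_) j
          · simp [swap_apply_of_ne_of_ne (Fin.succ_ne_zero _).symm (Fin.succ_ne_zero _).symm]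
          · simp [(Fin.succ_injective _).map_swap]
        rw [e1]
        refine ⟨⟨?_, by simp⟩, ?_⟩
        · simp [swap_apply_of_ne_of_ne (Fin.succ_ne_zero _).symm (Fin.succ_ne_zero _).symm]
        · have h1 : A.rho hrel (n + 3) (Lvl.perm (swap i.castSucc.succ.succ i.succ.succ.succ)) =
              A.sg (n + 3) (i + 2) := A.rho_swap hrel (n + 3) (i + 2) (by omega)
          have h2 : A.rho hrel (n + 2) (Lvl.perm (swap i.castSucc.succ i.succ.succ)) =
              A.sg (n + 2) (i + 1) := A.rho_swap hrel (n + 2) (i + 1) (by omega)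
          rw [Lvl.dbl_swap_succ, h1, h2, sg, sg,
            show n + 3 - 2 - ((i : ℕ) + 2) = n + 2 - 2 - ((i : ℕ) + 1) by omega,
            if_neg (show ¬ (i : ℕ) + 2 = 0 by omega), if_neg (show ¬ (i : ℕ) + 1 = 0 by omega)]
    | one =>
        have : Perm.decomposeFin.symm ((0 : Fin (n + 2)), (1 : Perm (Fin (n + 1)))) = 1 := by simp [Perm.one_def]
        rw [this, map_one]
        exact one_mem K
    | mul x y _ _ hx hy =>
        rw [decomposeFin_zero_mul, map_mul]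
        exact K.mul_mem hx hy
  · rcases Fin.eq_zero_or_eq_succ i with rfl | ⟨i, rfl⟩
    · have : MulAction.stabilizer P s₀ ≤ K.comap (Lvl.twist 0) := by
        rw [← φh, Subgroup.closure_le]
        rintro _ ⟨h, hh, rfl⟩
        refine ⟨⟨by simp, ?_⟩, ?_⟩
        · have : φ h ∈ MulAction.stabilizer P s₀ :=
            φh ▸ Subgroup.subset_closure ⟨h, hh, rfl⟩
          simpa using this
        · have e := hrel (Q.u h, Q.sh (Q.u h) * Q.v h)
            (Or.inl (Or.inl (Or.inl (Or.inl (Or.inl (Or.inr ⟨h, hh, rfl⟩))))))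
          simp only [← A.hp, ← A.hlam] at e
          have pwn : Q.pw (n + 1) (A.p (φ h)) = Q.pw n (Q.sh (A.p (φ h))) := (Q.pw_sh n _).symm
          rw [Lvl.dbl_twist_zero, map_mul, rho_twist, rho_twist, rho_twist]
          show Q.pw (n + 1) (A.p (φ h)) * Q.pw n (A.lam (φ h)) = Q.pw n (A.p (φ h))
          rw [pwn, ← map_mul, ← e]
      exact this hw.2
    · refine ⟨⟨by simp, by simp [(Fin.succ_ne_zero i).symm]⟩, ?_⟩
      rw [Lvl.dbl_twist_succ, rho_twist, rho_twist]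
      simp only [lv, Fin.val_succ, MonoidHom.comp_apply,
        if_neg (show ¬ (i : ℕ) + 1 + 1 = 0 by omega), if_neg (show ¬ (i : ℕ) + 1 = 0 by omega),
        show n + 2 - 1 - ((i : ℕ) + 1 + 1) = n + 1 - 1 - ((i : ℕ) + 1) by omega]

theorem compat (φh : Subgroup.closure (φ '' hs) = (MulAction.stabilizer P s₀)) :
    Compat (S := S) s₀ (φ cw) (A.rho hrel) := by
  have F := A.fam hrel
  have hd : ∀ n, A.rho hrel (n + 3) (s02 n) * A.rho hrel (n + 4) (sπ n) =
      A.rho hrel (n + 2) (s01 n) * A.rho hrel (n + 3) (s02 n) := by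
    intro n
    induction n with
    | zero =>
        rw [F.disj_side.1, F.disj_side.2]
        exact hrel (Pre.e02 Q * Pre.ePi Q, Q.sE * Pre.e02 Q) (Or.inr (by simp))
    | succ n ih =>
        rw [s02_up, sπ_up, s01_up, A.rho_up, A.rho_up, A.rho_up, ← map_mul, ← map_mul, ih]
  have hc : ∀ n, A.rho hrel (n + 2) (Lvl.twist 0 (φ cw)) *
      A.rho hrel (n + 3) (tw01 (n + 1) (φ cw)⁻¹) * A.rho hrel (n + 3) (s02 n) *
      A.rho hrel (n + 3) (Lvl.twist 0 (φ cw)) * A.rho hrel (n + 4) (tw01 (n + 2) (φ cw)⁻¹) *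
      A.rho hrel (n + 4) (s02 (n + 1)) =
      A.rho hrel (n + 1) (Lvl.twist 0 (φ cw)) * A.rho hrel (n + 2) (tw01 n (φ cw)⁻¹) *
        A.rho hrel (n + 3) (s02 n) := by
    intro n
    induction n with
    | zero =>
        rw [(F.coord_side _).1, (F.coord_side _).2, ← map_inv φ]
        simp only [A.hp, A.hlam]
        exact hrel (_, _) (Or.inr (by simp))
    | succ n ih =>
        have h1 := congrArg Q.sh ih
        simp only [map_mul, ← A.rho_up, ← tw0_up, ← tw01_up, ← s02_up] at h1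
        exact h1
  exact fun N => ⟨⟨A.rho hrel, fun n _ w hw => A.dbl_rel hrel φh n w hw, fun n _ => hd n,
    fun n _ => hc n⟩, rfl⟩

theorem generated (hgen : Subgroup.closure (Set.range Q.xval) = ⊤) :
    Subgroup.closure {x | ∃ n, 1 ≤ n ∧ ∃ w, A.rho hrel n w = x} = ⊤ := by
  have F := A.fam hrel
  rw [eq_top_iff, ← hgen, Subgroup.closure_le]
  rintro _ ⟨⟨y, b⟩, rfl⟩
  obtain ⟨n, hn, w, hw⟩ : ∃ n, 1 ≤ n ∧ ∃ w, A.rho hrel n w = Q.val y := by
    rcases y with (i | i) | b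
    · exact ⟨1, le_rfl, Lvl.twist 0 (φ (FreeGroup.of i)), by rw [F.hp, A.hp]; rfl⟩
    · exact ⟨2, by omega, Lvl.twist 1 (φ (FreeGroup.of i)), by rw [F.t21, A.hlam]; rfl⟩
    · cases b
      · exact ⟨2, by omega, s01 0, F.hE⟩
      · exact ⟨3, by omega, Lvl.perm (swap 1 2), F.a31⟩
  refine Subgroup.subset_closure ?_
  cases b
  · exact ⟨n, hn, w, hw⟩
  · exact ⟨n + 1, by omega, up n w, by rw [A.rho_up, hw]; rfl⟩

end ShiftAlg

/-- A compatible family with a shift satisfies all the equations. -/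
theorem rel_of_compat {s₀ : S} {k : ℕ} {φ : FreeGroup (Fin k) →* P}
    {R hs : Set (FreeGroup (Fin k))} {cw : FreeGroup (Fin k)}
    (hker : Subgroup.normalClosure R = φ.ker)
    (φh : Subgroup.closure (φ '' hs) = MulAction.stabilizer P s₀)
    {A : Type} [Group A] {ρ' : ∀ n, Lvl P n →* A} (hc : Compat s₀ (φ cw) ρ')
    (hs' : ShiftRel ρ') : ∃ (Q' : Pre k A) (p lam : P →* A), Q'.Rel R hs cw ∧
      Fam Q' p lam ρ' ∧ (∀ w, p (φ w) = Q'.u w) ∧ ∀ w, lam (φ w) = Q'.v w := by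
  obtain ⟨sh, hup, hrule⟩ := hs'
  let p : P →* A := (ρ' 1).comp (Lvl.twist 0)
  let lam : P →* A := (ρ' 2).comp (Lvl.twist 1)
  have hxe : x0 ρ' = ρ' 2 (s01 0) * ρ' 3 (Lvl.perm (swap 1 2)) * sh (ρ' 2 (s01 0)) := by
    rw [x0, ← hup, s01, up_perm, mul_assoc, ← map_mul (ρ' 3), ← map_mul Lvl.perm]
    rfl
  let Q' : Pre k A :=
    { sh := sh
      u := p.comp φ
      v := lam.comp φ
      sE := ρ' 2 (s01 0)
      sM := ρ' 3 (Lvl.perm (swap 1 2))
      rule := fun y => by rw [← hxe]; exact hrule y }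
  have dblr : ∀ n w, Lvl.Dblable s₀ w → ρ' (n + 2) (Lvl.dbl w) = ρ' (n + 1) w := by
    intro n w hw
    obtain ⟨D, rfl⟩ := hc (n + 2)
    exact D.dbl n le_rfl w hw
  have hlam : ∀ n g, ρ' (n + 2) (Lvl.twist (Fin.last (n + 1)) g) = lam g := by
    intro n g
    induction n with
    | zero => rfl
    | succ n ih =>
        have h := dblr (n + 1) (Lvl.twist (Fin.last n).succ g)
          ⟨by simp, by simp⟩
        rw [Lvl.dbl_twist_succ] at h
        exact h.trans ih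
  have hM : ∀ n, ρ' (n + 3) (Lvl.perm (swap (Fin.last (n + 1)).castSucc (Fin.last (n + 2)))) =
      Q'.sM := by
    intro n
    induction n with
    | zero => rfl
    | succ n ih =>
        have h := dblr (n + 2) (Lvl.perm (swap (Fin.last n).castSucc.succ (Fin.last (n + 1)).succ))
          ⟨swap_apply_of_ne_of_ne (Fin.succ_ne_zero _).symm (Fin.succ_ne_zero _).symm, by simp⟩
        rw [Lvl.dbl_swap_succ] at h
        exact h.trans ih
  have F : Fam Q' p lam ρ' := ⟨hup, fun _ => rfl, hlam, rfl, hM⟩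
  have key : ∀ z, ∃ n, ∃ w : Lvl P (n + 1), Q'.xval z = ρ' (n + 1) w := by
    rintro ⟨y, b⟩
    obtain ⟨n, w, hw⟩ : ∃ n, ∃ w : Lvl P (n + 1), Q'.val y = ρ' (n + 1) w := by
      rcases y with (i | i) | b
      · exact ⟨0, _, rfl⟩
      · exact ⟨1, _, rfl⟩
      · cases b
        · exact ⟨1, _, rfl⟩
        · exact ⟨2, _, rfl⟩
    cases b
    · exact ⟨n, w, hw⟩
    · exact ⟨n + 1, up (n + 1) w, by rw [hup, ← hw]; rfl⟩
  refine ⟨Q', p, lam, ?_, F, fun _ => rfl, fun _ => rfl⟩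
  intro e he
  rcases he with
    ((((((⟨r, hr, rfl⟩ | ⟨r, hr, rfl⟩) | ⟨r, hr, rfl⟩) | ⟨x, rfl⟩) | ⟨z, rfl⟩) | ⟨i, rfl⟩) |
      ⟨i, rfl⟩) | he
  · have : φ r = 1 := by
      rw [← MonoidHom.mem_ker, ← hker]; exact Subgroup.subset_normalClosure hr
    show p (φ r) = 1
    rw [this, map_one]
  · have : φ r = 1 := by
      rw [← MonoidHom.mem_ker, ← hker]; exact Subgroup.subset_normalClosure hr
    show lam (φ r) = 1
    rw [this, map_one]
  · have hst : φ r ∈ MulAction.stabilizer P s₀ := φh ▸ Subgroup.subset_closure ⟨r, hr, rfl⟩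
    show p (φ r) = sh (p (φ r)) * lam (φ r)
    have := dblr 0 (Lvl.twist 0 (φ r)) ⟨by simp, by simpa using hst⟩
    rw [Lvl.dbl_twist_zero, map_mul, F.t20, F.t21, F.hp] at this
    exact this.symm
  · obtain ⟨i, z⟩ := x
    obtain ⟨n, w, hw⟩ := key z
    show lam (φ (FreeGroup.of i)) * sh (Q'.xval z) = sh (Q'.xval z) * lam (φ (FreeGroup.of i))
    rw [hw, ← hup, ← hlam n, ← map_mul, ← map_mul, twist_last_comm_up]
  · obtain ⟨n, w, hw⟩ := key z
    show Q'.sM * sh (sh (Q'.xval z)) = sh (sh (Q'.xval z)) * Q'.sM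
    rw [hw, ← hup, ← hup, ← hM n, ← map_mul, ← map_mul, swap_last_comm_up]
  · show Q'.sE * sh (p (φ (FreeGroup.of i))) = lam (φ (FreeGroup.of i)) * Q'.sE
    rw [← F.t20, ← F.t21, ← F.hE, ← map_mul, ← map_mul, s01, Lvl.perm_conj_twist, swap_apply_left]
  · show Q'.sM * sh (lam (φ (FreeGroup.of i))) = lam (φ (FreeGroup.of i)) * Q'.sM
    rw [← F.t31, ← hlam 1, ← F.a31, ← map_mul, ← map_mul, Lvl.perm_conj_twist, swap_apply_left]
    rfl
  · simp only [Set.mem_insert_iff, Set.mem_singleton_iff] at he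
    rcases he with rfl | rfl | rfl | rfl | rfl | rfl
    · show Q'.sE * Q'.sE = 1
      rw [← F.a20, ← map_mul, ← map_mul, swap_mul_self, map_one, map_one]
    · show Q'.sM * Q'.sM = 1
      rw [← F.a31, ← map_mul, ← map_mul, swap_mul_self, map_one, map_one]
    · show Q'.sM * Q'.sh Q'.sE * Q'.sM = Q'.sh Q'.sE * Q'.sM * Q'.sh Q'.sE
      rw [← F.a31, ← F.a30]
      simp only [← map_mul]
      exact congrArg _ (congrArg _ (by decide))
    · show Q'.sM * Q'.sh Q'.sM * Q'.sM = Q'.sh Q'.sM * Q'.sM * Q'.sh Q'.sM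
      rw [← F.a41, ← F.a42]
      simp only [← map_mul]
      exact congrArg _ (congrArg _ (by decide))
    · obtain ⟨D, rfl⟩ := hc 4
      have := D.disj 0 le_rfl
      rwa [F.disj_side.1, F.disj_side.2] at this
    · obtain ⟨D, rfl⟩ := hc 4
      have := D.coord 0 le_rfl
      rw [(F.coord_side _).1, (F.coord_side _).2, ← map_inv φ] at this
      exact this

/-- The finitely presented host of compatible families with a shift. -/
theorem shiftHost (s₀ : S) (c : P) (hP : Group.IsFinitelyPresented P)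
    (hH : (MulAction.stabilizer P s₀).FG) :
    ∃ (Γ : Type) (_ : Group Γ) (ρ : ∀ n, Lvl P n →* Γ), Group.IsFinitelyPresented Γ ∧
      Compat s₀ c ρ ∧ ShiftRel ρ ∧
      Subgroup.closure {x | ∃ n, 1 ≤ n ∧ ∃ w, ρ n w = x} = ⊤ ∧
      ∀ (A : Type) [Group A] (ρ' : ∀ n, Lvl P n →* A), Compat s₀ c ρ' → ShiftRel ρ' →
        ∃ f : Γ →* A, ∀ n, 1 ≤ n → ∀ w, f (ρ n w) = ρ' n w := by
  obtain ⟨k, φ, φs, R, hR, hker⟩ := hP.out
  obtain ⟨hsP, hhs, hfin⟩ := (Subgroup.fg_iff _).1 hH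
  obtain ⟨cw, rfl⟩ := φs c
  let hs : Set (FreeGroup (Fin k)) := Function.surjInv φs '' hsP
  have φh : Subgroup.closure (φ '' hs) = MulAction.stabilizer P s₀ := by
    rw [← hhs, ← Set.image_comp, Function.comp_surjInv φs, Set.image_id]
  let Q0 := Pre.free k
  let D : Set (Pre.Free k) := (fun e => e.1 * e.2⁻¹) '' Q0.eqs R hs cw
  have hD : D.Finite := (Pre.eqs_finite R hs cw hR (hfin.image _) Q0).image _
  let Q := Q0.quot D
  have hrel : Q.Rel R hs cw := by
    intro e he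
    suffices ∀ e0 ∈ Q0.eqs R hs cw, (QuotientGroup.mk' (Q0.ker D)) e0.1 =
        QuotientGroup.mk' (Q0.ker D) e0.2 by
      have hsub : Q.eqs R hs cw ⊆
          (fun e0 => (QuotientGroup.mk' (Q0.ker D) e0.1, QuotientGroup.mk' (Q0.ker D) e0.2)) ''
            Q0.eqs R hs cw := by
        intro e he
        have hx : ∀ z, Q.xval z = QuotientGroup.mk' (Q0.ker D) (Q0.xval z) := fun z =>
          ((Q0.quot_isHom D).xval z).symm
        rcases he with
          ((((((⟨r, hr, rfl⟩ | ⟨r, hr, rfl⟩) | ⟨r, hr, rfl⟩) | ⟨x, rfl⟩) | ⟨z, rfl⟩) | ⟨i, rfl⟩) |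
            ⟨i, rfl⟩) | he
        · exact ⟨_, Or.inl (Or.inl (Or.inl (Or.inl (Or.inl (Or.inl (Or.inl ⟨r, hr, rfl⟩)))))),
            rfl⟩
        · exact ⟨_, Or.inl (Or.inl (Or.inl (Or.inl (Or.inl (Or.inl (Or.inr ⟨r, hr, rfl⟩)))))),
            rfl⟩
        · exact ⟨_, Or.inl (Or.inl (Or.inl (Or.inl (Or.inl (Or.inr ⟨r, hr, rfl⟩))))), rfl⟩
        · refine ⟨_, Or.inl (Or.inl (Or.inl (Or.inl (Or.inr ⟨x, rfl⟩)))), ?_⟩
          simp only [map_mul, hx]
          rfl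
        · refine ⟨_, Or.inl (Or.inl (Or.inl (Or.inr ⟨z, rfl⟩))), ?_⟩
          simp only [map_mul, hx]
          rfl
        · exact ⟨_, Or.inl (Or.inl (Or.inr ⟨i, rfl⟩)), rfl⟩
        · exact ⟨_, Or.inl (Or.inr ⟨i, rfl⟩), rfl⟩
        · simp only [Set.mem_insert_iff, Set.mem_singleton_iff] at he
          rcases he with rfl | rfl | rfl | rfl | rfl | rfl
          · exact ⟨(Q0.sE * Q0.sE, 1), Or.inr (Or.inl rfl), rfl⟩
          · exact ⟨(Q0.sM * Q0.sM, 1), Or.inr (Or.inr (Or.inl rfl)), rfl⟩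
          · exact ⟨(Q0.sM * Q0.sh Q0.sE * Q0.sM, Q0.sh Q0.sE * Q0.sM * Q0.sh Q0.sE),
              Or.inr (Or.inr (Or.inr (Or.inl rfl))), rfl⟩
          · exact ⟨(Q0.sM * Q0.sh Q0.sM * Q0.sM, Q0.sh Q0.sM * Q0.sM * Q0.sh Q0.sM),
              Or.inr (Or.inr (Or.inr (Or.inr (Or.inl rfl)))), rfl⟩
          · exact ⟨(Pre.e02 Q0 * Pre.ePi Q0, Q0.sE * Pre.e02 Q0),
              Or.inr (Or.inr (Or.inr (Or.inr (Or.inr (Or.inl rfl))))), rfl⟩
          · exact ⟨_, Or.inr (Or.inr (Or.inr (Or.inr (Or.inr (Or.inr rfl))))), rfl⟩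
      obtain ⟨e0, h0, rfl⟩ := hsub he
      exact this e0 h0
    intro e0 h0
    rw [← mul_inv_eq_one, ← map_inv, ← map_mul]
    exact Q0.quot_rel D ⟨e0, h0, rfl⟩
  have hgen := Q0.quot_gen D (Pre.free_gen k)
  obtain ⟨A⟩ := ShiftAlg.exists_hom φs hker hrel hgen
  have hfp0 : Group.IsFinitelyPresented (Pre.Free k) := Pre.free_fp k
  have F := A.fam hrel
  refine ⟨_, inferInstance, A.rho hrel, Q0.quot_fp D hD, A.compat hrel φh,
    ⟨Q.sh, A.rho_up hrel, fun y => by rw [F.x0_eq]; exact Q.rule y⟩, A.generated hrel hgen,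
    fun B _ ρ' hc hs' => ?_⟩
  obtain ⟨Q', p, lam, hQ', F', hp', hl'⟩ := rel_of_compat hker φh hc hs'
  obtain ⟨f0, hf0⟩ := Pre.free_univ Q'
  obtain ⟨f, hf⟩ := Q0.quot_univ D hf0 (by
    rintro _ ⟨e0, h0, rfl⟩
    rw [map_mul, map_inv, mul_inv_eq_one]
    exact hQ' _ (Pre.eqs_map R hs cw hf0 h0))
  refine ⟨f, fun n _ w => ?_⟩
  have key : ∀ n, f.comp (A.rho hrel n) = ρ' n := by
    intro n
    induction n with
    | zero =>
      refine MonoidHom.ext fun w => ?_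
      obtain rfl : w = 1 := Lvl.ext (Subsingleton.elim _ _) (funext fun i => i.elim0)
      rw [map_one, map_one]
    | succ n ih =>
      refine Lvl.hom_ext_gen (fun q g => ?_) fun q hq => ?_
      · refine Fin.lastCases ?_ (fun j => ?_) q
        · obtain ⟨u, rfl⟩ := φs g
          rcases n with - | n
          · rw [MonoidHom.comp_apply, show Fin.last 0 = (0 : Fin 1) from rfl, F.hp, F'.hp, A.hp,
              hf.u, hp']
          · rw [MonoidHom.comp_apply, F.hlam, F'.hlam, A.hlam, hf.v, hl']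
        · rw [MonoidHom.comp_apply, F.twist_castSucc, F'.twist_castSucc, hf.sh,
            ← DFunLike.congr_fun ih]
          rfl
      · by_cases h : q + 1 < n
        · have e : (Lvl.perm (swap ⟨q, Nat.lt_of_succ_lt hq⟩ ⟨q + 1, hq⟩) : Lvl P (n + 1)) =
              Lvl.perm (swap (⟨q, by omega⟩ : Fin n).castSucc (⟨q + 1, h⟩ : Fin n).castSucc) := rfl
          rw [e, MonoidHom.comp_apply, F.swap_castSucc, F'.swap_castSucc, hf.sh,
            ← DFunLike.congr_fun ih]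
          rfl
        · obtain rfl : q + 1 = n := by omega
          rcases q with - | q
          · rw [MonoidHom.comp_apply]
            exact (congrArg f F.hE).trans (hf.sE.trans F'.hE.symm)
          · rw [MonoidHom.comp_apply]
            exact (congrArg f (F.hM q)).trans (hf.sM.trans (F'.hM q).symm)
  exact DFunLike.congr_fun (key n) w

end Vale.P193.Host
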