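import Vale.Agent.P193.Host.Incomp

/-!
# Reachable frames and the permutations carrying one frame to another
-/

namespace Vale.P193.Host

variable {S P : Type*} [Group P] [MulAction P S]

/-- A frame as a map into the cube. -/
def emb {n : ℕ} (F : Frame P S n) (y : Fin n × X S) : X S :=
  ins (F y.1).1 (tw (F y.1).2 y.2)

theorem carries_iff {n : ℕ} {g : Equiv.Perm (X S)} {F F' : Frame P S n} :
    Carries g F F' ↔ ∀ y, g (emb F y) = emb F' y :=
  ⟨fun h y => h y.1 y.2, fun h i x => h (i, x)⟩

@[simp] theorem ins_nil (x : X S) : ins (fun _ => []) x = x := by funext s i; simp [ins]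

theorem carries_one {n : ℕ} (F : Frame P S n) : Carries 1 F F := fun _ _ => rfl

theorem Carries.symm {n : ℕ} {g : Equiv.Perm (X S)} {F F' : Frame P S n} (h : Carries g F F') :
    Carries g⁻¹ F' F := fun i x => by rw [← h i x]; exact g.symm_apply_apply _

theorem Carries.comp {n : ℕ} {g g' : Equiv.Perm (X S)} {F F' F'' : Frame P S n}
    (h : Carries g F F') (h' : Carries g' F' F'') : Carries (g' * g) F F'' := fun i x => by
  rw [Equiv.Perm.mul_apply, h i x, h' i x]

theorem emb_act {n : ℕ} (F : Frame P S n) (w : Lvl P n) (i : Fin n) (x : X S) :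
    emb (act F w) (i, x) = emb F (w.σ i, tw (w.t i) x) := by
  simp [emb, act]

theorem Carries.act {n : ℕ} {g : Equiv.Perm (X S)} {F F' : Frame P S n} (h : Carries g F F')
    (w : Lvl P n) : Carries g (Host.act F w) (Host.act F' w) := carries_iff.2 fun ⟨i, x⟩ => by
  rw [emb_act, emb_act]; exact h _ _

/-- Bricks and labels are determined by the map. -/
theorem emb_injective [FaithfulSMul P S] {n : ℕ} {F G : Frame P S n} (h : ∀ y, emb F y = emb G y) :
    F = G := by
  funext i
  have key : ∀ s, (F i).1 s = (G i).1 s := fun s => by
    have hb : ∀ (b : Bool) (k : ℕ), (if hk : k < ((F i).1 s).length then ((F i).1 s)[k] else b) =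
        if hk : k < ((G i).1 s).length then ((G i).1 s)[k] else b := fun b k => by
      have := congrFun (congrFun (h (i, fun _ _ => b)) s) k
      simpa [emb, ins] using this
    refine List.ext_getElem ?_ fun k h1 h2 => ?_
    · rcases Nat.lt_trichotomy ((F i).1 s).length ((G i).1 s).length with hl | hl | hl
      · have h0 := hb false ((F i).1 s).length
        have h1 := hb true ((F i).1 s).length
        rw [dif_neg (lt_irrefl _), dif_pos hl] at h0 h1
        exact absurd (h0.trans h1.symm) Bool.false_ne_true
      · exact hl
      · have h0 := hb false ((G i).1 s).length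
        have h1 := hb true ((G i).1 s).length
        rw [dif_neg (lt_irrefl _), dif_pos hl] at h0 h1
        exact absurd (h0.symm.trans h1) Bool.false_ne_true
    · have := hb false k
      simpa [h1, h2] using this
  refine Prod.ext (funext key) ?_
  have hp : (F i).2⁻¹ = (G i).2⁻¹ := eq_of_smul_eq_smul fun s => by
    classical
    have := h (i, fun u _ => decide (u = (F i).2⁻¹ • s))
    simp only [emb, funext key] at this
    have h2 := congrFun (congrFun (ins_injective _ this) s) 0
    simp only [tw_apply, decide_true] at h2
    exact (of_decide_eq_true h2.symm).symm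
  exact inv_injective hp

theorem Carries.right_unique [FaithfulSMul P S] {n : ℕ} {g : Equiv.Perm (X S)}
    {F F' F'' : Frame P S n} (h : Carries g F F') (h' : Carries g F F'') : F' = F'' :=
  emb_injective fun y => (carries_iff.1 h y).symm.trans (carries_iff.1 h' y)

variable [DecidableEq S] {s₀ : S}

theorem pm_atom (p : P) (s : S) (b : Bool) :
    pm p (atom s b) = atom (p • s) b := by
  funext t
  by_cases h : t = p • s
  · subst h; simp [pm, atom]
  · have h2 : p⁻¹ • t ≠ s := fun h' => h (by rw [← h', smul_inv_smul])
    simp [pm, atom, h, h2]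

theorem ins_child (φ : Brick S) (p : P) (s : S) (b : Bool) (x : X S) :
    ins (child φ (p • s) b) (tw p x) = ins φ (tw p (ins (atom s b) x)) := by
  rw [child, ins_bmul, tw_ins, pm_atom]

/-- The bisected position in the old frame. -/
def halve (s₀ : S) {n : ℕ} (y : Fin (n + 2) × X S) : Fin (n + 1) × X S :=
  Fin.cases (0, ins (atom s₀ false) y.2)
    (fun j => Fin.cases (0, ins (atom s₀ true) y.2) (fun k => (k.succ, y.2)) j) y.1

@[simp] theorem halve_zero {n : ℕ} (x : X S) :
    halve s₀ ((0 : Fin (n + 2)), x) = (0, ins (atom s₀ false) x) := rfl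

@[simp] theorem halve_one {n : ℕ} (x : X S) :
    halve s₀ ((1 : Fin (n + 2)), x) = (0, ins (atom s₀ true) x) := rfl

@[simp] theorem halve_succ {n : ℕ} (k : Fin n) (x : X S) :
    halve s₀ (k.succ.succ, x) = (k.succ, x) := rfl

theorem emb_split0 {n : ℕ} (F : Frame P S (n + 1)) (y : Fin (n + 2) × X S) :
    emb (split0 s₀ F) y = emb F (halve s₀ y) := by
  obtain ⟨i, x⟩ := y
  refine Fin.cases ?_ (fun j => ?_) i
  · simp [emb, split0, ins_child]
  · refine Fin.cases ?_ (fun k => ?_) j
    · simp [emb, split0, ins_child]
    · simp [emb, split0, Fin.tail]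

theorem Carries.split {n : ℕ} {g : Equiv.Perm (X S)} {F F' : Frame P S (n + 1)}
    (h : Carries g F F') : Carries g (split0 s₀ F) (split0 s₀ F') := carries_iff.2 fun y => by
  rw [emb_split0, emb_split0]; exact carries_iff.1 h _

theorem halve_bijective {n : ℕ} : Function.Bijective (halve s₀ : Fin (n + 2) × X S → _) := by
  have hs : ∀ (b : Bool) (x : X S), ins (atom s₀ b) x s₀ 0 = b := fun b x => by
    simp [ins, atom]
  refine ⟨fun ⟨i, x⟩ ⟨j, y⟩ h => ?_, fun ⟨i, x⟩ => ?_⟩
  · induction i using Fin.cases with
    | zero =>
      induction j using Fin.cases with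
      | zero => simpa [(ins_injective _).eq_iff] using h
      | succ j =>
        induction j using Fin.cases with
        | zero =>
          have := congrArg (fun z => z.2 s₀ 0) h
          simp [hs] at this
        | succ k => simp [(Fin.succ_ne_zero _).symm] at h
    | succ i =>
      induction j using Fin.cases with
      | zero =>
        induction i using Fin.cases with
        | zero =>
          have := congrArg (fun z => z.2 s₀ 0) h
          simp [hs] at this
        | succ k => simp [Fin.succ_ne_zero] at h
      | succ j =>
        induction i using Fin.cases with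
        | zero =>
          induction j using Fin.cases with
          | zero => simpa [(ins_injective _).eq_iff] using h
          | succ k => simp [(Fin.succ_ne_zero _).symm] at h
        | succ k =>
          induction j using Fin.cases with
          | zero => simp [Fin.succ_ne_zero] at h
          | succ l => simpa using h
  · induction i using Fin.cases with
    | succ k => exact ⟨(k.succ.succ, x), by simp⟩
    | zero =>
      refine ⟨(if x s₀ 0 then 1 else 0,
        Function.update x s₀ fun k => x s₀ (k + 1)), ?_⟩
      have e : ins (atom s₀ (x s₀ 0)) (Function.update x s₀ fun k => x s₀ (k + 1)) = x := by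
        funext s k
        by_cases h : s = s₀
        · subst h
          rcases k with - | k <;> simp [ins, atom]
        · simp [ins, atom, h]
      cases hb : x s₀ 0 <;> simp [hb] at e <;> simp [e]

theorem Reach.bijective {n : ℕ} {F : Frame P S n} (h : Reach s₀ n F) :
    Function.Bijective (emb F) := by
  induction h with
  | root =>
    exact ⟨fun a b h => Prod.ext (Subsingleton.elim (α := Fin 1) _ _)
      (by simpa [emb, Host.root] using h), fun x => ⟨(0, x), by simp [emb, Host.root]⟩⟩
  | @act n F w _ ih =>
    rw [show emb (Host.act F w) = emb F ∘ fun y => (w.σ y.1, tw (w.t y.1) y.2) from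
      funext fun y => emb_act F w y.1 y.2]
    refine ih.comp ?_
    refine ⟨fun a b h => ?_, fun ⟨i, x⟩ => ⟨(w.σ.symm i, (tw (w.t (w.σ.symm i))).symm x), by simp⟩⟩
    obtain ⟨h1, h2⟩ := Prod.ext_iff.1 h
    have h3 := w.σ.injective h1
    refine Prod.ext h3 ((tw (w.t a.1)).injective ?_)
    simpa [h3] using h2
  | @split n F _ ih =>
    rw [show emb (split0 s₀ F) = emb F ∘ halve s₀ from funext (emb_split0 F)]
    exact ih.comp halve_bijective

theorem Carries.unique {n : ℕ} {g g' : Equiv.Perm (X S)} {F F' : Frame P S n}
    (hF : Reach s₀ n F) (h : Carries g F F') (h' : Carries g' F F') : g = g' :=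
  Equiv.ext fun x => by
    obtain ⟨y, rfl⟩ := hF.bijective.2 x
    rw [carries_iff.1 h, carries_iff.1 h']

theorem exists_carries {n : ℕ} {F F' : Frame P S n} (hF : Reach s₀ n F) (hF' : Reach s₀ n F') :
    ∃ g : Equiv.Perm (X S), Carries g F F' := by
  refine ⟨(Equiv.ofBijective _ hF.bijective).symm.trans (Equiv.ofBijective _ hF'.bijective),
    carries_iff.2 fun y => ?_⟩
  rw [Equiv.trans_apply]
  simp [Equiv.ofBijective_symm_apply_apply]

theorem Reach.existsUnique {n : ℕ} {F : Frame P S n} (h : Reach s₀ n F) (x : X S) :
    ∃! i, x ∈ Set.range (ins (F i).1) := by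
  obtain ⟨⟨i, y⟩, rfl⟩ := h.bijective.2 x
  refine ⟨i, ⟨tw (F i).2 y, rfl⟩, fun j ⟨z, hz⟩ => ?_⟩
  have : emb F (j, (tw (F j).2).symm z) = emb F (i, y) := by simpa [emb] using hz
  exact congrArg Prod.fst (h.bijective.1 this)

theorem Reach.incomp {n : ℕ} {F : Frame P S n} (h : Reach s₀ n F) :
    ∀ i j, i ≠ j → Incomp (F i).1 (F j).1 := by
  induction h with
  | root => exact fun i j hij => absurd (Subsingleton.elim (α := Fin 1) i j) hij
  | act w _ ih => exact fun i j hij => ih _ _ (w.σ.injective.ne hij)
  | @split n F _ ih =>
    intro i j hij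
    induction i using Fin.cases with
    | zero =>
      induction j using Fin.cases with
      | zero => exact absurd rfl hij
      | succ j =>
        induction j using Fin.cases with
        | zero => exact incomp_child _ _
        | succ k =>
          exact (ih 0 k.succ (Fin.succ_ne_zero k).symm).below_left (below_child _ _ _)
    | succ i =>
      induction j using Fin.cases with
      | zero =>
        induction i using Fin.cases with
        | zero => exact (incomp_child _ _).symm
        | succ k =>
          exact ((ih 0 k.succ (Fin.succ_ne_zero k).symm).below_left (below_child _ _ _)).symm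
      | succ j =>
        induction i using Fin.cases with
        | zero =>
          induction j using Fin.cases with
          | zero => exact absurd rfl hij
          | succ k =>
            exact (ih 0 k.succ (Fin.succ_ne_zero k).symm).below_left (below_child _ _ _)
        | succ k =>
          induction j using Fin.cases with
          | zero =>
            exact ((ih 0 k.succ (Fin.succ_ne_zero k).symm).below_left (below_child _ _ _)).symm
          | succ l => exact ih k.succ l.succ (fun e => hij (congrArg Fin.succ e))

/-- Refinements of a frame. -/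
inductive Refines (s₀ : S) {n : ℕ} (F : Frame P S n) : ∀ m, Frame P S m → Prop
  | refl : Refines s₀ F n F
  | act {m} {G : Frame P S m} (w : Lvl P m) : Refines s₀ F m G → Refines s₀ F m (act G w)
  | split {m} {G : Frame P S (m + 1)} :
      Refines s₀ F (m + 1) G → Refines s₀ F (m + 2) (split0 s₀ G)

theorem Refines.reach {n m : ℕ} {F : Frame P S n} {G : Frame P S m} (h : Refines s₀ F m G)
    (hF : Reach s₀ n F) : Reach s₀ m G := by
  induction h with
  | refl => exact hF
  | act w _ ih => exact .act w ih
  | split _ ih => exact .split ih

theorem Refines.carries {n m : ℕ} {g : Equiv.Perm (X S)} {F F' : Frame P S n} {G : Frame P S m}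
    (h : Refines s₀ F m G) (hg : Carries g F F') :
    ∃ G', Refines s₀ F' m G' ∧ Carries g G G' := by
  induction h with
  | refl => exact ⟨F', .refl, hg⟩
  | act w _ ih => obtain ⟨G', h1, h2⟩ := ih; exact ⟨_, .act w h1, h2.act w⟩
  | split _ ih => obtain ⟨G', h1, h2⟩ := ih; exact ⟨_, .split h1, h2.split⟩

end Vale.P193.Host
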