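import Vale.Agent.P193.Host.Plan
import Vale.Agent.P193.Host.Frames

/-!
# Simplicity of the twisted Brin-Thompson group (piece A, module Simple)

From the module Tree (`SVStmt`): the group is simple and contains `P`.
-/

namespace Vale.P193.Host

variable {P S : Type} [Group P] [MulAction P S]

section bricks

@[simp] theorem bmul_nil (φ : Brick S) : bmul φ (fun _ => []) = φ := by
  funext s; simp [bmul]

@[simp] theorem nil_bmul (φ : Brick S) : bmul (fun _ => []) φ = φ := by
  funext s; simp [bmul]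

theorem bmul_assoc (φ ψ χ : Brick S) : bmul (bmul φ ψ) χ = bmul φ (bmul ψ χ) := by
  funext s; simp [bmul]

theorem ins_apply_lt {φ : Brick S} {x : X S} {t : S} {j : ℕ} (h : j < (φ t).length) :
    ins φ x t j = (φ t)[j] := by
  simp [ins, h]

theorem ins_apply_ge {φ : Brick S} {x : X S} {t : S} {j : ℕ} (h : ¬ j < (φ t).length) :
    ins φ x t j = x t (j - (φ t).length) := by
  simp [ins, h]

theorem eq_of_mem_range {φ : Brick S} {y z : X S} (hy : y ∈ Set.range (ins φ))
    (hz : z ∈ Set.range (ins φ)) {t : S} {j : ℕ} (h : j < (φ t).length) : z t j = y t j := by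
  obtain ⟨a, rfl⟩ := hy
  obtain ⟨b, rfl⟩ := hz
  rw [ins_apply_lt h, ins_apply_lt h]

theorem apply_inv' (g : Equiv.Perm (X S)) (x : X S) : g (g⁻¹ x) = x := g.apply_symm_apply x

theorem inv_apply' (g : Equiv.Perm (X S)) (x : X S) : g⁻¹ (g x) = x := g.symm_apply_apply x

theorem tw_one_apply (x : X S) : tw (1 : P) x = x := by rw [map_one]; rfl

theorem tw_mul_apply (p q : P) (x : X S) : tw (p * q) x = tw p (tw q x) := by
  rw [map_mul]; rfl

theorem tw_cancel (p : P) (x : X S) : tw p (tw p⁻¹ x) = x := by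
  rw [← tw_mul_apply, mul_inv_cancel, tw_one_apply]

variable [DecidableEq S]

theorem atom_self (s : S) (b : Bool) : atom s b s = [b] := by simp [atom]

theorem atom_of_ne {s t : S} (h : t ≠ s) (b : Bool) : atom s b t = [] := by simp [atom, h]

theorem child_nil (s : S) (b : Bool) : child (fun _ => []) s b = atom s b := by simp [child]

theorem bmul_atom_comm {φ : Brick S} {u : S} (h : φ u = []) (b : Bool) :
    bmul φ (atom u b) = bmul (atom u b) φ := by
  funext t
  by_cases ht : t = u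
  · subst ht; simp [bmul, h]
  · simp [bmul, atom_of_ne ht]

theorem atom_not_mem (u : S) {b b' : Bool} (h : b ≠ b') (x : X S) :
    ins (atom u b) x ∉ Set.range (ins (atom u b')) := by
  rintro ⟨z, hz⟩
  have := congrFun (congrFun hz u) 0
  simp [ins, atom_self] at this
  exact h this.symm

theorem tw_atom (p : P) (s : S) (b : Bool) (x : X S) :
    tw p (ins (atom s b) x) = ins (atom (p • s) b) (tw p x) := by
  rw [tw_ins, pm_atom]

end bricks

variable [DecidableEq S] {s₀ : S} {c : P}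

section frames

variable {n : ℕ} {F F' F'' : Frame P S n} {g h : Equiv.Perm (X S)}

omit [DecidableEq S] in
theorem Carries.mul (h1 : Carries g F F') (h2 : Carries h F' F'') : Carries (h * g) F F'' :=
  fun i x => by rw [Equiv.Perm.mul_apply, h1, h2]

omit [DecidableEq S] in
theorem Carries.inv (h1 : Carries g F F') : Carries g⁻¹ F' F :=
  fun i x => g.injective (by rw [apply_inv', h1])

theorem Carries.splitAt (s₀ : S) {n : ℕ} {F F' : Frame P S (n + 1)} (h1 : Carries g F F') :
    Carries g (split0 s₀ F) (split0 s₀ F') := by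
  have key : ∀ b x, g (ins (child (F 0).1 ((F 0).2 • s₀) b) (tw (F 0).2 x)) =
      ins (child (F' 0).1 ((F' 0).2 • s₀) b) (tw (F' 0).2 x) := fun b x => by
    simp only [child, ins_bmul, ← tw_atom]
    exact h1 0 _
  intro i x
  refine Fin.cases ?_ (fun j => ?_) i
  · simpa [split0] using key false x
  · refine Fin.cases ?_ (fun k => ?_) j
    · simpa [split0] using key true x
    · simpa [split0, Fin.tail] using h1 k.succ x

/-- The standard frame of size `n`: only the base coordinate is bisected. -/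
def stdF (s₀ : S) : ∀ n, Frame P S n
  | 0 => Fin.elim0
  | 1 => root
  | n + 2 => split0 s₀ (stdF s₀ (n + 1))

theorem reach_std (s₀ : S) : ∀ n, Reach s₀ (n + 1) (stdF (P := P) s₀ (n + 1))
  | 0 => Reach.root
  | n + 1 => Reach.split (reach_std s₀ n)

theorem std_prop (s₀ : S) : ∀ n (i : Fin n),
    (stdF (P := P) s₀ n i).2 = 1 ∧ ∀ s, s ≠ s₀ → (stdF (P := P) s₀ n i).1 s = []
  | 0, i => i.elim0
  | 1, i => ⟨rfl, fun _ _ => rfl⟩
  | n + 2, i => by
    have ih : ∀ j, (stdF (P := P) s₀ (n + 1) j).2 = 1 ∧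
        ∀ s, s ≠ s₀ → (stdF (P := P) s₀ (n + 1) j).1 s = [] := std_prop s₀ (n + 1)
    refine Fin.cases ?_ (fun j => ?_) i
    · refine ⟨by simp [stdF, split0, ih 0], fun s hs => ?_⟩
      simp [stdF, split0, ih 0, child, bmul, atom_of_ne hs, (ih 0).2 s hs]
    · refine Fin.cases ?_ (fun k => ?_) j
      · refine ⟨by simp [stdF, split0, ih 0], fun s hs => ?_⟩
        simp [stdF, split0, ih 0, child, bmul, atom_of_ne hs, (ih 0).2 s hs]
      · simpa [stdF, split0, Fin.tail] using ih k.succ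

/-- A brick that occurs, with trivial label, in a frame of size at least two. -/
def Proper (P : Type) {S : Type} [Group P] [MulAction P S] [DecidableEq S] (s₀ : S)
    (φ : Brick S) : Prop :=
  ∃ (n : ℕ) (F : Frame P S (n + 2)), Reach s₀ (n + 2) F ∧ F 0 = (φ, 1)

theorem Proper.mk' {n : ℕ} {F : Frame P S (n + 2)} (hF : Reach s₀ (n + 2) F) (i : Fin (n + 2)) :
    Proper P s₀ (F i).1 := by
  refine ⟨n, _, hF.act ⟨Equiv.swap 0 i, fun _ => (F i).2⁻¹⟩, ?_⟩
  simp [Host.act]

/-- A brick of some frame. -/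
def InFrame (P : Type) {S : Type} [Group P] [MulAction P S] [DecidableEq S] (s₀ : S)
    (φ : Brick S) : Prop :=
  ∃ (n : ℕ) (F : Frame P S (n + 1)), Reach s₀ (n + 1) F ∧ (F 0).1 = φ

theorem Proper.inFrame {φ : Brick S} (h : Proper P s₀ φ) : InFrame P s₀ φ := by
  obtain ⟨n, F, hF, h0⟩ := h
  exact ⟨n + 1, F, hF, by rw [h0]⟩

theorem inFrame_mk {F : Frame P S n} (hF : Reach s₀ n F) (i : Fin n) :
    InFrame P s₀ (F i).1 := by
  match n, F, hF, i with
  | m + 1, F, hF, i => exact ⟨m, _, hF.act (Lvl.perm (Equiv.swap 0 i)), by simp [Host.act]⟩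

theorem InFrame.child (hS : Setting P S s₀ c) {φ : Brick S} (h : InFrame P s₀ φ) (t : S)
    (b : Bool) : Proper P s₀ (Host.child φ t b) := by
  obtain ⟨n, F, hF, h0⟩ := h
  obtain ⟨p, hp⟩ := hS.trans t
  have hF' := (hF.act (Lvl.twist 0 ((F 0).2⁻¹ * p))).split
  cases b
  · simpa [split0, Host.act, h0, hp] using Proper.mk' hF' 0
  · simpa [split0, Host.act, h0, hp] using Proper.mk' hF' 1

theorem halves (hS : Setting P S s₀ c) (u : S) : ∃ F : Frame P S 2,
    Reach s₀ 2 F ∧ F 0 = (atom u false, 1) ∧ F 1 = (atom u true, 1) := by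
  obtain ⟨p, hp⟩ := hS.trans u
  refine ⟨_, ((Reach.root.act (Lvl.twist 0 p)).split).act ⟨1, fun _ => p⁻¹⟩, ?_, ?_⟩ <;>
    simp [split0, Host.act, root, hp, child_nil]

/-- Grafting a frame into the upper half of the base coordinate. -/
def graft (s₀ : S) {n : ℕ} (G : Frame P S n) : Frame P S (n + 1) :=
  Fin.cons (atom s₀ false, 1) fun i => (bmul (atom s₀ true) (G i).1, (G i).2)

theorem reach_graft {n : ℕ} {G : Frame P S n} (hG : Reach s₀ n G) :
    Reach s₀ (n + 1) (graft s₀ G) := by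
  induction hG with
  | root =>
    have e : graft (P := P) s₀ (root : Frame P S 1) = split0 s₀ root := by
      funext i
      refine Fin.cases ?_ (fun j => ?_) i
      · simp [graft, split0, root, child_nil]
      · rw [Subsingleton.elim j 0]
        simp [graft, split0, root, child_nil]
    rw [e]
    exact Reach.root.split
  | @act n F w hF ih =>
    have e : graft s₀ (Host.act F w) =
        Host.act (graft s₀ F) ⟨Equiv.Perm.decomposeFin.symm (0, w.σ), Fin.cases 1 w.t⟩ := by
      funext i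
      refine Fin.cases ?_ (fun j => ?_) i <;> simp [graft, Host.act]
    rw [e]
    exact ih.act _
  | @split n F hF ih =>
    obtain ⟨σ, e0, e1, e2, e3⟩ : ∃ σ : Equiv.Perm (Fin (n + 3)), σ 0 = Fin.succ (Fin.succ 0) ∧
        σ (Fin.succ 0) = 0 ∧ σ (Fin.succ (Fin.succ 0)) = Fin.succ 0 ∧
        ∀ l : Fin n, σ l.succ.succ.succ = l.succ.succ.succ := by
      have ne : ∀ {m : ℕ} (a : Fin m), Fin.succ a ≠ (0 : Fin (m + 1)) := Fin.succ_ne_zero
      refine ⟨Equiv.swap (Fin.succ 0) (Fin.succ (Fin.succ 0)) * Equiv.swap 0 (Fin.succ 0),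
        ?_, ?_, ?_, fun l => ?_⟩
      · rw [Equiv.Perm.mul_apply, Equiv.swap_apply_left, Equiv.swap_apply_left]
      · rw [Equiv.Perm.mul_apply, Equiv.swap_apply_right,
          Equiv.swap_apply_of_ne_of_ne (ne _).symm (ne _).symm]
      · rw [Equiv.Perm.mul_apply,
          Equiv.swap_apply_of_ne_of_ne (ne _) ((Fin.succ_injective _).ne (ne _)),
          Equiv.swap_apply_right]
      · rw [Equiv.Perm.mul_apply,
          Equiv.swap_apply_of_ne_of_ne (ne _) ((Fin.succ_injective _).ne (ne _)),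
          Equiv.swap_apply_of_ne_of_ne ((Fin.succ_injective _).ne (ne _))
            ((Fin.succ_injective _).ne ((Fin.succ_injective _).ne (ne _)))]
    have e : graft s₀ (split0 s₀ F) =
        Host.act (split0 s₀ (Host.act (graft s₀ F) (Lvl.perm (Equiv.swap 0 1))))
          (Lvl.perm σ) := by
      funext i
      simp only [Host.act, Lvl.perm_σ, Lvl.perm_t, mul_one]
      have s1 : (Equiv.swap 0 1 : Equiv.Perm (Fin (n + 2))) (Fin.succ 0) = 0 :=
        Equiv.swap_apply_right _ _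
      have s2 : ∀ l : Fin n, (Equiv.swap 0 1 : Equiv.Perm (Fin (n + 2))) l.succ.succ =
          l.succ.succ := fun l => Equiv.swap_apply_of_ne_of_ne (Fin.succ_ne_zero _)
        ((Fin.succ_injective _).ne (Fin.succ_ne_zero l))
      have s0 : (Equiv.swap 0 1 : Equiv.Perm (Fin (n + 2))) 0 = Fin.succ 0 :=
        Equiv.swap_apply_left _ _
      refine Fin.cases ?_ (fun j => ?_) i
      · rw [e0]
        simp only [graft, split0, Fin.tail, Host.act, Lvl.perm_σ, Lvl.perm_t, mul_one,
          Fin.cons_succ, Fin.cons_zero, s1]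
      · refine Fin.cases ?_ (fun k => ?_) j
        · rw [e1]
          simp only [graft, split0, Host.act, Lvl.perm_σ, Lvl.perm_t, mul_one,
            Fin.cons_succ, Fin.cons_zero, s0, child, bmul_assoc]
        · refine Fin.cases ?_ (fun l => ?_) k
          · rw [e2]
            simp only [graft, split0, Host.act, Lvl.perm_σ, Lvl.perm_t, mul_one,
              Fin.cons_succ, Fin.cons_zero, s0, child, bmul_assoc]
          · rw [e3]
            simp only [graft, split0, Fin.tail, Host.act, Lvl.perm_σ, Lvl.perm_t, mul_one,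
              Fin.cons_succ, s2]
    rw [e]
    exact (ih.act _).split.act _

end frames

/-- What the module Tree provides. -/
structure Facts (P : Type) {S : Type} [Group P] [MulAction P S] [DecidableEq S] (s₀ : S) :
    Prop where
  mem : ∀ g : SV P s₀, ∃ (n : ℕ) (F F' : Frame P S n),
    Reach s₀ n F ∧ Reach s₀ n F' ∧ Carries (g : Equiv.Perm (X S)) F F'
  join : ∀ n (F F' : Frame P S n), Reach s₀ n F → Reach s₀ n F' →
    ∃ g : SV P s₀, Carries (g : Equiv.Perm (X S)) F F'
  part : ∀ n (F : Frame P S n), Reach s₀ n F → ∀ x : X S, ∃! i, x ∈ Set.range (ins (F i).1)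

/-- `k` is the copy of `g` on the brick `φ`. -/
def At (φ : Brick S) (g k : Equiv.Perm (X S)) : Prop :=
  (∀ x, k (ins φ x) = ins φ (g x)) ∧ ∀ y, y ∉ Set.range (ins φ) → k y = y

omit [DecidableEq S] in
theorem At.unique {φ : Brick S} {g k k' : Equiv.Perm (X S)} (h : At φ g k) (h' : At φ g k') :
    k = k' := by
  refine Equiv.ext fun y => ?_
  by_cases hy : y ∈ Set.range (ins φ)
  · obtain ⟨x, rfl⟩ := hy
    rw [h.1, h'.1]
  · rw [h.2 y hy, h'.2 y hy]

omit [DecidableEq S] in
theorem At.mul {φ : Brick S} {g g' k k' : Equiv.Perm (X S)} (h : At φ g k) (h' : At φ g' k') :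
    At φ (g * g') (k * k') :=
  ⟨fun x => by simp [h'.1, h.1], fun y hy => by simp [h'.2 y hy, h.2 y hy]⟩

omit [DecidableEq S] in
theorem At.conj {φ φ' : Brick S} {g k h : Equiv.Perm (X S)} (hk : At φ g k)
    (hh : ∀ x, h (ins φ x) = ins φ' x) : At φ' g (h * k * h⁻¹) := by
  refine ⟨fun x => ?_, fun y hy => ?_⟩
  · simp only [Equiv.Perm.mul_apply]
    rw [← hh, inv_apply', hk.1, hh]
  · have : h⁻¹ y ∉ Set.range (ins φ) := by
      rintro ⟨x, hx⟩
      exact hy ⟨x, by rw [← hh, hx, apply_inv']⟩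
    simp only [Equiv.Perm.mul_apply]
    rw [hk.2 _ this, apply_inv']

omit [DecidableEq S] in
theorem At.comp {φ ψ : Brick S} {g k l : Equiv.Perm (X S)} (hk : At ψ g k) (hl : At φ k l) :
    At (bmul φ ψ) g l := by
  refine ⟨fun x => by rw [ins_bmul, hl.1, hk.1, ← ins_bmul], fun y hy => ?_⟩
  by_cases h : y ∈ Set.range (ins φ)
  · obtain ⟨x, rfl⟩ := h
    rw [hl.1, hk.2 x]
    rintro ⟨z, rfl⟩
    exact hy ⟨z, ins_bmul φ ψ z⟩
  · exact hl.2 y h

/-- The twist of the whole cube as an element of the group. -/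
def twT (s₀ : S) : P →* SV P s₀ :=
  tw.codRestrict (SV P s₀) fun p => Subgroup.subset_closure
    ⟨1, root, act root (Lvl.twist 0 p), Reach.root, Reach.root.act _, fun i x => by
      rw [Subsingleton.elim i 0]; simp [root, act]⟩

theorem twT_coe (p : P) : ((twT s₀ p : SV P s₀) : Equiv.Perm (X S)) = tw p := rfl

namespace Facts

variable (hT : Facts P s₀)
include hT

theorem cover {n : ℕ} {F : Frame P S n} (hF : Reach s₀ n F) (y : X S) :
    ∃ i x, y = ins (F i).1 (tw (F i).2 x) := by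
  obtain ⟨i, ⟨x, rfl⟩, -⟩ := hT.part n F hF y
  exact ⟨i, tw (F i).2⁻¹ x, by rw [tw_cancel]⟩

theorem carries_unique {n : ℕ} {F F' : Frame P S n} (hF : Reach s₀ n F) {g g' : SV P s₀}
    (h : Carries (g : Equiv.Perm (X S)) F F') (h' : Carries (g' : Equiv.Perm (X S)) F F') :
    g = g' := by
  refine Subtype.ext (Equiv.ext fun y => ?_)
  obtain ⟨i, x, rfl⟩ := hT.cover hF y
  rw [h, h']

theorem disjoint {n : ℕ} {F : Frame P S n} (hF : Reach s₀ n F) {i j : Fin n} (h : i ≠ j)
    (x : X S) : ins (F i).1 x ∉ Set.range (ins (F j).1) := fun hj =>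
  h ((hT.part n F hF (ins (F i).1 x)).unique ⟨x, rfl⟩ hj)

theorem conjugate {φ φ' : Brick S} (h : Proper P s₀ φ) (h' : Proper P s₀ φ') :
    ∃ g : SV P s₀, ∀ x, (g : Equiv.Perm (X S)) (ins φ x) = ins φ' x := by
  have grow : ∀ k n (F : Frame P S (n + 2)), Reach s₀ (n + 2) F →
      ∃ F' : Frame P S (n + k + 2), Reach s₀ (n + k + 2) F' ∧ F' 0 = F 0 := by
    intro k
    induction k with
    | zero => exact fun n F hF => ⟨F, hF, rfl⟩
    | succ k ih =>
      intro n F hF
      obtain ⟨G, hG, h0⟩ := ih n F hF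
      refine ⟨_, (hG.act (Lvl.perm (Equiv.swap 0 1))).split.act (Lvl.perm (Equiv.swap 0 2)), ?_⟩
      have h2 : (Equiv.swap 0 2 : Equiv.Perm (Fin (n + k + 3))) 0 = Fin.succ (Fin.succ 0) :=
        Equiv.swap_apply_left _ _
      have h1 : (Equiv.swap 0 1 : Equiv.Perm (Fin (n + k + 2))) (Fin.succ 0) = 0 :=
        Equiv.swap_apply_right _ _
      simp only [Host.act, split0, Fin.tail, Lvl.perm_σ, Lvl.perm_t, mul_one, h2,
        Fin.cons_succ, h1, h0]
  obtain ⟨n, F, hF, hF0⟩ := h
  obtain ⟨m, F', hF', hF'0⟩ := h'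
  obtain ⟨G, hG, hG0⟩ := grow m n F hF
  obtain ⟨G', hG', hG'0⟩ := grow n m F' hF'
  have aux : ∀ a b (G : Frame P S (a + 2)) (G' : Frame P S (b + 2)), Reach s₀ (a + 2) G →
      Reach s₀ (b + 2) G' → a = b → G 0 = (φ, 1) → G' 0 = (φ', 1) →
      ∃ g : SV P s₀, ∀ x, (g : Equiv.Perm (X S)) (ins φ x) = ins φ' x := by
    intro a b G G' hG hG' hab e e'
    subst hab
    obtain ⟨g, hg⟩ := hT.join _ G G' hG hG'
    exact ⟨g, fun x => by simpa [e, e', tw_one_apply] using hg 0 x⟩
  exact aux _ _ G G' hG hG' (Nat.add_comm n m) (hG0.trans hF0) (hG'0.trans hF'0)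

omit hT in
theorem proper_half (b : Bool) : Proper P s₀ (atom s₀ b) := by
  cases b
  · simpa [split0, root, child_nil] using
      Proper.mk' ((Reach.root (P := P) (S := S) (s₀ := s₀)).split) 0
  · simpa [split0, root, child_nil] using
      Proper.mk' ((Reach.root (P := P) (S := S) (s₀ := s₀)).split) 1

omit hT in
theorem proper_quarter : Proper P s₀ (bmul (atom s₀ true) (atom s₀ true)) := by
  have h := Proper.mk' (reach_graft ((Reach.root (P := P) (S := S) (s₀ := s₀)).split))
    (Fin.succ (Fin.succ 0))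
  simp only [graft, split0, root, Fin.cons_succ, Fin.cons_zero, one_smul, child_nil] at h
  exact h

theorem exists_at {φ : Brick S} (hφ : Proper P s₀ φ) (g : SV P s₀) :
    ∃ k : SV P s₀, At φ (g : Equiv.Perm (X S)) (k : Equiv.Perm (X S)) := by
  obtain ⟨h, hh⟩ := hT.conjugate (proper_half true) hφ
  obtain ⟨n, G, G', hG, hG', hg⟩ := hT.mem g
  obtain ⟨k, hk⟩ := hT.join _ _ _ (reach_graft hG) (reach_graft hG')
  refine ⟨h * k * h⁻¹, ?_⟩
  refine At.conj ?_ hh
  refine ⟨fun x => ?_, fun y hy => ?_⟩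
  · obtain ⟨i, z, rfl⟩ := hT.cover hG x
    have := hk i.succ z
    simp only [graft, Fin.cons_succ, ins_bmul] at this
    rw [this, hg]
  · obtain ⟨i, z, hz⟩ := hT.cover (Reach.root (P := P) (S := S) (s₀ := s₀)).split y
    subst hz
    revert hy
    refine Fin.cases ?_ (fun j => ?_) i
    · intro _
      have := hk 0 z
      simpa [graft, split0, root, child_nil] using this
    · intro hy
      rw [Subsingleton.elim j 0] at hy
      exact absurd ⟨z, by simp [split0, root, child_nil]⟩ hy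

/-- The copy of the group on a proper brick. -/
noncomputable def place {φ : Brick S} (hφ : Proper P s₀ φ) : SV P s₀ →* SV P s₀ :=
  MonoidHom.mk' (fun g => (hT.exists_at hφ g).choose) fun g g' => Subtype.ext <| by
    have h := (hT.exists_at hφ g).choose_spec.mul (hT.exists_at hφ g').choose_spec
    have h' := (hT.exists_at hφ (g * g')).choose_spec
    exact At.unique (φ := φ) (g := ((g * g' : SV P s₀) : Equiv.Perm (X S))) h' h

theorem place_at {φ : Brick S} (hφ : Proper P s₀ φ) (g : SV P s₀) :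
    At φ (g : Equiv.Perm (X S)) (hT.place hφ g : Equiv.Perm (X S)) :=
  (hT.exists_at hφ g).choose_spec

theorem place_conj {φ φ' : Brick S} (hφ : Proper P s₀ φ) (hφ' : Proper P s₀ φ') :
    ∃ h : SV P s₀, ∀ g, hT.place hφ' g = h * hT.place hφ g * h⁻¹ := by
  obtain ⟨h, hh⟩ := hT.conjugate hφ hφ'
  refine ⟨h, fun g => Subtype.ext ?_⟩
  exact (hT.place_at hφ' g).unique (by simpa using (hT.place_at hφ g).conj hh)

theorem place_place (g : SV P s₀) :
    hT.place (proper_half true) (hT.place (proper_half true) g) = hT.place proper_quarter g :=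
  Subtype.ext <| ((hT.place_at _ g).comp (hT.place_at _ _)).unique (hT.place_at _ g)

/-- An element commuting with the bisection in the coordinate `u`. -/
def Dec (_ : Facts P s₀) (u : S) (g : SV P s₀) : Prop :=
  ∀ b x, (g : Equiv.Perm (X S)) (ins (atom u b) x) =
    ins (atom u b) ((g : Equiv.Perm (X S)) x)

variable (hS : Setting P S s₀ c)
include hS

omit hT in
theorem proper_atom (u : S) (b : Bool) : Proper P s₀ (atom u b) := by
  have := InFrame.child hS
    (inFrame_mk (Reach.root (P := P) (S := S) (s₀ := s₀)) 0) u b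
  simpa [root, child_nil] using this

theorem atom_cases (u : S) (y : X S) : ∃ b x, y = ins (atom u b) x := by
  obtain ⟨F, hF, h0, h1⟩ := halves hS u
  obtain ⟨i, ⟨x, rfl⟩, -⟩ := hT.part 2 F hF y
  refine Fin.cases ?_ (fun j => ?_) i
  · exact ⟨false, x, by rw [h0]⟩
  · rw [Subsingleton.elim j 0, Fin.succ_zero_eq_one, h1]
    exact ⟨true, x, rfl⟩

theorem place_two_apply (u : S) (g : SV P s₀) (b : Bool) (x : X S) :
    ((hT.place (proper_atom hS u false) g * hT.place (proper_atom hS u true) g : SV P s₀) :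
      Equiv.Perm (X S)) (ins (atom u b) x) = ins (atom u b) ((g : Equiv.Perm (X S)) x) := by
  rw [Subgroup.coe_mul, Equiv.Perm.mul_apply]
  cases b
  · rw [(hT.place_at _ g).2 _ (atom_not_mem u (by simp) x), (hT.place_at _ g).1]
  · rw [(hT.place_at _ g).1, (hT.place_at _ g).2 _ (atom_not_mem u (by simp) _)]

theorem dec_eq {u : S} {g : SV P s₀} (hg : hT.Dec u g) :
    g = hT.place (proper_atom hS u false) g * hT.place (proper_atom hS u true) g := by
  refine Subtype.ext (Equiv.ext fun y => ?_)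
  obtain ⟨b, x, rfl⟩ := hT.atom_cases hS u y
  rw [hT.place_two_apply hS, hg]

theorem twc_eq : ∃ U : SV P s₀, (∃ u, hT.Dec u U) ∧ twT s₀ c =
    hT.place (proper_atom hS (c • s₀) false) (twT s₀ c) *
      hT.place (proper_atom hS (c • s₀) true) (twT s₀ c) * U := by
  have := hS.infinite
  obtain ⟨u, hu⟩ := Infinite.exists_notMem_finset ({s₀, c • s₀} : Finset S)
  simp only [Finset.mem_insert, Finset.mem_singleton, not_or] at hu
  obtain ⟨F, hF, hF0, hF1⟩ := halves hS s₀
  obtain ⟨F', hF', hF'0, hF'1⟩ := halves hS (c • s₀)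
  obtain ⟨U, hU⟩ := hT.join 2 F F' hF hF'
  have hU' : ∀ b x, (U : Equiv.Perm (X S)) (ins (atom s₀ b) x) = ins (atom (c • s₀) b) x := by
    intro b x
    cases b
    · simpa [hF0, hF'0, tw_one_apply] using hU 0 x
    · simpa [hF1, hF'1, tw_one_apply] using hU 1 x
  refine ⟨U, ⟨u, fun b x => ?_⟩, ?_⟩
  · obtain ⟨b', z, rfl⟩ := hT.atom_cases hS s₀ x
    rw [hU', ← ins_bmul, ← ins_bmul, ← bmul_atom_comm (atom_of_ne hu.1 b') b,
      ← bmul_atom_comm (atom_of_ne hu.2 b') b, ins_bmul, ins_bmul, hU']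
  · refine Subtype.ext (Equiv.ext fun y => ?_)
    obtain ⟨b, x, rfl⟩ := hT.atom_cases hS s₀ y
    rw [twT_coe, tw_atom, Subgroup.coe_mul, Equiv.Perm.mul_apply, hU',
      hT.place_two_apply hS, twT_coe]

theorem tw_mem {N : Subgroup (SV P s₀)} (hdec : ∀ u g, hT.Dec u g → g ∈ N)
    (hc : twT s₀ c ∈ N) (p : P) : twT s₀ p ∈ N := by
  have fix : ∀ q : P, q • s₀ = s₀ → twT s₀ q ∈ N := fun q hq => hdec s₀ _ fun b x => by
    rw [twT_coe, tw_atom, hq]
  by_cases hp : p • s₀ = s₀
  · exact fix p hp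
  · obtain ⟨h, hh, hhc⟩ := hS.pairs _ hp
    have h2 : (c⁻¹ * h⁻¹ * p) • s₀ = s₀ := by
      simp [mul_smul, ← hhc]
    have e : p = h * c * (c⁻¹ * h⁻¹ * p) := by group
    rw [e, map_mul, map_mul]
    exact mul_mem (mul_mem (fix h hh) hc) (fix _ h2)

/-- Two frames differ by an element of `N`. -/
def Rel (_ : Facts P s₀) (_ : Setting P S s₀ c) (N : Subgroup (SV P s₀)) {n : ℕ}
    (F F' : Frame P S n) : Prop :=
  ∃ k : SV P s₀, k ∈ N ∧ Carries (k : Equiv.Perm (X S)) F F'

theorem eq_top {N : Subgroup (SV P s₀)} (hdec : ∀ u g, hT.Dec u g → g ∈ N)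
    (hc : twT s₀ c ∈ N)
    (hpl : ∀ φ (hφ : Proper P s₀ φ) (p : P), hT.place hφ (twT s₀ p) ∈ N) : N = ⊤ := by
  have refl : ∀ {n} (F : Frame P S n), hT.Rel hS N F F := fun F =>
    ⟨1, one_mem N, fun i x => rfl⟩
  have symm : ∀ {n} {F F' : Frame P S n}, hT.Rel hS N F F' → hT.Rel hS N F' F := by
    rintro n F F' ⟨k, hk, h⟩
    exact ⟨k⁻¹, inv_mem hk, h.inv⟩
  have trans : ∀ {n} {F F' F'' : Frame P S n},
      hT.Rel hS N F F' → hT.Rel hS N F' F'' → hT.Rel hS N F F'' := by
    rintro n F F' F'' ⟨k, hk, h⟩ ⟨k', hk', h'⟩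
    exact ⟨k' * k, mul_mem hk' hk, h.mul h'⟩
  have twist : ∀ {m} (F : Frame P S (m + 2)), Reach s₀ (m + 2) F → ∀ (i : Fin (m + 2)) (p : P),
      hT.Rel hS N F (Host.act F (Lvl.twist i p)) := by
    intro m F hF i p
    refine ⟨_, hpl _ (Proper.mk' hF i) ((F i).2 * p * (F i).2⁻¹), fun j x => ?_⟩
    by_cases h : j = i
    · subst h
      rw [(hT.place_at _ _).1, twT_coe, ← tw_mul_apply]
      simp [Host.act]
    · rw [(hT.place_at _ _).2 _ (hT.disjoint hF h _)]
      simp [Host.act, h]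
  have twists : ∀ {m} (s : Finset (Fin (m + 2))) (t : Fin (m + 2) → P) (F : Frame P S (m + 2)),
      Reach s₀ (m + 2) F →
      hT.Rel hS N F (Host.act F ⟨1, fun j => if j ∈ s then t j else 1⟩) := by
    intro m s
    induction s using Finset.induction_on with
    | empty =>
      intro t F hF
      have e : (⟨1, fun j => if j ∈ (∅ : Finset (Fin (m + 2))) then t j else 1⟩ :
          Lvl P (m + 2)) = 1 := by
        ext j <;> simp
      rw [e, act_one]
      exact refl F
    | insert a s ha ih =>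
      intro t F hF
      have e : (⟨1, fun j => if j ∈ insert a s then t j else 1⟩ : Lvl P (m + 2)) =
          ⟨1, fun j => if j ∈ s then t j else 1⟩ * Lvl.twist a (t a) := by
        refine Lvl.ext (by simp) (funext fun j => ?_)
        by_cases h : j = a
        · subst h; simp [ha]
        · by_cases hj : j ∈ s <;> simp [h, hj]
      rw [e, act_mul]
      exact trans (ih t F hF) (twist _ (hF.act _) a (t a))
  have level : ∀ m (w : Lvl P (m + 1)),
      hT.Rel hS N (stdF s₀ (m + 1)) (Host.act (stdF s₀ (m + 1)) w) := by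
    intro m w
    match m with
    | 0 =>
      refine ⟨twT s₀ (w.t 0), hT.tw_mem hS hdec hc _, fun i x => ?_⟩
      rw [show i = 0 from Fin.fin_one_eq_zero i, twT_coe]
      simp [stdF, root, Host.act]
    | m + 1 =>
      have e : w = Lvl.perm w.σ * ⟨1, fun j => if j ∈ Finset.univ then w.t j else 1⟩ := by
        ext j <;> simp
      rw [e, act_mul]
      refine trans ?_ (twists _ _ _ ((reach_std s₀ (m + 1)).act _))
      obtain ⟨g, hg⟩ := hT.join _ (stdF s₀ (m + 2))
        (Host.act (stdF s₀ (m + 2)) (Lvl.perm w.σ)) (reach_std s₀ (m + 1))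
        ((reach_std s₀ (m + 1)).act _)
      refine ⟨g, hdec (c • s₀) g fun b x => ?_, hg⟩
      obtain ⟨i, z, rfl⟩ := hT.cover (reach_std s₀ (m + 1)) x
      have h1 : ∀ i z, (g : Equiv.Perm (X S)) (ins (stdF (P := P) s₀ (m + 2) i).1 z) =
          ins (stdF (P := P) s₀ (m + 2) (w.σ i)).1 z := fun i z => by
        simpa [Host.act, (std_prop (P := P) s₀ (m + 2) i).1,
          (std_prop (P := P) s₀ (m + 2) (w.σ i)).1, tw_one_apply] using hg i z
      have h2 : ∀ i, (stdF (P := P) s₀ (m + 2) i).1 (c • s₀) = [] := fun i =>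
        (std_prop s₀ (m + 2) i).2 _ hS.ne
      rw [(std_prop (P := P) s₀ (m + 2) i).1, tw_one_apply, ← ins_bmul,
        ← bmul_atom_comm (h2 i), ins_bmul, h1, h1, ← ins_bmul, bmul_atom_comm (h2 _), ins_bmul]
  have std : ∀ {n} {F : Frame P S n}, Reach s₀ n F → hT.Rel hS N (stdF s₀ n) F := by
    intro n F hF
    induction hF with
    | root => exact refl _
    | @act n F w hF ih =>
      obtain ⟨k, hk, h⟩ := ih
      match n with
      | 0 => exact ⟨k, hk, fun i => i.elim0⟩
      | m + 1 => exact trans (level m w) ⟨k, hk, h.act w⟩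
    | @split n F hF ih =>
      obtain ⟨k, hk, h⟩ := ih
      exact ⟨k, hk, h.splitAt s₀⟩
  refine (Subgroup.eq_top_iff' N).2 fun g => ?_
  obtain ⟨n, F, F', hF, hF', hg⟩ := hT.mem g
  obtain ⟨k, hk, h⟩ := trans (symm (std hF)) (std hF')
  rwa [hT.carries_unique hF hg h]

theorem hom_trivial {Q : Type} [Group Q] (ψ : SV P s₀ →* Q)
    (hψ : ∀ x y, Commute (ψ x) (ψ y)) (g : SV P s₀) : ψ g = 1 := by
  have indep : ∀ (ψ : SV P s₀ →* Q), (∀ x y, Commute (ψ x) (ψ y)) →
      ∀ φ (hφ : Proper P s₀ φ) g,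
      ψ (hT.place hφ g) = ψ (hT.place (proper_half true) g) := by
    intro ψ hψ φ hφ g
    obtain ⟨h, hh⟩ := hT.place_conj (proper_half true) hφ
    rw [hh, map_mul, map_mul, map_inv, (hψ h _).eq, mul_inv_cancel_right]
  have idem : ∀ g, ψ (hT.place (proper_half true) (hT.place (proper_half true) g)) =
      ψ (hT.place (proper_half true) g) := fun g => by
    rw [hT.place_place, indep ψ hψ]
  have dec : ∀ u g, hT.Dec u g → ψ g = 1 ∧ ψ (hT.place (proper_half true) g) = 1 := by
    intro u g hg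
    have two : ∀ χ : SV P s₀ →* Q, (∀ x y, Commute (χ x) (χ y)) →
        χ g = χ (hT.place (proper_half true) g) * χ (hT.place (proper_half true) g) := by
      intro χ hχ
      have := congrArg χ (hT.dec_eq hS hg)
      rwa [map_mul, indep χ hχ (atom u false), indep χ hχ (atom u true)] at this
    have h1 : ψ (hT.place (proper_half true) g) = 1 := by
      have := two (ψ.comp (hT.place (proper_half true))) fun x y => hψ _ _
      simp only [MonoidHom.comp_apply, idem] at this
      exact mul_left_cancel (this.symm.trans (mul_one _).symm)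
    exact ⟨by rw [two ψ hψ, h1, one_mul], h1⟩
  obtain ⟨U, ⟨u, hU⟩, hc⟩ := hT.twc_eq hS
  have hc1 : ψ (hT.place (proper_half true) (twT s₀ c)) = 1 := by
    have := congrArg (ψ.comp (hT.place (proper_half true))) hc
    rw [map_mul, map_mul,
      indep (ψ.comp (hT.place (proper_half true))) (fun x y => hψ _ _) (atom (c • s₀) false),
      indep (ψ.comp (hT.place (proper_half true))) (fun x y => hψ _ _) (atom (c • s₀) true)]
      at this
    simp only [MonoidHom.comp_apply, idem, (dec u U hU).2, mul_one] at this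
    exact mul_left_cancel (this.symm.trans (mul_one _).symm)
  have hc0 : ψ (twT s₀ c) = 1 := by
    rw [hc, map_mul, map_mul, indep ψ hψ (atom (c • s₀) false),
      indep ψ hψ (atom (c • s₀) true), hc1, (dec u U hU).1]
    simp
  have top : ψ.ker = ⊤ := by
    refine hT.eq_top hS (fun u g hg => (dec u g hg).1) hc0 fun φ hφ p => ?_
    show ψ _ = 1
    rw [indep ψ hψ]
    exact hT.tw_mem hS (N := (ψ.comp (hT.place (proper_half true))).ker)
      (fun u g hg => (dec u g hg).2) hc1 p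
  exact MonoidHom.mem_ker.1 (top ▸ Subgroup.mem_top g)

theorem exists_moved_brick {g : SV P s₀} (hg : g ≠ 1) : ∃ φ, Proper P s₀ φ ∧
    ∀ x, (g : Equiv.Perm (X S)) (ins φ x) ∉ Set.range (ins φ) := by
  obtain ⟨y, s, j, hsj⟩ : ∃ y s j, (g : Equiv.Perm (X S)) y s j ≠ y s j := by
    by_contra h
    push Not at h
    exact hg (Subtype.ext (Equiv.ext fun y => funext fun s => funext fun j => h y s j))
  have deep : ∀ (L : ℕ) (t : S) (φ : Brick S), InFrame P s₀ φ → y ∈ Set.range (ins φ) →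
      ∃ φ', InFrame P s₀ φ' ∧ y ∈ Set.range (ins φ') ∧
        Set.range (ins φ') ⊆ Set.range (ins φ) ∧ L ≤ (φ' t).length := by
    intro L t φ hφ hy
    induction L with
    | zero => exact ⟨φ, hφ, hy, subset_rfl, Nat.zero_le _⟩
    | succ L ih =>
      obtain ⟨φ', hφ', ⟨x, rfl⟩, hsub, hL⟩ := ih
      obtain ⟨b, z, rfl⟩ := hT.atom_cases hS t x
      refine ⟨Host.child φ' t b, (InFrame.child hS hφ' t b).inFrame,
        ⟨z, ins_bmul _ _ z⟩, ?_, ?_⟩
      · refine subset_trans ?_ hsub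
        rintro _ ⟨w, rfl⟩
        exact ⟨_, (ins_bmul φ' (atom t b) w).symm⟩
      · simp only [Host.child, bmul, atom_self, List.length_append, List.length_singleton]
        omega
  obtain ⟨n, F, F', hF, hF', hgF⟩ := hT.mem g
  obtain ⟨i, x, hx⟩ := hT.cover hF y
  set q := (F' i).2 * (F i).2⁻¹ with hq
  have him : ∀ z, (g : Equiv.Perm (X S)) (ins (F i).1 z) = ins (F' i).1 (tw q z) := fun z => by
    conv_lhs => rw [← tw_cancel (F i).2 z]
    rw [hgF, ← tw_mul_apply]
  set t := q⁻¹ • s with ht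
  have hy : y ∈ Set.range (ins (F i).1) := ⟨_, hx.symm⟩
  obtain ⟨φ₁, hφ₁, hy₁, hsub₁, hL₁⟩ :=
    deep (j + ((F i).1 t).length + 1) t _ (inFrame_mk hF i) hy
  obtain ⟨φ₂, hφ₂, hy₂, hsub₂, hL₂⟩ := deep (j + 1) s _ hφ₁ hy₁
  obtain ⟨z₂, hz₂⟩ := hy₂
  obtain ⟨b, z₃, rfl⟩ := hT.atom_cases hS s z₂
  have hsub₃ : Set.range (ins (Host.child φ₂ s b)) ⊆ Set.range (ins φ₂) := by
    rintro _ ⟨w, rfl⟩
    exact ⟨_, (ins_bmul φ₂ (atom s b) w).symm⟩
  refine ⟨_, InFrame.child hS hφ₂ s b, fun w hw => ?_⟩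
  set z := ins (Host.child φ₂ s b) w with hz
  have hzmem : z ∈ Set.range (ins φ₂) := hsub₃ ⟨w, rfl⟩
  have e1 : (g : Equiv.Perm (X S)) z s j = y s j :=
    eq_of_mem_range ⟨_, hz₂⟩ (hsub₃ hw) (by omega)
  refine hsj (Eq.trans ?_ e1)
  obtain ⟨z', hz'⟩ := hsub₁ (hsub₂ hzmem)
  obtain ⟨y', hy'⟩ := hy
  rw [← hz', ← hy', him, him]
  by_cases hj : j < ((F' i).1 s).length
  · rw [ins_apply_lt hj, ins_apply_lt hj]
  · rw [ins_apply_ge hj, ins_apply_ge hj, tw_apply, tw_apply, ← ht]
    set J := j - ((F' i).1 s).length with hJ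
    have e2 := eq_of_mem_range hy₁ (hsub₂ hzmem)
      (t := t) (j := J + ((F i).1 t).length) (by omega)
    rw [← hz', ← hy', ins_apply_ge (by omega), ins_apply_ge (by omega), Nat.add_sub_cancel]
      at e2
    exact e2.symm

theorem normal_eq_top {N : Subgroup (SV P s₀)} [hN : N.Normal] (h : N ≠ ⊥) : N = ⊤ := by
  obtain ⟨g, hgN, hg⟩ := (Subgroup.ne_bot_iff_exists_ne_one.1 h).elim
    fun g hg => (⟨g.1, g.2, fun e => hg (Subtype.ext e)⟩ : ∃ g ∈ N, g ≠ 1)
  obtain ⟨φ, hφ, hmove⟩ := hT.exists_moved_brick hS hg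
  have dc : ∀ a a', (hT.place hφ a)⁻¹ * hT.place hφ a' * hT.place hφ a *
      (hT.place hφ a')⁻¹ ∈ N := by
    intro a a'
    set A := hT.place hφ a with hA
    set B := hT.place hφ a' with hB
    have comm : ∀ d, Commute (g * hT.place hφ a * g⁻¹) (hT.place hφ d) := by
      intro d
      refine Subtype.ext (Equiv.ext fun y => ?_)
      have off : ∀ x, (g : Equiv.Perm (X S))⁻¹ (ins φ x) ∉ Set.range (ins φ) := by
        rintro x ⟨z, hz⟩
        exact hmove z ⟨x, by rw [hz, apply_inv']⟩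
      simp only [Subgroup.coe_mul, Subgroup.coe_inv, Equiv.Perm.mul_apply]
      by_cases hy : y ∈ Set.range (ins φ)
      · obtain ⟨x, rfl⟩ := hy
        rw [(hT.place_at hφ a).2 _ (off x), apply_inv',
          (hT.place_at hφ d).1, (hT.place_at hφ a).2 _ (off _), apply_inv']
      · rw [(hT.place_at hφ d).2 y hy, (hT.place_at hφ d).2]
        by_cases hy' : (g : Equiv.Perm (X S))⁻¹ y ∈ Set.range (ins φ)
        · obtain ⟨x, hx⟩ := hy'
          rw [← hx, (hT.place_at hφ a).1]
          exact hmove _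
        · rw [(hT.place_at hφ a).2 _ hy', apply_inv']
          exact hy
    set G := g * A * g⁻¹ with hG
    have c2 : Commute G (A⁻¹ * B * A) :=
      ((comm a).inv_right.mul_right (comm a')).mul_right (comm a)
    have e : A⁻¹ * B * A * B⁻¹ = (G * A⁻¹) * (B * (G * A⁻¹)⁻¹ * B⁻¹) := by
      calc A⁻¹ * B * A * B⁻¹ = G * (A⁻¹ * B * A) * G⁻¹ * B⁻¹ := by
            rw [c2.eq, mul_inv_cancel_right]
        _ = _ := by group
    have hGA : G * A⁻¹ ∈ N := by
      have : G * A⁻¹ = g * (A * g⁻¹ * A⁻¹) := by rw [hG]; group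
      rw [this]
      exact mul_mem hgN (hN.conj_mem _ (inv_mem hgN) A)
    rw [e]
    exact mul_mem hGA (hN.conj_mem _ (inv_mem hGA) B)
  obtain ⟨h₀, hh₀⟩ := hT.place_conj hφ (proper_half true)
  let ψ := (QuotientGroup.mk' N).comp (hT.place (proper_half true))
  have hψ : ∀ x y, Commute (ψ x) (ψ y) := by
    intro x y
    have key : Commute (QuotientGroup.mk' N (hT.place hφ x))
        (QuotientGroup.mk' N (hT.place hφ y)) := by
      have h1 : QuotientGroup.mk' N ((hT.place hφ x)⁻¹ * hT.place hφ y * hT.place hφ x *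
          (hT.place hφ y)⁻¹) = 1 := (QuotientGroup.eq_one_iff _).2 (dc x y)
      simp only [map_mul, map_inv] at h1
      rw [mul_inv_eq_one, mul_assoc, inv_mul_eq_iff_eq_mul] at h1
      exact h1.symm
    show Commute (QuotientGroup.mk' N _) (QuotientGroup.mk' N _)
    rw [hh₀, hh₀]
    simp only [map_mul, map_inv]
    exact (Commute.conj_iff _).2 key
  have hpl : ∀ φ' (hφ' : Proper P s₀ φ') a, hT.place hφ' a ∈ N := by
    intro φ' hφ' a
    obtain ⟨k, hk⟩ := hT.place_conj (proper_half true) hφ'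
    rw [hk]
    exact hN.conj_mem _ ((QuotientGroup.eq_one_iff _).1 (hT.hom_trivial hS ψ hψ a)) k
  have hdec : ∀ u a, hT.Dec u a → a ∈ N := fun u a ha => by
    rw [hT.dec_eq hS ha]
    exact mul_mem (hpl _ _ _) (hpl _ _ _)
  refine hT.eq_top hS hdec ?_ fun φ' hφ' p => hpl φ' hφ' _
  obtain ⟨U, ⟨u, hU⟩, hc⟩ := hT.twc_eq hS
  rw [hc]
  exact mul_mem (mul_mem (hpl _ _ _) (hpl _ _ _)) (hdec u U hU)

omit hT in
theorem twT_injective : Function.Injective (twT (P := P) s₀) := by
  have := hS.faithful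
  intro p q h
  have h' : tw (S := S) p⁻¹ = tw q⁻¹ := by
    have := congrArg (fun g : SV P s₀ => ((g⁻¹ : SV P s₀) : Equiv.Perm (X S))) h
    simpa [twT_coe, ← map_inv] using this
  refine FaithfulSMul.eq_of_smul_eq_smul fun s : S => ?_
  have := congrFun (congrFun (Equiv.congr_fun h' (fun t _ => decide (t = p • s))) s) 0
  simp only [tw_apply, inv_inv] at this
  exact (by simpa using this : q • s = p • s).symm

end Facts

/-- Module Simple. -/
theorem simpleStmt {s₀ : S} {c : P} (hSV : SVStmt (P := P) (S := S) s₀ c) :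
    SimpleStmt s₀ c := by
  intro hS
  obtain ⟨hset, hjoin, hpart⟩ := hSV hS
  have hT : Facts P s₀ := by
    refine ⟨fun g => ?_, fun n F F' hF hF' => ?_, hpart⟩
    · have := g.2
      rw [← SetLike.mem_coe, hset] at this
      exact this
    · obtain ⟨g, hg, h⟩ := hjoin n F F' hF hF'
      exact ⟨⟨g, hg⟩, h⟩
  have inj := Facts.twT_injective hS
  have hne : twT s₀ c ≠ 1 := fun h => hS.ne (by
    rw [inj (h.trans (map_one (twT s₀)).symm), one_smul])
  have : Nontrivial (SV P s₀) := ⟨⟨_, _, hne⟩⟩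
  refine ⟨⟨fun N hN => ?_⟩, twT s₀, inj⟩
  by_cases h : N = ⊥
  · exact Or.inl h
  · exact Or.inr (hT.normal_eq_top hS h)

end Vale.P193.Host
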