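import Vale.Agent.P193.Host.Shifted
import Vale.Agent.P193.Host.ShiftHost
import Vale.Agent.P193.Host.Simple

/-!
# Assembly of the host theorem
-/

namespace Vale.P193.Host

section

variable {P S : Type} [Group P] [MulAction P S] [DecidableEq S] {s₀ : S} {c : P}

/-- The group is finitely presented. -/
theorem sv_finitelyPresented (hS : Setting P S s₀ c)
    (hP : Group.IsFinitelyPresented P) (hH : (MulAction.stabilizer P s₀).FG) :
    Group.IsFinitelyPresented (SV P s₀) := by
  obtain ⟨Γ, _, ρ, hΓ, hρ, -, hgen, huniv⟩ := shiftHost s₀ c hP hH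
  obtain ⟨f, hf⟩ := universal_pi hS hρ
  obtain ⟨g, hg⟩ := huniv _ _ (compat_pi hS.ne) (shiftRel_pi hS)
  have h1 : f.comp g = MonoidHom.id Γ := by
    refine MonoidHom.eq_of_eqOn_dense hgen ?_
    rintro _ ⟨n, hn, w, rfl⟩
    simp [hg n hn w, hf n hn w]
  have h2 : g.comp f = MonoidHom.id (SV P s₀) := by
    refine MonoidHom.eq_of_eqOn_dense (closure_pi hS) ?_
    rintro _ ⟨n, w, rfl⟩
    rcases n with - | n
    · have : w = 1 := Lvl.ext (Subsingleton.elim _ _) (funext fun i => i.elim0)
      simp [this]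
    · simp [hg (n + 1) n.succ_pos w, hf (n + 1) n.succ_pos w]
  exact Group.IsFinitelyPresented.equiv (MonoidHom.toMulEquiv g f h1 h2)

end

/-- The host theorem. -/
theorem hostStmt : HostStmt := by
  intro P _ H c hP hH hc hpq hcore hinf
  classical
  let s₀ : P ⧸ H := ((1 : P) : P ⧸ H)
  have smul0 : ∀ p : P, p • s₀ = (p : P ⧸ H) := fun p => by simp [s₀]
  have mem0 : ∀ p : P, p • s₀ = s₀ ↔ p ∈ H := fun p => by
    rw [smul0, QuotientGroup.eq]
    simp
  have hS : Setting P (P ⧸ H) s₀ c :=
    { trans := fun s => QuotientGroup.induction_on s fun p => ⟨p, smul0 p⟩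
      pairs := fun s => QuotientGroup.induction_on s fun p hp => by
        rcases hpq p with h | ⟨a, ha, b, hb, rfl⟩
        · exact absurd ((smul0 p).symm.trans ((mem0 p).2 h)) hp
        · refine ⟨a, (mem0 a).2 ha, ?_⟩
          rw [← smul0 (a * c * b), mul_smul, mul_smul, (mem0 b).2 hb]
      ne := fun h => hc ((mem0 c).1 h)
      faithful := ⟨fun {p q} h => by
        have : q⁻¹ * p ∈ H.normalCore := fun r => by
          have := h ((r⁻¹ : P) : P ⧸ H)
          rw [MulAction.Quotient.smul_coe, MulAction.Quotient.smul_coe, eq_comm,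
            QuotientGroup.eq] at this
          simpa [mul_assoc] using this
        rw [hcore, Subgroup.mem_bot] at this
        exact (inv_mul_eq_one.1 this).symm⟩
      infinite := hinf }
  have hstab : MulAction.stabilizer P s₀ = H := SetLike.ext fun p => mem0 p
  obtain ⟨h1, f, hf⟩ := simpleStmt (svStmt hS) hS
  exact ⟨SV P s₀, inferInstance, h1,
    sv_finitelyPresented hS hP (hstab.symm ▸ hH), f, hf⟩

end Vale.P193.Host
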