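import Mathlib

/-!
# Twisted Brin-Thompson groups: bricks, frames, levels

`P` acts on `S`; `X S` is the cube `S → ℕ → Bool`. A brick is a family of finite prefixes. A frame
of size `n` is an `n`-tuple of labelled bricks, read as a map `Fin n × X S → X S`. The level group
`Lvl n` (permutations with twists) acts on frames from the right, and `split0` bisects the first
brick in the base coordinate. `Data` is what a family of homomorphisms out of the level groups
has to satisfy up to a given level.
-/

namespace Vale.P193.Host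

/-- The cube. -/
abbrev X (S : Type*) : Type _ := S → ℕ → Bool

/-- A brick: one finite prefix for each coordinate. -/
abbrev Brick (S : Type*) : Type _ := S → List Bool

variable {S P : Type*} [Group P] [MulAction P S]

/-- Prefixing. -/
def ins (φ : Brick S) (x : X S) : X S :=
  fun s i => if h : i < (φ s).length then (φ s)[i] else x s (i - (φ s).length)

/-- Composition of bricks. -/
def bmul (φ ψ : Brick S) : Brick S := fun s => φ s ++ ψ s

/-- The half of the cube in coordinate `s` starting with `b`. -/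
def atom [DecidableEq S] (s : S) (b : Bool) : Brick S := Function.update (fun _ => []) s [b]

/-- A half of a brick. -/
def child [DecidableEq S] (φ : Brick S) (s : S) (b : Bool) : Brick S := bmul φ (atom s b)

/-- Relabelling of the coordinates of a brick. -/
def pm (p : P) (φ : Brick S) : Brick S := fun s => φ (p⁻¹ • s)

/-- The permutation of the cube given by relabelling of the coordinates. -/
def tw : P →* Equiv.Perm (X S) where
  toFun p :=
    { toFun := fun x s => x (p⁻¹ • s)
      invFun := fun x s => x (p • s)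
      left_inv := fun x => by funext s; simp
      right_inv := fun x => by funext s; simp }
  map_one' := by ext x; simp
  map_mul' p q := by ext x; simp [mul_smul]

@[simp] theorem tw_apply (p : P) (x : X S) (s : S) : tw p x s = x (p⁻¹ • s) := rfl

theorem ins_bmul (φ ψ : Brick S) (x : X S) : ins (bmul φ ψ) x = ins φ (ins ψ x) := by
  funext s i
  simp only [ins, bmul, List.length_append]
  by_cases h1 : i < (φ s).length
  · rw [dif_pos (by omega), dif_pos h1, List.getElem_append_left h1]
  · rw [dif_neg h1]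
    by_cases h2 : i - (φ s).length < (ψ s).length
    · rw [dif_pos (by omega), dif_pos h2, List.getElem_append_right (by omega)]
    · rw [dif_neg (by omega), dif_neg h2]
      congr 1; omega

theorem tw_ins (p : P) (φ : Brick S) (x : X S) : tw p (ins φ x) = ins (pm p φ) (tw p x) := rfl

theorem ins_injective (φ : Brick S) : Function.Injective (ins φ) := by
  intro x y h
  funext s i
  have := congrFun (congrFun h s) (i + (φ s).length)
  simpa [ins] using this

@[simp] theorem pm_one (φ : Brick S) : pm (1 : P) φ = φ := by funext s; simp [pm]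

variable (P) in
/-- Permutations with twists: `(i, x) ↦ (σ i, t i • x)`. -/
@[ext] structure Lvl (n : ℕ) where
  /-- the permutation -/
  σ : Equiv.Perm (Fin n)
  /-- the twists, indexed at the source -/
  t : Fin n → P

namespace Lvl

variable {n : ℕ}

instance : One (Lvl P n) := ⟨⟨1, 1⟩⟩
instance : Mul (Lvl P n) := ⟨fun w v => ⟨w.σ * v.σ, fun i => w.t (v.σ i) * v.t i⟩⟩
instance : Inv (Lvl P n) := ⟨fun w => ⟨w.σ⁻¹, fun i => (w.t (w.σ⁻¹ i))⁻¹⟩⟩

@[simp] theorem one_σ : (1 : Lvl P n).σ = 1 := rfl
@[simp] theorem one_t (i : Fin n) : (1 : Lvl P n).t i = 1 := rfl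
@[simp] theorem mul_σ (w v : Lvl P n) : (w * v).σ = w.σ * v.σ := rfl
@[simp] theorem mul_t (w v : Lvl P n) (i : Fin n) : (w * v).t i = w.t (v.σ i) * v.t i := rfl
@[simp] theorem inv_σ (w : Lvl P n) : w⁻¹.σ = w.σ⁻¹ := rfl
@[simp] theorem inv_t (w : Lvl P n) (i : Fin n) : w⁻¹.t i = (w.t (w.σ⁻¹ i))⁻¹ := rfl

instance : Group (Lvl P n) :=
  Group.ofLeftAxioms (fun a b c => by ext <;> simp [mul_assoc]) (fun a => by ext <;> simp)
    fun a => by ext <;> simp

/-- A pure permutation. -/
def perm : Equiv.Perm (Fin n) →* Lvl P n where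
  toFun σ := ⟨σ, 1⟩
  map_one' := rfl
  map_mul' _ _ := by ext <;> simp

/-- A twist at one position. -/
def twist (i : Fin n) : P →* Lvl P n where
  toFun p := ⟨1, Pi.mulSingle i p⟩
  map_one' := by ext <;> simp
  map_mul' p q := by
    refine Lvl.ext (by simp) ?_
    funext j
    simp [Pi.mulSingle_mul]

@[simp] theorem perm_σ (σ : Equiv.Perm (Fin n)) : (perm σ : Lvl P n).σ = σ := rfl
@[simp] theorem perm_t (σ : Equiv.Perm (Fin n)) (i : Fin n) : (perm σ : Lvl P n).t i = 1 := rfl
@[simp] theorem twist_σ (i : Fin n) (p : P) : (twist i p).σ = 1 := rfl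
@[simp] theorem twist_t (i j : Fin n) (p : P) :
    (twist i p).t j = Pi.mulSingle (M := fun _ => P) i p j := rfl

/-- The elements that may be doubled: they fix position `0`, with twist in the stabiliser. -/
def Dblable (s₀ : S) (w : Lvl P (n + 1)) : Prop := w.σ 0 = 0 ∧ w.t 0 • s₀ = s₀

/-- Doubling of position `0`. -/
def dbl (w : Lvl P (n + 1)) : Lvl P (n + 2) :=
  ⟨Equiv.Perm.decomposeFin.symm (0, w.σ), Fin.cases (w.t 0) w.t⟩

theorem dbl_mul {w v : Lvl P (n + 1)} (hv : v.σ 0 = 0) : dbl (w * v) = dbl w * dbl v := by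
  refine Lvl.ext ?_ ?_
  · ext i
    refine Fin.cases ?_ (fun j => ?_) i <;> simp [dbl]
  · funext i
    refine Fin.cases ?_ (fun j => ?_) i <;> simp [dbl, hv]

end Lvl

/-- A frame of size `n`. -/
abbrev Frame (P S : Type*) (n : ℕ) : Type _ := Fin n → Brick S × P

/-- The right action of levels on frames. -/
def act {n : ℕ} (F : Frame P S n) (w : Lvl P n) : Frame P S n :=
  fun i => ((F (w.σ i)).1, (F (w.σ i)).2 * w.t i)

omit [MulAction P S] in
theorem act_mul {n : ℕ} (F : Frame P S n) (w v : Lvl P n) :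
    act F (w * v) = act (act F w) v := by
  funext i; simp [act, mul_assoc]

omit [MulAction P S] in
@[simp] theorem act_one {n : ℕ} (F : Frame P S n) : act F 1 = F := by funext i; simp [act]

/-- Bisection of the first brick in the (labelled) base coordinate. -/
def split0 [DecidableEq S] (s₀ : S) {n : ℕ} (F : Frame P S (n + 1)) : Frame P S (n + 2) :=
  Fin.cons (child (F 0).1 ((F 0).2 • s₀) false, (F 0).2)
    (Fin.cons (child (F 0).1 ((F 0).2 • s₀) true, (F 0).2) (Fin.tail F))

theorem split0_act [DecidableEq S] (s₀ : S) {n : ℕ} (F : Frame P S (n + 1)) (w : Lvl P (n + 1))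
    (h : Lvl.Dblable s₀ w) : split0 s₀ (act F w) = act (split0 s₀ F) w.dbl := by
  funext i
  refine Fin.cases ?_ (fun j => ?_) i
  · simp [split0, act, Lvl.dbl, h.1, mul_smul, h.2]
  · refine Fin.cases ?_ (fun k => ?_) j
    · simp [split0, act, Lvl.dbl, h.1, mul_smul, h.2]
      rfl
    · have h1 : w.σ k.succ ≠ 0 := fun h' =>
        Fin.succ_ne_zero k (w.σ.injective (h'.trans h.1.symm))
      obtain ⟨m, hm⟩ := Fin.exists_succ_eq.2 h1
      simp [split0, act, Lvl.dbl, Fin.tail, ← hm]

/-- `swap 0 1`. -/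
def s01 (n : ℕ) : Lvl P (n + 2) := Lvl.perm (Equiv.swap 0 1)

/-- `swap 0 2`. -/
def s02 (n : ℕ) : Lvl P (n + 3) := Lvl.perm (Equiv.swap 0 2)

/-- `swap 0 3 * swap 1 2`. -/
def sπ (n : ℕ) : Lvl P (n + 4) := Lvl.perm (Equiv.swap 0 3 * Equiv.swap 1 2)

/-- The twist `p` at positions `0` and `1`. -/
def tw01 (n : ℕ) (p : P) : Lvl P (n + 2) := Lvl.twist 0 p * Lvl.twist 1 p

/-- Values on the level groups up to size `N`, compatible with the three families of relations:
doubling, disjoint bisections, and two bisections of one brick (`s₀` and `c • s₀`). -/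
structure Data (s₀ : S) (c : P) (N : ℕ) (A : Type*) [Group A] where
  /-- the values -/
  ρ : ∀ n, Lvl P n →* A
  dbl : ∀ n, n + 2 ≤ N → ∀ w : Lvl P (n + 1), Lvl.Dblable s₀ w → ρ (n + 2) w.dbl = ρ (n + 1) w
  disj : ∀ n, n + 4 ≤ N →
    ρ (n + 3) (s02 n) * ρ (n + 4) (sπ n) = ρ (n + 2) (s01 n) * ρ (n + 3) (s02 n)
  coord : ∀ n, n + 4 ≤ N →
    ρ (n + 2) (Lvl.twist 0 c) * ρ (n + 3) (tw01 (n + 1) c⁻¹) * ρ (n + 3) (s02 n) *
        ρ (n + 3) (Lvl.twist 0 c) * ρ (n + 4) (tw01 (n + 2) c⁻¹) * ρ (n + 4) (s02 (n + 1)) =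
      ρ (n + 1) (Lvl.twist 0 c) * ρ (n + 2) (tw01 n c⁻¹) * ρ (n + 3) (s02 n)

/-- A permutation of the cube is canonical from a frame `F` to a frame `F'`. -/
def Carries {n : ℕ} (g : Equiv.Perm (X S)) (F F' : Frame P S n) : Prop :=
  ∀ i x, g (ins (F i).1 (tw (F i).2 x)) = ins (F' i).1 (tw (F' i).2 x)

/-- The frame of size one. -/
def root : Frame P S 1 := fun _ => (fun _ => [], 1)

/-- Frames obtained from `root` by bisections and the level groups. -/
inductive Reach [DecidableEq S] (s₀ : S) : ∀ n, Frame P S n → Prop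
  | root : Reach s₀ 1 root
  | act {n} {F : Frame P S n} (w : Lvl P n) : Reach s₀ n F → Reach s₀ n (act F w)
  | split {n} {F : Frame P S (n + 1)} : Reach s₀ (n + 1) F → Reach s₀ (n + 2) (split0 s₀ F)

variable (P) in
/-- The twisted Brin-Thompson group, as a set of permutations of the cube. -/
def svSet [DecidableEq S] (s₀ : S) : Set (Equiv.Perm (X S)) :=
  {g | ∃ (n : ℕ) (F F' : Frame P S n), Reach s₀ n F ∧ Reach s₀ n F' ∧ Carries g F F'}

variable (P) in
/-- The twisted Brin-Thompson group. That `svSet` is already a subgroup is proved separately. -/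
def SV [DecidableEq S] (s₀ : S) : Subgroup (Equiv.Perm (X S)) :=
  Subgroup.closure (svSet P s₀)

end Vale.P193.Host
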