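import Vale.Agent.P193.Host.Base

/-!
# Finitely presented groups with a shift endomorphism

`Pre k G` consists of an endomorphism `sh` of `G` and elements generating, with their shifts,
the group, subject to the single rule `sh y * x = x * sh (sh y)`, `x = sE * sM * sh sE`.
There is a finitely presented universal such group, and any finite set of further relations,
taken with its first shift, gives again a finitely presented one.
-/

namespace Vale.P193.Host

/-- A shift endomorphism with `k + k + 2` basic elements. -/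
structure Pre (k : ℕ) (G : Type) [Group G] where
  /-- the shift -/
  sh : G →* G
  /-- values of a generating family in the first position -/
  u : FreeGroup (Fin k) →* G
  /-- values of a generating family in the later positions -/
  v : FreeGroup (Fin k) →* G
  /-- the transposition at the first position -/
  sE : G
  /-- the transposition at the later positions -/
  sM : G
  rule : ∀ y, sh y * (sE * sM * sh sE) = sE * sM * sh sE * sh (sh y)

namespace Pre

variable {k : ℕ}

/-- The basic names. -/
abbrev Nam (k : ℕ) : Type := (Fin k ⊕ Fin k) ⊕ Bool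

/-- The value of a basic name. -/
def val {G : Type} [Group G] (Q : Pre k G) : Nam k → G :=
  Sum.elim (Sum.elim (fun i => Q.u (FreeGroup.of i)) (fun i => Q.v (FreeGroup.of i)))
    fun b => if b then Q.sM else Q.sE

/-- The value of a name or a shifted name. -/
def xval {G : Type} [Group G] (Q : Pre k G) (z : Nam k × Bool) : G :=
  if z.2 then Q.sh (Q.val z.1) else Q.val z.1

/-- Maps of shift groups. -/
structure IsHom {G A : Type} [Group G] [Group A] (Q : Pre k G) (Q' : Pre k A) (f : G →* A) :
    Prop where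
  sh : ∀ y, f (Q.sh y) = Q'.sh (f y)
  u : ∀ w, f (Q.u w) = Q'.u w
  v : ∀ w, f (Q.v w) = Q'.v w
  sE : f Q.sE = Q'.sE
  sM : f Q.sM = Q'.sM

theorem IsHom.xval {G A : Type} [Group G] [Group A] {Q : Pre k G} {Q' : Pre k A} {f : G →* A}
    (h : IsHom Q Q' f) (z : Nam k × Bool) : f (Q.xval z) = Q'.xval z := by
  rcases z with ⟨⟨i | i⟩ | ⟨_ | _⟩, _ | _⟩ <;> simp [Pre.xval, Pre.val, h.sh, h.u, h.v, h.sE, h.sM]

/-- The word `x`. -/
def xw (k : ℕ) : FreeGroup (Nam k × Bool) :=
  FreeGroup.of (Sum.inr false, false) * FreeGroup.of (Sum.inr true, false) *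
    FreeGroup.of (Sum.inr false, true)

/-- The shift on words. -/
def iota (k : ℕ) : FreeGroup (Nam k × Bool) →* FreeGroup (Nam k × Bool) :=
  FreeGroup.lift fun z => if z.2 then (xw k)⁻¹ * FreeGroup.of z * xw k
    else FreeGroup.of (z.1, true)

/-- The basic relators. -/
def rels0 (k : ℕ) : Set (FreeGroup (Nam k × Bool)) :=
  Set.range fun z => iota k (iota k (FreeGroup.of z)) *
    ((xw k)⁻¹ * iota k (FreeGroup.of z) * xw k)⁻¹

/-- The basic relators and their shifts. -/
def rels (k : ℕ) : Set (FreeGroup (Nam k × Bool)) := rels0 k ∪ iota k '' rels0 k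

theorem mk_iota_iota (k : ℕ) (w : FreeGroup (Nam k × Bool)) :
    PresentedGroup.mk (rels k) (iota k (iota k w)) =
      PresentedGroup.mk (rels k) ((xw k)⁻¹ * iota k w * xw k) := by
  have : (PresentedGroup.mk (rels k)).comp ((iota k).comp (iota k)) =
      (MulAut.conj (PresentedGroup.mk (rels k) (xw k))⁻¹).toMonoidHom.comp
        ((PresentedGroup.mk (rels k)).comp (iota k)) := FreeGroup.ext_hom _ _ fun z => by
    have h := PresentedGroup.mk_eq_mk_of_mul_inv_mem
      (rels := rels k) (x := iota k (iota k (FreeGroup.of z)))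
      (y := (xw k)⁻¹ * iota k (FreeGroup.of z) * xw k) (Or.inl ⟨z, rfl⟩)
    simpa [MulAut.conj_apply] using h
  have h := DFunLike.congr_fun this w
  simpa [MulAut.conj_apply] using h

theorem lift_iota_eq_one (k : ℕ) : ∀ r ∈ rels k,
    PresentedGroup.mk (rels k) (iota k r) = 1 := by
  rintro r (hr | ⟨r, hr, rfl⟩)
  · exact PresentedGroup.one_of_mem (Or.inr ⟨r, hr, rfl⟩)
  · rw [mk_iota_iota, map_mul, map_mul, map_inv,
      PresentedGroup.one_of_mem (x := iota k r) (Or.inr ⟨r, hr, rfl⟩)]
    simp

/-- The universal shift group. -/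
abbrev Free (k : ℕ) : Type := PresentedGroup (rels k)

/-- The shift of the universal group. -/
def freeSh (k : ℕ) : Free k →* Free k :=
  QuotientGroup.lift (Subgroup.normalClosure (rels k))
    ((PresentedGroup.mk (rels k)).comp (iota k))
    (Subgroup.normalClosure_le_normal fun r hr => lift_iota_eq_one k r hr)

theorem freeSh_mk (k : ℕ) (w : FreeGroup (Nam k × Bool)) :
    freeSh k (PresentedGroup.mk (rels k) w) = PresentedGroup.mk (rels k) (iota k w) := rfl

/-- The universal structure. -/
def free (k : ℕ) : Pre k (Free k) where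
  sh := freeSh k
  u := FreeGroup.lift fun i => PresentedGroup.of (Sum.inl (Sum.inl i), false)
  v := FreeGroup.lift fun i => PresentedGroup.of (Sum.inl (Sum.inr i), false)
  sE := PresentedGroup.of (Sum.inr false, false)
  sM := PresentedGroup.of (Sum.inr true, false)
  rule y := by
    obtain ⟨w, rfl⟩ := PresentedGroup.mk_surjective (rels k) y
    have hx : (PresentedGroup.of (Sum.inr false, false) * PresentedGroup.of (Sum.inr true, false) *
        freeSh k (PresentedGroup.of (Sum.inr false, false)) : Free k) =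
        PresentedGroup.mk (rels k) (xw k) := by
      simp [xw, PresentedGroup.of, freeSh_mk, iota]
    rw [hx, freeSh_mk, freeSh_mk, mk_iota_iota, map_mul, map_mul, map_inv, ← mul_assoc,
      ← mul_assoc, mul_inv_cancel, one_mul]

theorem free_xval (k : ℕ) (z : Nam k × Bool) :
    (free k).xval z = PresentedGroup.of z := by
  rcases z with ⟨⟨i | i⟩ | ⟨_ | _⟩, _ | _⟩ <;>
    simp [xval, val, free, PresentedGroup.of, freeSh_mk, iota]

theorem free_gen (k : ℕ) : Subgroup.closure (Set.range (free k).xval) = ⊤ := by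
  rw [funext (free_xval k)]
  exact PresentedGroup.closure_range_of _

/-- The universal property. -/
theorem free_univ {A : Type} [Group A] (Q : Pre k A) : ∃ f : Free k →* A, IsHom (free k) Q f := by
  let g := FreeGroup.lift Q.xval
  have hx : g (xw k) = Q.sE * Q.sM * Q.sh Q.sE := by simp [g, xw, xval, val]
  have hι : ∀ w, g (iota k w) = Q.sh (g w) := by
    intro w
    have : g.comp (iota k) = Q.sh.comp g := FreeGroup.ext_hom _ _ fun z => by
      rcases z with ⟨y, _ | _⟩
      · simp [g, iota, xval]
      · have h := Q.rule (Q.val y)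
        simp only [MonoidHom.comp_apply, iota, FreeGroup.lift_apply_of, if_true, map_mul, map_inv,
          hx]
        simp only [g, FreeGroup.lift_apply_of, xval, if_true]
        rw [mul_assoc, inv_mul_eq_iff_eq_mul]
        exact h
    exact DFunLike.congr_fun this w
  have h0 : ∀ r ∈ rels0 k, g r = 1 := by
    rintro r ⟨z, rfl⟩
    have h := Q.rule (g (FreeGroup.of z))
    rw [map_mul, map_inv, hι, hι, map_mul, map_mul, map_inv, hι, hx, mul_inv_eq_one,
      mul_assoc, eq_inv_mul_iff_mul_eq]
    exact h.symm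
  have hrel : ∀ r ∈ rels k, g r = 1 := by
    rintro r (hr | ⟨r, hr, rfl⟩)
    · exact h0 r hr
    · rw [hι, h0 r hr, map_one]
  refine ⟨PresentedGroup.toGroup hrel, fun y => ?_, fun w => ?_, fun w => ?_, ?_, ?_⟩
  · obtain ⟨w, rfl⟩ := PresentedGroup.mk_surjective (rels k) y
    exact hι w
  · have : (PresentedGroup.toGroup hrel).comp (free k).u = Q.u :=
      FreeGroup.ext_hom _ _ fun i => by simp [free, xval, val]
    exact DFunLike.congr_fun this w
  · have : (PresentedGroup.toGroup hrel).comp (free k).v = Q.v :=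
      FreeGroup.ext_hom _ _ fun i => by simp [free, xval, val]
    exact DFunLike.congr_fun this w
  · simp [free, xval, val]
  · simp [free, xval, val]

theorem free_fp (k : ℕ) : Group.IsFinitelyPresented (Free k) :=
  have : Finite (rels k) :=
    ((Set.finite_range _).union ((Set.finite_range _).image _)).to_subtype
  inferInstance

variable {G : Type} [Group G] (Q : Pre k G) (D : Set G)

/-- The relations and their shifts. -/
def ker : Subgroup G := Subgroup.normalClosure (D ∪ Q.sh '' D)

instance : (Q.ker D).Normal := Subgroup.normalClosure_normal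

theorem ker_le : Q.ker D ≤ (Q.ker D).comap Q.sh := by
  refine Subgroup.normalClosure_le_normal ?_
  rintro r (hr | ⟨r, hr, rfl⟩)
  · exact Subgroup.subset_normalClosure (Or.inr ⟨r, hr, rfl⟩)
  · show Q.sh (Q.sh r) ∈ Q.ker D
    have h : Q.sh r * (Q.sE * Q.sM * Q.sh Q.sE) = _ := Q.rule r
    have e : Q.sh (Q.sh r) =
        (Q.sE * Q.sM * Q.sh Q.sE)⁻¹ * Q.sh r * (Q.sE * Q.sM * Q.sh Q.sE) := by
      rw [mul_assoc, h, inv_mul_cancel_left]
    rw [e]
    simpa using (inferInstance : (Q.ker D).Normal).conj_mem _
      (Subgroup.subset_normalClosure (Or.inr ⟨r, hr, rfl⟩ : Q.sh r ∈ D ∪ Q.sh '' D))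
      (Q.sE * Q.sM * Q.sh Q.sE)⁻¹

/-- The quotient structure. -/
def quot : Pre k (G ⧸ Q.ker D) where
  sh := QuotientGroup.map _ _ Q.sh (Q.ker_le D)
  u := (QuotientGroup.mk' _).comp Q.u
  v := (QuotientGroup.mk' _).comp Q.v
  sE := QuotientGroup.mk Q.sE
  sM := QuotientGroup.mk Q.sM
  rule y := by
    obtain ⟨y, rfl⟩ := QuotientGroup.mk'_surjective (Q.ker D) y
    exact congrArg (QuotientGroup.mk' (Q.ker D)) (Q.rule y)

theorem quot_isHom : IsHom Q (Q.quot D) (QuotientGroup.mk' _) :=
  ⟨fun _ => rfl, fun _ => rfl, fun _ => rfl, rfl, rfl⟩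

theorem quot_rel {d : G} (hd : d ∈ D) : QuotientGroup.mk' (Q.ker D) d = 1 :=
  (QuotientGroup.eq_one_iff d).2 (Subgroup.subset_normalClosure (Or.inl hd))

theorem quot_fp [Group.IsFinitelyPresented G] (hD : D.Finite) :
    Group.IsFinitelyPresented (G ⧸ Q.ker D) :=
  Group.IsFinitelyPresented.quotient _ ⟨_, hD.union (hD.image _), rfl⟩

theorem quot_gen (h : Subgroup.closure (Set.range Q.xval) = ⊤) :
    Subgroup.closure (Set.range (Q.quot D).xval) = ⊤ := by
  have e : Set.range (Q.quot D).xval = QuotientGroup.mk' (Q.ker D) '' Set.range Q.xval := by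
    rw [← Set.range_comp]
    exact congrArg Set.range (funext fun z => ((Q.quot_isHom D).xval z).symm)
  rw [e, ← MonoidHom.map_closure, h]
  exact Subgroup.map_top_of_surjective _ (QuotientGroup.mk'_surjective _)

theorem quot_univ {A : Type} [Group A] {Q' : Pre k A} {f : G →* A} (hf : IsHom Q Q' f)
    (h : ∀ d ∈ D, f d = 1) : ∃ g : G ⧸ Q.ker D →* A, IsHom (Q.quot D) Q' g := by
  have hk : Q.ker D ≤ f.ker := by
    refine Subgroup.normalClosure_le_normal ?_
    rintro r (hr | ⟨r, hr, rfl⟩)
    · exact h r hr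
    · show f (Q.sh r) = 1
      rw [hf.sh, h r hr, map_one]
  refine ⟨QuotientGroup.lift _ f hk, fun y => ?_, hf.u, hf.v, hf.sE, hf.sM⟩
  obtain ⟨y, rfl⟩ := QuotientGroup.mk'_surjective (Q.ker D) y
  exact hf.sh y

end Pre

end Vale.P193.Host
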