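import Vale.Agent.P193.Host.Base

/-!
# Incompatible bricks
-/

namespace Vale.P193.Host

variable {S P : Type*} [Group P] [MulAction P S]

/-- `ψ` refines `φ`. -/
def Below (φ ψ : Brick S) : Prop := ∀ s, φ s <+: ψ s

/-- The bricks disagree in some coordinate. -/
def Incomp (φ ψ : Brick S) : Prop := ∃ s, ¬ φ s <+: ψ s ∧ ¬ ψ s <+: φ s

theorem Below.refl (φ : Brick S) : Below φ φ := fun _ => List.prefix_refl _

theorem Below.trans {a b c : Brick S} (h : Below a b) (h' : Below b c) : Below a c :=
  fun s => (h s).trans (h' s)

theorem Incomp.symm {a b : Brick S} (h : Incomp a b) : Incomp b a :=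
  let ⟨s, h1, h2⟩ := h; ⟨s, h2, h1⟩

theorem Incomp.ne {a b : Brick S} (h : Incomp a b) : a ≠ b := by
  rintro rfl
  obtain ⟨s, h1, -⟩ := h
  exact h1 (List.prefix_refl _)

theorem Incomp.below_left {a b a' : Brick S} (h : Incomp a b) (h' : Below a a') : Incomp a' b := by
  obtain ⟨s, h1, h2⟩ := h
  refine ⟨s, fun h3 => h1 ((h' s).trans h3), fun h3 => ?_⟩
  rcases List.prefix_or_prefix_of_prefix h3 (h' s) with h4 | h4
  · exact h2 h4
  · exact h1 h4

theorem Incomp.below {a b a' b' : Brick S} (h : Incomp a b) (ha : Below a a') (hb : Below b b') :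
    Incomp a' b' :=
  ((h.below_left ha).symm.below_left hb).symm

theorem not_below_of_incomp {a b c : Brick S} (h : Incomp a b) (ha : Below a c) : ¬ Below b c :=
  fun hb => (h.below ha hb).ne rfl

variable [DecidableEq S]

theorem child_same (φ : Brick S) (s : S) (b : Bool) : child φ s b s = φ s ++ [b] := by
  simp [child, bmul, atom]

theorem child_other (φ : Brick S) {s t : S} (h : t ≠ s) (b : Bool) : child φ s b t = φ t := by
  simp [child, bmul, atom, h]

theorem below_child (φ : Brick S) (s : S) (b : Bool) : Below φ (child φ s b) := by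
  intro t
  simp [child, bmul]

theorem incomp_child (φ : Brick S) (s : S) : Incomp (child φ s false) (child φ s true) :=
  ⟨s, by simp [child_same, List.prefix_append_right_inj], by
    simp [child_same, List.prefix_append_right_inj]⟩

theorem child_comm (φ : Brick S) {s t : S} (h : s ≠ t) (a b : Bool) :
    child (child φ s a) t b = child (child φ t b) s a := by
  funext u
  rcases eq_or_ne u s with rfl | hu
  · rw [child_other _ h, child_same, child_same, child_other _ h]
  · rw [child_other _ (s := s) hu]
    rcases eq_or_ne u t with rfl | hu'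
    · rw [child_same, child_same, child_other _ hu]
    · rw [child_other _ hu', child_other _ hu', child_other _ hu]

end Vale.P193.Host
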