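import Vale.Agent.P193.Host.Base

/-!
# Homomorphisms out of the level groups

A homomorphism out of `Perm (Fin n)` is given by images of adjacent transpositions satisfying
the Coxeter relations, one out of `Lvl P n` by adding commuting twist homomorphisms.
-/

namespace Vale.P193.Host

open Equiv

variable {G : Type*} [Group G]

/-- The Coxeter relations for adjacent transpositions of the first `n` naturals. -/
structure CoxRel (n : ℕ) (s : ℕ → G) : Prop where
  sq : ∀ q, q + 1 < n → s q * s q = 1
  braid : ∀ q, q + 2 < n → s q * s (q + 1) * s q = s (q + 1) * s q * s (q + 1)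
  far : ∀ q r, q + 2 ≤ r → r + 1 < n → s q * s r = s r * s q

/-- An adjacent transposition of the naturals, paired with its image. -/
def adjPair (s : ℕ → G) (q : ℕ) : G × Perm ℕ := (s q, swap q (q + 1))

/-- The subgroup generated by the pairs at positions in `[a, a + m]`. -/
def adjGroup (s : ℕ → G) (a m : ℕ) : Subgroup (G × Perm ℕ) :=
  Subgroup.closure {x | ∃ q, a ≤ q ∧ q < a + m ∧ adjPair s q = x}

/-- The chain moving `a` to `a + p`. -/
def adjChain (s : ℕ → G) (a : ℕ) : ℕ → G × Perm ℕ
  | 0 => 1
  | p + 1 => adjPair s (a + p) * adjChain s a p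

theorem adjPair_mem {s : ℕ → G} {a m q : ℕ} (h : a ≤ q) (h' : q < a + m) :
    adjPair s q ∈ adjGroup s a m :=
  Subgroup.subset_closure ⟨q, h, h', rfl⟩

theorem adjGroup_fix {s : ℕ → G} {a m : ℕ} {x : G × Perm ℕ} (hx : x ∈ adjGroup s a m) :
    ∀ i < a, x.2 i = i := by
  induction hx using Subgroup.closure_induction with
  | mem x hx =>
      obtain ⟨q, hq, -, rfl⟩ := hx
      exact fun i hi => swap_apply_of_ne_of_ne (by omega) (by omega)
  | one => exact fun i _ => rfl
  | mul x y _ _ hx hy => exact fun i hi => by simp [hy i hi, hx i hi]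
  | inv x _ hx =>
      intro i hi
      rw [Prod.snd_inv, Perm.inv_eq_iff_eq]
      exact (hx i hi).symm

theorem adjChain_snd (s : ℕ → G) (a p : ℕ) : (adjChain s a p).2 a = a + p := by
  induction p with
  | zero => rfl
  | succ p ih =>
      simp only [adjChain, adjPair, Prod.snd_mul, Perm.mul_apply, ih]
      rw [swap_apply_left]
      omega

theorem adjPair_inv {n : ℕ} {s : ℕ → G} (h : CoxRel n s) {q : ℕ} (hq : q + 1 < n) :
    (adjPair s q)⁻¹ = adjPair s q := by
  apply inv_eq_of_mul_eq_one_right
  ext : 1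
  · exact h.sq q hq
  · exact swap_mul_self _ _

theorem adjPair_far {n : ℕ} {s : ℕ → G} (h : CoxRel n s) {q r : ℕ} (hqr : q + 2 ≤ r)
    (hr : r + 1 < n) : adjPair s q * adjPair s r = adjPair s r * adjPair s q := by
  ext : 1
  · exact h.far q r hqr hr
  · refine Equiv.ext fun i => ?_
    simp only [adjPair, Prod.snd_mul, Perm.mul_apply, swap_apply_def]
    split_ifs <;> omega

theorem adjPair_braid {n : ℕ} {s : ℕ → G} (h : CoxRel n s) {q : ℕ} (hq : q + 2 < n) :
    adjPair s q * adjPair s (q + 1) * adjPair s q =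
      adjPair s (q + 1) * adjPair s q * adjPair s (q + 1) := by
  ext : 1
  · exact h.braid q hq
  · refine Equiv.ext fun i => ?_
    simp only [adjPair, Prod.snd_mul, Perm.mul_apply, swap_apply_def]
    split_ifs <;> omega

theorem adjPair_chain_comm {n : ℕ} {s : ℕ → G} (h : CoxRel n s) {a p q : ℕ} (hq : a + p < q)
    (hn : q + 1 < n) : adjPair s q * adjChain s a p = adjChain s a p * adjPair s q := by
  induction p with
  | zero => simp [adjChain]
  | succ p ih =>
      rw [adjChain, ← mul_assoc, ← adjPair_far h (q := a + p) (r := q) (by omega) hn, mul_assoc,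
        ih (by omega), mul_assoc]

theorem adjChain_low {n : ℕ} {s : ℕ → G} (h : CoxRel n s) (a : ℕ) :
    ∀ p j, j + 2 ≤ p → a + p < n →
      adjPair s (a + j) * adjChain s a p = adjChain s a p * adjPair s (a + j + 1) := by
  intro p
  induction p with
  | zero => intro j hj; omega
  | succ p ih =>
      intro j hj hp
      by_cases h1 : j + 2 ≤ p
      · rw [adjChain, ← mul_assoc, adjPair_far h (q := a + j) (r := a + p) (by omega) (by omega),
          mul_assoc, ih j h1 (by omega), mul_assoc]
      · obtain rfl : p = j + 1 := by omega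
        simp only [adjChain]
        rw [show a + (j + 1) = a + j + 1 from rfl, ← mul_assoc, ← mul_assoc,
          adjPair_braid h (q := a + j) (by omega), mul_assoc, mul_assoc,
          adjPair_chain_comm h (a := a) (p := j) (q := a + j + 1) (by omega) (by omega)]
        simp only [mul_assoc]

/-- Left multiplication by a generator preserves the normal form. -/
theorem adjPair_mul_chain {n : ℕ} {s : ℕ → G} (h : CoxRel n s) {a m : ℕ} (ham : a + m < n)
    {q p : ℕ} (hq : a ≤ q) (hq' : q < a + m) (hp : p ≤ m) :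
    ∃ p' ≤ m, ∃ y ∈ adjGroup s (a + 1) (m - 1),
      adjPair s q * adjChain s a p = adjChain s a p' * y := by
  obtain ⟨j, rfl⟩ := Nat.exists_eq_add_of_le hq
  rcases Nat.lt_trichotomy j p with hj | rfl | hj
  · by_cases hj' : j + 1 = p
    · subst hj'
      refine ⟨j, by omega, 1, one_mem _, ?_⟩
      simp only [adjChain, mul_one]
      nth_rw 1 [← adjPair_inv h (q := a + j) (by omega)]
      simp
    · refine ⟨p, hp, _, adjPair_mem (q := a + j + 1) (by omega) (by omega),
        adjChain_low h a p j (by omega) (by omega)⟩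
  · exact ⟨j + 1, by omega, 1, one_mem _, by simp [adjChain]⟩
  · exact ⟨p, hp, _, adjPair_mem (q := a + j) (by omega) (by omega),
      adjPair_chain_comm h (by omega) (by omega)⟩

theorem adjGroup_normalForm {n : ℕ} {s : ℕ → G} (h : CoxRel n s) {a m : ℕ} (ham : a + m < n)
    {x : G × Perm ℕ} (hx : x ∈ adjGroup s a m) :
    ∃ p ≤ m, ∃ y ∈ adjGroup s (a + 1) (m - 1), x = adjChain s a p * y := by
  induction hx using Subgroup.closure_induction_left with
  | one => exact ⟨0, Nat.zero_le _, 1, one_mem _, by simp [adjChain]⟩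
  | mul_left x hx y _ ih =>
      obtain ⟨q, hq, hq', rfl⟩ := hx
      obtain ⟨p, hp, z, hz, rfl⟩ := ih
      obtain ⟨p', hp', w, hw, e⟩ := adjPair_mul_chain h ham hq hq' hp
      exact ⟨p', hp', w * z, mul_mem hw hz, by rw [← mul_assoc, e, mul_assoc]⟩
  | inv_mul_cancel x hx y _ ih =>
      obtain ⟨q, hq, hq', rfl⟩ := hx
      obtain ⟨p, hp, z, hz, rfl⟩ := ih
      rw [adjPair_inv h (by omega)]
      obtain ⟨p', hp', w, hw, e⟩ := adjPair_mul_chain h ham hq hq' hp
      exact ⟨p', hp', w * z, mul_mem hw hz, by rw [← mul_assoc, e, mul_assoc]⟩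

theorem adjGroup_inj {n : ℕ} {s : ℕ → G} (h : CoxRel n s) :
    ∀ m a, a + m < n → ∀ x ∈ adjGroup s a m, x.2 = 1 → x.1 = 1 := by
  intro m
  induction m with
  | zero =>
      intro a _ x hx _
      have : {x : G × Perm ℕ | ∃ q, a ≤ q ∧ q < a + 0 ∧ adjPair s q = x} = ∅ := by
        ext; simp only [Set.mem_ofPred_eq, Set.mem_empty_iff_false, iff_false]; rintro ⟨q, _, _, _⟩
        omega
      rw [adjGroup, this, Subgroup.closure_empty, Subgroup.mem_bot] at hx
      simp [hx]
  | succ m ih =>
      intro a ham x hx hx2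
      obtain ⟨p, hp, y, hy, rfl⟩ := adjGroup_normalForm h ham hx
      have e := Equiv.Perm.congr_fun hx2 a
      rw [Prod.snd_mul, Perm.mul_apply, adjGroup_fix hy a (by omega), adjChain_snd] at e
      obtain rfl : p = 0 := by simpa using e
      simp only [adjChain, one_mul] at hx2 ⊢
      exact ih (a + 1) (by omega) y hy hx2

namespace Lvl

variable {P : Type*} [Group P]

variable {n : ℕ}

/-- The subgroup of pure twists. -/
def tHom (n : ℕ) : (Fin n → P) →* Lvl P n where
  toFun t := ⟨1, t⟩
  map_one' := rfl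
  map_mul' t s := by ext <;> simp

theorem twist_eq_tHom (i : Fin n) (p : P) : twist i p = tHom n (Pi.mulSingle i p) := rfl

theorem eq_perm_mul_tHom (w : Lvl P n) : w = perm w.σ * tHom n w.t := by
  ext <;> simp [tHom]

theorem perm_conj_twist (σ : Equiv.Perm (Fin n)) (i : Fin n) (p : P) :
    perm σ * twist i p = twist (σ i) p * perm σ := by
  refine Lvl.ext (by simp) ?_
  funext j
  by_cases h : j = i
  · subst h; simp
  · simp [h, σ.injective.eq_iff]

theorem twist_comm {i i' : Fin n} (h : i ≠ i') (p q : P) :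
    twist i p * twist i' q = twist i' q * twist i p := by
  rw [twist_eq_tHom, twist_eq_tHom, ← map_mul, ← map_mul,
    (Pi.mulSingle_commute (f := fun _ => P) h p q).eq]

theorem mem_of_twist_mem (K : Subgroup (Lvl P n)) {w : Lvl P n} (hσ : perm w.σ ∈ K)
    (ht : ∀ i, twist i (w.t i) ∈ K) : w ∈ K := by
  rw [eq_perm_mul_tHom w]
  refine K.mul_mem hσ (Subgroup.pi_mem_of_mulSingle_mem (H := K.comap (tHom n)) w.t fun i => ?_)
  exact ht i

theorem dbl_one : (1 : Lvl P (n + 1)).dbl = 1 := by
  refine Lvl.ext ?_ ?_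
  · ext i
    refine Fin.cases ?_ (fun j => ?_) i <;> simp [dbl]
  · funext i
    refine Fin.cases ?_ (fun j => ?_) i <;> simp [dbl]

variable {A : Type*} [Group A]

/-- A homomorphism out of a level group, from its values on permutations and on twists. -/
noncomputable def liftHom (a : Equiv.Perm (Fin n) →* A) (b : Fin n → P →* A)
    (hb : Pairwise fun i j => ∀ p q, Commute (b i p) (b j q))
    (hab : ∀ σ i p, a σ * b i p = b (σ i) p * a σ) : Lvl P n →* A :=
  let F : (Fin n → P) →* A := MonoidHom.noncommPiCoprod b hb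
  MonoidHom.mk' (fun w => a w.σ * F w.t) fun w v => by
    let pre : (Fin n → P) →* (Fin n → P) :=
      { toFun := fun t i => t (v.σ i)
        map_one' := rfl
        map_mul' := fun _ _ => rfl }
    have key : ∀ t : Fin n → P, a v.σ * F (pre t) = F t * a v.σ := by
      let K : Subgroup (Fin n → P) :=
        { carrier := {t | a v.σ * F (pre t) = F t * a v.σ}
          one_mem' := by simp
          mul_mem' := fun {t s} ht hs => by
            simp only [Set.mem_ofPred_eq, map_mul] at *
            rw [← mul_assoc, ht, mul_assoc, hs, ← mul_assoc]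
          inv_mem' := fun {t} ht => by
            simp only [Set.mem_ofPred_eq, map_inv] at *
            rw [eq_inv_mul_iff_mul_eq, ← mul_assoc, ← ht, mul_assoc, mul_inv_cancel, mul_one] }
      intro t
      refine Subgroup.pi_mem_of_mulSingle_mem (H := K) t fun i => ?_
      show a v.σ * F (pre (Pi.mulSingle i (t i))) = F (Pi.mulSingle i (t i)) * a v.σ
      have e : pre (Pi.mulSingle i (t i)) = Pi.mulSingle (v.σ⁻¹ i) (t i) := by
        funext j
        simp only [pre, MonoidHom.coe_mk, OneHom.coe_mk, Pi.mulSingle_apply]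
        exact if_congr (by rw [Equiv.Perm.eq_inv_iff_eq]) rfl rfl
      rw [e]
      simp only [F, MonoidHom.noncommPiCoprod_mulSingle]
      rw [hab]
      simp
    have hw : (w * v).t = pre w.t * v.t := by funext i; simp [pre]
    simp only [mul_σ, map_mul, hw]
    rw [mul_assoc, ← mul_assoc (a v.σ), key]
    simp only [mul_assoc]

theorem liftHom_perm (a : Equiv.Perm (Fin n) →* A) (b : Fin n → P →* A) (hb) (hab)
    (σ : Equiv.Perm (Fin n)) : liftHom a b hb hab (perm σ) = a σ := by
  show a σ * MonoidHom.noncommPiCoprod b hb (fun _ => 1) = a σ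
  rw [show (fun _ => 1 : Fin n → P) = 1 from rfl, map_one, mul_one]

theorem liftHom_twist (a : Equiv.Perm (Fin n) →* A) (b : Fin n → P →* A) (hb) (hab)
    (i : Fin n) (p : P) : liftHom a b hb hab (twist i p) = b i p := by
  show a 1 * MonoidHom.noncommPiCoprod b hb (Pi.mulSingle i p) = b i p
  rw [map_one, one_mul, MonoidHom.noncommPiCoprod_mulSingle]

end Lvl


/-- Coxeter relations give a homomorphism out of the symmetric group. -/
theorem exists_permHom {n : ℕ} {s : ℕ → G} (h : CoxRel n s) :
    ∃ φ : Perm (Fin n) →* G, ∀ (q : ℕ) (hq : q + 1 < n),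
      φ (swap ⟨q, Nat.lt_of_succ_lt hq⟩ ⟨q + 1, hq⟩) = s q := by
  rcases n with - | n
  · exact ⟨1, fun q hq => absurd hq (by omega)⟩
  let H : Subgroup (G × Perm (Fin (n + 1))) :=
    Subgroup.closure (Set.range fun i : Fin n => (s i, swap i.castSucc i.succ))
  let ι : G × Perm (Fin (n + 1)) →* G × Perm ℕ :=
    (MonoidHom.id G).prodMap (Perm.viaEmbeddingHom Fin.valEmbedding)
  have hι : H.map ι ≤ adjGroup s 0 n := by
    rw [MonoidHom.map_closure, adjGroup, Subgroup.closure_le]
    rintro _ ⟨_, ⟨i, rfl⟩, rfl⟩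
    refine Subgroup.subset_closure ⟨i, Nat.zero_le _, by simp, ?_⟩
    refine Prod.ext rfl (Equiv.ext fun x => ?_)
    change _ = (swap i.castSucc i.succ).viaEmbedding Fin.valEmbedding x
    by_cases hx : x < n + 1
    · have := Perm.viaEmbedding_apply (swap i.castSucc i.succ) Fin.valEmbedding ⟨x, hx⟩
      change _ = ((swap i.castSucc i.succ) ⟨x, hx⟩ : ℕ) at this
      rw [show Fin.valEmbedding (⟨x, hx⟩ : Fin (n + 1)) = x from rfl] at this
      rw [this, Fin.val_injective.map_swap]
      rfl
    · rw [Perm.viaEmbedding_apply_of_notMem _ _ _ (by simpa using hx)]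
      simp only [adjPair]
      exact swap_apply_of_ne_of_ne (by omega) (by omega)
  let π : H →* Perm (Fin (n + 1)) := (MonoidHom.snd G _).comp H.subtype
  have hsurj : Function.Surjective π := by
    rw [← MonoidHom.range_eq_top, eq_top_iff, ← Subgroup.closure_eq_top_of_mclosure_eq_top
      (Perm.mclosure_swap_castSucc_succ n), Subgroup.closure_le]
    rintro _ ⟨i, rfl⟩
    exact ⟨⟨_, Subgroup.subset_closure ⟨i, rfl⟩⟩, rfl⟩
  have hinj : Function.Injective π := by
    rw [injective_iff_map_eq_one]
    rintro ⟨x, hx⟩ e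
    have e' : x.2 = 1 := e
    have := adjGroup_inj h n 0 (by omega) _ (hι ⟨x, hx, rfl⟩)
      (by simp [ι, MonoidHom.prodMap, e'])
    exact Subtype.ext (Prod.ext this e')
  let e := MulEquiv.ofBijective π ⟨hinj, hsurj⟩
  refine ⟨((MonoidHom.fst G _).comp H.subtype).comp e.symm.toMonoidHom, fun q hq => ?_⟩
  have hm : ((s q, swap ⟨q, Nat.lt_of_succ_lt hq⟩ ⟨q + 1, hq⟩) : G × Perm (Fin (n + 1))) ∈ H :=
    Subgroup.subset_closure ⟨⟨q, by omega⟩, rfl⟩
  have : e.symm (swap ⟨q, Nat.lt_of_succ_lt hq⟩ ⟨q + 1, hq⟩) = ⟨_, hm⟩ :=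
    e.injective (by rw [e.apply_symm_apply]; rfl)
  simp [this]

/-- Relations for twists and transpositions on `n` positions. -/
structure LvlRel {P : Type*} [Group P] (n : ℕ) (l : ℕ → P →* G) (s : ℕ → G) : Prop
    extends CoxRel n s where
  comm : ∀ q r, q < r → r < n → ∀ g g', l q g * l r g' = l r g' * l q g
  move : ∀ q, q + 1 < n → ∀ g, s q * l q g = l (q + 1) g * s q
  fixed : ∀ q r, q + 1 < n → r < n → r ≠ q → r ≠ q + 1 → ∀ g, s q * l r g = l r g * s q

/-- The homomorphism out of a level group given by twists and transpositions. -/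
theorem exists_lvlHom {P : Type*} [Group P] {n : ℕ} {l : ℕ → P →* G} {s : ℕ → G}
    (h : LvlRel n l s) :
    ∃ φ : Lvl P n →* G, (∀ (q : Fin n) g, φ (Lvl.twist q g) = l q g) ∧
      ∀ (q : ℕ) (hq : q + 1 < n),
        φ (Lvl.perm (swap ⟨q, Nat.lt_of_succ_lt hq⟩ ⟨q + 1, hq⟩)) = s q := by
  obtain ⟨a, ha⟩ := exists_permHom h.toCoxRel
  have hb : Pairwise fun i j : Fin n => ∀ g g', Commute (l i g) (l j g') := by
    intro i j hij g g'
    rcases Nat.lt_or_gt_of_ne (Fin.val_ne_of_ne hij) with hlt | hlt
    · exact h.comm i j hlt j.isLt g g'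
    · exact (h.comm j i hlt i.isLt g' g).symm
  have hab : ∀ σ (i : Fin n) g, a σ * l i g = l (σ i) g * a σ := by
    rcases n with - | n
    · exact fun _ i => i.elim0
    intro σ
    have hmem : σ ∈ Submonoid.closure (Set.range fun i : Fin n => swap i.castSucc i.succ) := by
      rw [Perm.mclosure_swap_castSucc_succ]; trivial
    induction hmem using Submonoid.closure_induction with
    | mem x hx =>
        obtain ⟨i, rfl⟩ := hx
        intro j g
        have hi : (i : ℕ) + 1 < n + 1 := by omega
        have hs : a (swap i.castSucc i.succ) = s i := ha i hi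
        rw [hs]
        by_cases h1 : j = i.castSucc
        · subst h1
          rw [swap_apply_left]
          exact h.move i hi g
        · by_cases h2 : j = i.succ
          · subst h2
            rw [swap_apply_right]
            have hm : s i * (s i * l i g) * s i = s i * (l (i + 1) g * s i) * s i := by
              rw [h.move i hi g]
            rw [← mul_assoc, h.sq i hi, one_mul, mul_assoc, mul_assoc, h.sq i hi, mul_one] at hm
            exact hm.symm
          · rw [swap_apply_of_ne_of_ne h1 h2]
            exact h.fixed i j hi j.isLt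
              (fun e => h1 (Fin.ext (by simpa using e)))
              (fun e => h2 (Fin.ext (by simpa using e))) g
    | one => intro j g; simp
    | mul x y _ _ hx hy =>
        intro j g
        rw [map_mul, mul_assoc, hy, ← mul_assoc, hx, mul_assoc]
        rfl
  refine ⟨Lvl.liftHom a (fun i => l i) hb hab, fun q g => ?_, fun q hq => ?_⟩
  · exact Lvl.liftHom_twist _ _ _ _ q g
  · exact (Lvl.liftHom_perm _ _ _ _ _).trans (ha q hq)

end Vale.P193.Host
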