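import Vale.Agent.P193.Host.Incomp

/-!
# Moving bricks to the front, and the two frame identities behind `disj` and `coord`
-/

namespace Vale.P193.Host

variable {S P : Type*} [Group P] [MulAction P S] [DecidableEq S] {s₀ : S} {n : ℕ}

@[simp] theorem split0_zero (F : Frame P S (n + 1)) :
    split0 s₀ F 0 = (child (F 0).1 ((F 0).2 • s₀) false, (F 0).2) := rfl

@[simp] theorem split0_one (F : Frame P S (n + 1)) :
    split0 s₀ F 1 = (child (F 0).1 ((F 0).2 • s₀) true, (F 0).2) := rfl

@[simp] theorem split0_succ (F : Frame P S (n + 1)) (k : Fin n) :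
    split0 s₀ F k.succ.succ = F k.succ := rfl

omit [MulAction P S] [DecidableEq S] in
theorem act_perm (F : Frame P S n) (σ : Equiv.Perm (Fin n)) :
    act F (Lvl.perm σ) = fun i => F (σ i) := by
  funext i; simp [act]

omit [MulAction P S] [DecidableEq S] in
theorem act_twist (F : Frame P S n) (j : Fin n) (p : P) :
    act F (Lvl.twist j p) = Function.update F j ((F j).1, (F j).2 * p) := by
  funext i
  rcases eq_or_ne i j with rfl | h
  · simp [act]
  · simp [act, h]

omit [MulAction P S] [DecidableEq S] in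
theorem act_tw01 (F : Frame P S (n + 2)) (p : P) :
    act F (tw01 n p) = fun i => if i = 0 ∨ i = 1 then ((F i).1, (F i).2 * p) else F i := by
  funext i
  simp only [tw01, act_mul, act_twist]
  refine Fin.cases ?_ (fun j => ?_) i
  · simp
  · refine Fin.cases ?_ (fun k => ?_) j
    · simp
    · have h0 : k.succ.succ ≠ (0 : Fin (n + 2)) := Fin.succ_ne_zero _
      have h1 : k.succ.succ ≠ (1 : Fin (n + 2)) := fun h =>
        Fin.succ_ne_zero k (Fin.succ_injective _ h)
      simp [h0, h1]

omit [Group P] [MulAction P S] [DecidableEq S] in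
theorem fin_one (m : ℕ) : (1 : Fin (m + 2)) = Fin.succ 0 := rfl

omit [Group P] [MulAction P S] [DecidableEq S] in
theorem fin_two (m : ℕ) : (2 : Fin (m + 3)) = Fin.succ (Fin.succ 0) := rfl

omit [Group P] [MulAction P S] [DecidableEq S] in
theorem fin_three (m : ℕ) : (3 : Fin (m + 4)) = Fin.succ (Fin.succ (Fin.succ 0)) := rfl

theorem split0_succ_zero (F : Frame P S (n + 1)) :
    split0 s₀ F (Fin.succ 0) = (child (F 0).1 ((F 0).2 • s₀) true, (F 0).2) := rfl

theorem split0_two (F : Frame P S (n + 2)) : split0 s₀ F 2 = F 1 := rfl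

omit [MulAction P S] [DecidableEq S] in
theorem act_s01_zero (F : Frame P S (n + 2)) : act F (s01 n) 0 = F 1 := by simp [s01, act_perm]

omit [MulAction P S] [DecidableEq S] in
theorem act_s02_zero (F : Frame P S (n + 3)) : act F (s02 n) 0 = F 2 := by simp [s02, act_perm]

omit [MulAction P S] [DecidableEq S] in
theorem act_tw01_two (F : Frame P S (n + 3)) (p : P) : act F (tw01 (n + 1) p) 2 = F 2 := by
  have h0 : (2 : Fin (n + 3)) ≠ 0 := by rw [fin_two]; exact Fin.succ_ne_zero _
  have h1 : (2 : Fin (n + 3)) ≠ 1 := by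
    rw [fin_two, fin_one]; exact fun h => Fin.succ_ne_zero _ (Fin.succ_injective _ h)
  simp [act_tw01, h0, h1]

/-- Two bricks are bisected in both orders. -/
theorem split_disj (F : Frame P S (n + 2)) :
    act (split0 s₀ (act (split0 s₀ F) (s02 n))) (sπ n) =
      split0 s₀ (act (split0 s₀ (act F (s01 n))) (s02 n)) := by
  funext i
  refine Fin.cases ?_ (fun i => Fin.cases ?_ (fun i => Fin.cases ?_ (fun i => Fin.cases ?_
    (fun i => ?_) i) i) i) i <;>
    simp only [s01, s02, sπ, act_perm, fin_one, fin_two, fin_three, Equiv.swap_apply_def,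
      Equiv.Perm.mul_apply, split0_zero, split0_succ_zero, split0_succ, Fin.succ_ne_zero,
      (Fin.succ_ne_zero _).symm, Fin.succ_inj, if_true, if_false]

/-- One brick is bisected in two coordinates, in both orders. -/
theorem split_coord (F : Frame P S (n + 1)) (c : P)
    (hc : (F 0).2 • c • s₀ ≠ (F 0).2 • s₀) :
    act (act (split0 s₀ (act (act (act (split0 s₀ (act (split0 s₀ F) (Lvl.twist 0 c)))
      (tw01 (n + 1) c⁻¹)) (s02 n)) (Lvl.twist 0 c))) (tw01 (n + 2) c⁻¹)) (s02 (n + 1)) =
      split0 s₀ (act (split0 s₀ (act (split0 s₀ (act F (Lvl.twist 0 c))) (tw01 n c⁻¹)))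
        (s02 n)) := by
  funext i
  refine Fin.cases ?_ (fun i => Fin.cases ?_ (fun i => Fin.cases ?_ (fun i => Fin.cases ?_
    (fun i => ?_) i) i) i) i <;>
    simp only [s02, act_perm, act_tw01, act_twist, fin_one, fin_two, Equiv.swap_apply_def,
      split0_zero, split0_succ_zero, split0_succ, Fin.succ_ne_zero, (Fin.succ_ne_zero _).symm,
      Fin.succ_inj, if_true, if_false, or_self, or_true, or_false,
      Function.update_self, ne_eq, not_false_eq_true, Function.update_of_ne, mul_inv_cancel_right,
      mul_smul, child_comm _ hc]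

end Vale.P193.Host
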