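import Vale.Agent.P193.Host.Base

/-!
# Interfaces of the host theorem (piece A)
-/

namespace Vale.P193.Host

variable (P S : Type) [Group P] [MulAction P S] [DecidableEq S]

/-- Standing hypotheses: two orbits of pairs, faithfulness, infinitely many coordinates. -/
structure Setting (s₀ : S) (c : P) : Prop where
  trans : ∀ s : S, ∃ p : P, p • s₀ = s
  pairs : ∀ s : S, s ≠ s₀ → ∃ h : P, h • s₀ = s₀ ∧ h • c • s₀ = s
  ne : c • s₀ ≠ s₀
  faithful : FaithfulSMul P S
  infinite : Infinite S

variable {P S}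

/-- A family on all levels satisfying all relations. -/
def Compat (s₀ : S) (c : P) {A : Type} [Group A] (ρ : ∀ n, Lvl P n →* A) : Prop :=
  ∀ N, ∃ D : Data s₀ c N A, D.ρ = ρ

/-- Module Tree: the group consists of canonical maps, and any two frames are joined by an
element. -/
def SVStmt (s₀ : S) (c : P) : Prop :=
  Setting P S s₀ c → (SV P s₀ : Set (Equiv.Perm (X S))) = svSet P s₀ ∧
    (∀ n (F F' : Frame P S n), Reach s₀ n F → Reach s₀ n F' → ∃ g ∈ SV P s₀, Carries g F F') ∧
    (∀ n (F : Frame P S n), Reach s₀ n F → ∀ x : X S, ∃! i, x ∈ Set.range (ins (F i).1))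

/-- Module Simple. -/
def SimpleStmt (s₀ : S) (c : P) : Prop :=
  Setting P S s₀ c → IsSimpleGroup (SV P s₀) ∧
    ∃ f : P →* SV P s₀, Function.Injective f

/-- The host theorem (piece A). -/
def HostStmt : Prop :=
  ∀ (P : Type) [Group P] (H : Subgroup P) (c : P), Group.IsFinitelyPresented P → H.FG →
    c ∉ H → (∀ p, p ∈ H ∨ ∃ a ∈ H, ∃ b ∈ H, p = a * c * b) → H.normalCore = ⊥ →
    Infinite (P ⧸ H) →
    ∃ (T : Type) (_ : Group T), IsSimpleGroup T ∧ Group.IsFinitelyPresented T ∧
      ∃ f : P →* T, Function.Injective f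

end Vale.P193.Host
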