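import Vale.Agent.P193.Host.Value

/-!
# The twisted Brin-Thompson group and its canonical family on the levels
-/

namespace Vale.P193.Host

variable {S P : Type} [Group P] [MulAction P S] [DecidableEq S] {s₀ : S} {c : P}

omit [DecidableEq S] in
theorem compat_one (s₀ : S) (c : P) {A : Type} [Group A] :
    Compat s₀ c (fun n => (1 : Lvl P n →* A)) :=
  fun _ => ⟨⟨fun _ => 1, fun _ _ _ _ => rfl, fun _ _ => by simp, fun _ _ => by simp⟩, rfl⟩

/-- Refinement keeps the quotient of the values. -/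
theorem Refines.value {A : Type} [Group A] {ρ : ∀ n, Lvl P n →* A} {val : ∀ n, Frame P S n → A}
    (ha : ∀ n F w, Reach s₀ n F → val n (Host.act F w) = val n F * ρ n w)
    (hs : ∀ n F, Reach s₀ (n + 1) F → val (n + 2) (split0 s₀ F) = val (n + 1) F)
    {n m : ℕ} {g : Equiv.Perm (X S)} {F F' : Frame P S n} {G : Frame P S m}
    (h : Refines s₀ F m G) (hg : Carries g F F') (hF : Reach s₀ n F) (hF' : Reach s₀ n F') :
    ∃ G', Refines s₀ F' m G' ∧ Carries g G G' ∧
      val m G' * (val m G)⁻¹ = val n F' * (val n F)⁻¹ := by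
  induction h with
  | refl => exact ⟨F', .refl, hg, rfl⟩
  | act w h ih =>
    obtain ⟨G', h1, h2, h3⟩ := ih
    refine ⟨_, .act w h1, h2.act w, ?_⟩
    rw [ha _ _ w (h.reach hF), ha _ _ w (h1.reach hF'), ← h3]
    group
  | split h ih =>
    obtain ⟨G', h1, h2, h3⟩ := ih
    exact ⟨_, .split h1, h2.split, by rw [hs _ _ (h.reach hF), hs _ _ (h1.reach hF'), h3]⟩

variable (hS : Setting P S s₀ c)
include hS

theorem exists_common' {n n' : ℕ} {F : Frame P S n} {G : Frame P S n'} (hF : Reach s₀ n F)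
    (hG : Reach s₀ n' G) :
    ∃ (m : ℕ) (K : Frame P S m), Refines s₀ F m K ∧ Refines s₀ G m K :=
  exists_common hS (compat_one s₀ c (A := Multiplicative Unit)) hF hG

theorem svSet_mul {g h : Equiv.Perm (X S)} (hg : g ∈ svSet P s₀) (hh : h ∈ svSet P s₀) :
    g * h ∈ svSet P s₀ := by
  obtain ⟨n, F, F', hF, hF', e⟩ := hg
  obtain ⟨m, G, G', hG, hG', e'⟩ := hh
  obtain ⟨k, K, h1, h2⟩ := exists_common' hS hF hG'
  obtain ⟨L, r1, c1⟩ := h1.carries e
  obtain ⟨L', r2, c2⟩ := h2.carries e'.symm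
  exact ⟨k, L', L, r2.reach hG, r1.reach hF', Carries.comp (inv_inv h ▸ c2.symm) c1⟩

theorem svSet_eq : (SV P s₀ : Set (Equiv.Perm (X S))) = svSet P s₀ := by
  let H : Subgroup (Equiv.Perm (X S)) :=
    { carrier := svSet P s₀
      mul_mem' := svSet_mul hS
      one_mem' := ⟨1, root, root, .root, .root, carries_one _⟩
      inv_mem' := fun ⟨n, F, F', hF, hF', e⟩ => ⟨n, F', F, hF', hF, e.symm⟩ }
  have : SV P s₀ = H := le_antisymm ((Subgroup.closure_le H).2 fun _ h => h)
    fun x hx => Subgroup.subset_closure hx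
  rw [this]
  rfl

omit hS in
theorem exists_mem {n : ℕ} {F F' : Frame P S n} (hF : Reach s₀ n F) (hF' : Reach s₀ n F') :
    ∃ g ∈ SV P s₀, Carries g F F' := by
  obtain ⟨g, hg⟩ := exists_carries hF hF'
  exact ⟨g, Subgroup.subset_closure ⟨n, F, F', hF, hF', hg⟩, hg⟩

/-- Module Tree. -/
theorem svStmt : SVStmt (P := P) (S := S) s₀ c :=
  fun _ => ⟨svSet_eq hS, fun _ _ _ h h' => exists_mem h h', fun _ _ h => h.existsUnique⟩

omit hS

variable (P) in
/-- The comb of size `m + 1`. -/
def comb (s₀ : S) : ∀ m, Frame P S (m + 1)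
  | 0 => root
  | m + 1 => split0 s₀ (comb s₀ m)

theorem reach_comb : ∀ m, Reach s₀ (m + 1) (comb P s₀ m)
  | 0 => .root
  | m + 1 => .split (reach_comb m)

variable (s₀) in
/-- The canonical element of a level. -/
noncomputable def piFun : ∀ n, Lvl P n → SV P s₀
  | 0, _ => 1
  | m + 1, w =>
    ⟨_, (exists_mem (reach_comb (s₀ := s₀) m) (.act w (reach_comb m))).choose_spec.1⟩

theorem carries_piFun (m : ℕ) (w : Lvl P (m + 1)) :
    Carries (piFun s₀ (m + 1) w : Equiv.Perm (X S)) (comb P s₀ m) (act (comb P s₀ m) w) :=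
  (exists_mem (reach_comb (s₀ := s₀) m) (.act w (reach_comb m))).choose_spec.2

variable (s₀) in
/-- The canonical family. -/
noncomputable def pi (n : ℕ) : Lvl P n →* SV P s₀ where
  toFun := piFun s₀ n
  map_one' := by
    rcases n with - | m
    · rfl
    · refine Subtype.ext (Carries.unique (reach_comb m) (carries_piFun m 1) ?_)
      rw [act_one]
      exact carries_one _
  map_mul' w v := by
    rcases n with - | m
    · simp [piFun]
    · refine Subtype.ext (Carries.unique (reach_comb m) (carries_piFun m (w * v)) ?_)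
      rw [Subgroup.coe_mul, act_mul]
      exact (carries_piFun m v).comp ((carries_piFun m w).act v)

theorem carries_pi (m : ℕ) (w : Lvl P (m + 1)) :
    Carries (pi s₀ (m + 1) w : Equiv.Perm (X S)) (comb P s₀ m) (act (comb P s₀ m) w) :=
  carries_piFun m w

/-- Multiplying the value by a level element. -/
theorem carries_step {m : ℕ} {g : SV P s₀} {F : Frame P S (m + 1)}
    (h : Carries (g : Equiv.Perm (X S)) (comb P s₀ m) F) (w : Lvl P (m + 1)) :
    Carries ((g * pi s₀ (m + 1) w : SV P s₀) : Equiv.Perm (X S)) (comb P s₀ m) (act F w) :=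
  (carries_pi m w).comp (h.act w)

/-- The value does not change under bisection. -/
theorem carries_next {m : ℕ} {g : SV P s₀} {F : Frame P S (m + 1)}
    (h : Carries (g : Equiv.Perm (X S)) (comb P s₀ m) F) :
    Carries (g : Equiv.Perm (X S)) (comb P s₀ (m + 1)) (split0 s₀ F) :=
  h.split

theorem compat_pi (hc : c • s₀ ≠ s₀) : Compat s₀ c (pi (P := P) s₀) := by
  have hp : ∀ n, ((comb P s₀ n 0).2 : P) = 1 := by
    intro n
    induction n with
    | zero => rfl
    | succ n ih => simp [comb, ih]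
  refine fun N => ⟨⟨pi s₀, fun n _ w hw => ?_, fun n _ => ?_, fun n _ => ?_⟩, rfl⟩
  · refine Subtype.ext (Carries.unique (reach_comb (n + 1)) (carries_pi _ _) ?_)
    show Carries _ (comb P s₀ (n + 1)) (act (split0 s₀ (comb P s₀ n)) w.dbl)
    rw [← split0_act s₀ _ w hw]
    exact (carries_pi n w).split
  · refine Subtype.ext (Carries.unique (reach_comb (n + 3))
      (carries_step (carries_next (carries_pi (n + 2) (s02 n))) (sπ n)) ?_)
    rw [show comb P s₀ (n + 2) = split0 s₀ (comb P s₀ (n + 1)) from rfl, split_disj]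
    exact carries_next (carries_step (carries_next (carries_pi (n + 1) (s01 n))) (s02 n))
  · refine Subtype.ext (Carries.unique (reach_comb (n + 3))
      (carries_step (carries_step (carries_next (carries_step (carries_step (carries_step
        (carries_next (carries_pi (n + 1) (Lvl.twist 0 c))) (tw01 (n + 1) c⁻¹)) (s02 n))
          (Lvl.twist 0 c))) (tw01 (n + 2) c⁻¹)) (s02 (n + 1))) ?_)
    rw [show comb P s₀ (n + 1) = split0 s₀ (comb P s₀ n) from rfl,
      split_coord (s₀ := s₀) (comb P s₀ n) c (by simp [hp, hc])]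
    exact carries_next (carries_step (carries_next (carries_step (carries_next
      (carries_pi n (Lvl.twist 0 c))) (tw01 n c⁻¹))) (s02 n))

theorem mem_closure {n : ℕ} {F : Frame P S n} (h : Reach s₀ n F) :
    ∃ g ∈ Subgroup.closure {x | ∃ m, ∃ w, pi (P := P) s₀ m w = x},
      ∀ k, n = k + 1 → ∀ G : Frame P S (k + 1), HEq F G →
        Carries (g : Equiv.Perm (X S)) (comb P s₀ k) G := by
  induction h with
  | root =>
    refine ⟨1, one_mem _, fun k hk G e => ?_⟩
    obtain rfl : k = 0 := by omega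
    cases e
    exact carries_one _
  | @act n F w hF ih =>
    obtain ⟨g, hg, hc⟩ := ih
    refine ⟨g * pi s₀ n w, mul_mem hg (Subgroup.subset_closure ⟨n, w, rfl⟩), fun k hk G e => ?_⟩
    subst hk
    cases e
    exact (carries_pi k w).comp ((hc k rfl F HEq.rfl).act w)
  | @split n F hF ih =>
    obtain ⟨g, hg, hc⟩ := ih
    refine ⟨g, hg, fun k hk G e => ?_⟩
    obtain rfl : k = n + 1 := by omega
    cases e
    exact (hc n rfl F HEq.rfl).split

theorem closure_pi (hS : Setting P S s₀ c) :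
    Subgroup.closure {x | ∃ n, ∃ w, pi (P := P) s₀ n w = x} = ⊤ := by
  refine eq_top_iff.2 fun g _ => ?_
  obtain ⟨n, F, F', hF, hF', e⟩ :
      (g : Equiv.Perm (X S)) ∈ svSet P s₀ := svSet_eq hS ▸ g.2
  obtain ⟨m, rfl⟩ : ∃ m, n = m + 1 := by
    rcases n with - | m
    · exact absurd (hF.bijective.2 fun _ _ => false) fun ⟨⟨i, _⟩, _⟩ => i.elim0
    · exact ⟨m, rfl⟩
  obtain ⟨a, ha, ha'⟩ := mem_closure hF
  obtain ⟨b, hb, hb'⟩ := mem_closure hF'
  have : g = b * a⁻¹ := by
    refine Subtype.ext (Carries.unique hF e ?_)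
    simp only [Subgroup.coe_mul, Subgroup.coe_inv]
    exact (ha' m rfl F HEq.rfl).symm.comp (hb' m rfl F' HEq.rfl)
  rw [this]
  exact mul_mem hb (inv_mem ha)

theorem universal_pi (hS : Setting P S s₀ c) {A : Type} [Group A] {ρ : ∀ n, Lvl P n →* A}
    (hρ : Compat s₀ c ρ) :
    ∃ f : SV P s₀ →* A, ∀ n, 1 ≤ n → ∀ w, f (pi s₀ n w) = ρ n w := by
  have : FaithfulSMul P S := hS.faithful
  obtain ⟨val, h1, ha, hs⟩ := exists_val hS hρ
  have hex : ∀ g : SV P s₀, ∃ (n : ℕ) (F F' : Frame P S n),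
      Reach s₀ n F ∧ Reach s₀ n F' ∧ Carries (g : Equiv.Perm (X S)) F F' :=
    fun g => (svSet_eq hS).subset g.2
  choose N F F' hF hF' hg using hex
  have key : ∀ (g : SV P s₀) {n : ℕ} {G G' : Frame P S n}, Reach s₀ n G → Reach s₀ n G' →
      Carries (g : Equiv.Perm (X S)) G G' →
      val (N g) (F' g) * (val (N g) (F g))⁻¹ = val n G' * (val n G)⁻¹ := by
    intro g n G G' hG hG' e
    obtain ⟨m, K, r1, r2⟩ := exists_common' hS (hF g) hG
    obtain ⟨L, -, c1, v1⟩ := r1.value ha hs (hg g) (hF g) (hF' g)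
    obtain ⟨L', -, c2, v2⟩ := r2.value ha hs e hG hG'
    rw [← v1, ← v2, c1.right_unique c2]
  refine ⟨MonoidHom.mk' (fun g => val (N g) (F' g) * (val (N g) (F g))⁻¹) fun g h => ?_,
    fun n hn w => ?_⟩
  · obtain ⟨m, K, r1, r2⟩ := exists_common' hS (hF g) (hF' h)
    obtain ⟨L, q1, c1, v1⟩ := r1.value ha hs (hg g) (hF g) (hF' g)
    obtain ⟨L', q2, c2, v2⟩ := r2.value ha hs (hg h).symm (hF' h) (hF h)
    rw [key (g * h) (q2.reach (hF h)) (q1.reach (hF' g))
      (by rw [Subgroup.coe_mul]; exact (inv_inv (h : Equiv.Perm (X S)) ▸ c2.symm).comp c1), ← v1,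
      show val (N h) (F' h) * (val (N h) (F h))⁻¹ =
        (val (N h) (F h) * (val (N h) (F' h))⁻¹)⁻¹ by group, ← v2]
    group
  · obtain ⟨m, rfl⟩ : ∃ m, n = m + 1 := ⟨n - 1, by omega⟩
    have hc : ∀ k, val (k + 1) (comb P s₀ k) = 1 := by
      intro k
      induction k with
      | zero => exact h1
      | succ k ih => rw [comb, hs _ _ (reach_comb k), ih]
    show val _ _ * _ = _
    rw [key _ (reach_comb m) (.act w (reach_comb m)) (carries_pi m w), ha _ _ w (reach_comb m),
      hc, one_mul, inv_one, mul_one]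

end Vale.P193.Host
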