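import Vale.Agent.P193.Host.Plan
import Vale.Agent.P193.Host.Levels
import Vale.Agent.P193.Host.Engine

/-!
# A finitely presented group carrying a compatible family on all levels

Level `n + 1` is the shift of level `n`, so that finitely many relations suffice.
-/

namespace Vale.P193.Host

open Equiv

variable {P : Type} [Group P]

/-- Extend by fixing the last position. -/
def up (n : ℕ) : Lvl P n →* Lvl P (n + 1) where
  toFun w := ⟨finSuccEquivLast.symm.permCongr (Equiv.optionCongr w.σ), Fin.snoc w.t 1⟩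
  map_one' := by
    refine Lvl.ext ?_ ?_
    · ext i
      refine Fin.lastCases ?_ (fun j => ?_) i <;> simp [Equiv.permCongr_apply]
    · funext i
      refine Fin.lastCases ?_ (fun j => ?_) i <;> simp
  map_mul' w v := by
    refine Lvl.ext ?_ ?_
    · ext i
      refine Fin.lastCases ?_ (fun j => ?_) i <;> simp [Equiv.permCongr_apply]
    · funext i
      refine Fin.lastCases ?_ (fun j => ?_) i <;> simp [Equiv.permCongr_apply]

theorem up_σ_castSucc {n : ℕ} (w : Lvl P n) (j : Fin n) :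
    (up n w).σ j.castSucc = (w.σ j).castSucc := by
  simp [up, Equiv.permCongr_apply]

theorem up_σ_last {n : ℕ} (w : Lvl P n) : (up n w).σ (Fin.last n) = Fin.last n := by
  simp [up, Equiv.permCongr_apply]

theorem up_twist {n : ℕ} (q : Fin n) (g : P) :
    up n (Lvl.twist q g) = Lvl.twist q.castSucc g := by
  refine Lvl.ext ?_ ?_
  · ext i
    refine Fin.lastCases ?_ (fun j => ?_) i <;> simp [up, Equiv.permCongr_apply]
  · funext i
    refine Fin.lastCases ?_ (fun j => ?_) i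
    · simp [up]
    · by_cases h : j = q
      · subst h; simp [up]
      · simp [up, h]

theorem up_perm {n : ℕ} (a b : Fin n) :
    up n (Lvl.perm (swap a b) : Lvl P n) = Lvl.perm (swap a.castSucc b.castSucc) := by
  refine Lvl.ext ?_ ?_
  · refine Equiv.ext fun i => ?_
    refine Fin.lastCases ?_ (fun j => ?_) i
    · rw [up_σ_last, Lvl.perm_σ,
        swap_apply_of_ne_of_ne (Fin.castSucc_lt_last a).ne' (Fin.castSucc_lt_last b).ne']
    · rw [up_σ_castSucc, Lvl.perm_σ, Lvl.perm_σ,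
        (Fin.castSucc_injective n).map_swap]
  · funext i
    refine Fin.lastCases ?_ (fun j => ?_) i <;> simp [up]

/-- The element moving the shifted half back. -/
def x0 {A : Type} [Group A] (ρ : ∀ n, Lvl P n →* A) : A :=
  ρ 2 (s01 0) * ρ 3 (Lvl.perm (swap 1 2 * swap 0 1))

/-- The family carries a shift endomorphism. -/
def ShiftRel {A : Type} [Group A] (ρ : ∀ n, Lvl P n →* A) : Prop :=
  ∃ sh : A →* A, (∀ n w, ρ (n + 1) (up n w) = sh (ρ n w)) ∧
    ∀ y, sh y * x0 ρ = x0 ρ * sh (sh y)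

theorem Lvl.hom_ext_gen {n : ℕ} {A : Type*} [Group A] {f g : Lvl P n →* A}
    (h1 : ∀ (q : Fin n) x, f (Lvl.twist q x) = g (Lvl.twist q x))
    (h2 : ∀ (q : ℕ) (hq : q + 1 < n), f (Lvl.perm (swap ⟨q, Nat.lt_of_succ_lt hq⟩ ⟨q + 1, hq⟩))
      = g (Lvl.perm (swap ⟨q, Nat.lt_of_succ_lt hq⟩ ⟨q + 1, hq⟩))) : f = g := by
  refine MonoidHom.ext fun w => ?_
  have hp : ∀ σ : Perm (Fin n), f (Lvl.perm σ) = g (Lvl.perm σ) := by
    rcases n with - | n
    · intro σ; rw [Subsingleton.elim σ 1, map_one, map_one, map_one]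
    intro σ
    have hmem : σ ∈ Submonoid.closure (Set.range fun i : Fin n => swap i.castSucc i.succ) := by
      rw [Perm.mclosure_swap_castSucc_succ]; trivial
    induction hmem using Submonoid.closure_induction with
    | mem x hx =>
        obtain ⟨i, rfl⟩ := hx
        exact h2 i (by omega)
    | one => simp
    | mul x y _ _ hx hy => simp [hx, hy]
  exact Lvl.mem_of_twist_mem (f.eqLocus g) (hp w.σ) fun i => h1 i _

namespace Pre

variable {k : ℕ} (φ : FreeGroup (Fin k) →* P) (R : Set (FreeGroup (Fin k)))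
  (hs : Set (FreeGroup (Fin k))) (cw : FreeGroup (Fin k))
variable {G : Type} [Group G]

/-- The value of `swap 0 2` at level three. -/
def e02 (Q : Pre k G) : G := Q.sh Q.sE * Q.sM * Q.sh Q.sE

/-- The value of `swap 0 3 * swap 1 2` at level four. -/
def ePi (Q : Pre k G) : G :=
  Q.sh (Q.sh Q.sE) * Q.sh Q.sM * Q.sM * Q.sh Q.sM * Q.sh (Q.sh Q.sE) * Q.sh Q.sM

/-- All the equations to impose. -/
def eqs (Q : Pre k G) : Set (G × G) :=
  ((fun r => (Q.u r, 1)) '' R) ∪ ((fun r => (Q.v r, 1)) '' R) ∪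
  ((fun h => (Q.u h, Q.sh (Q.u h) * Q.v h)) '' hs) ∪
  (Set.range fun x : Fin k × (Nam k × Bool) =>
    (Q.v (FreeGroup.of x.1) * Q.sh (Q.xval x.2), Q.sh (Q.xval x.2) * Q.v (FreeGroup.of x.1))) ∪
  (Set.range fun z : Nam k × Bool =>
    (Q.sM * Q.sh (Q.sh (Q.xval z)), Q.sh (Q.sh (Q.xval z)) * Q.sM)) ∪
  (Set.range fun i =>
    (Q.sE * Q.sh (Q.u (FreeGroup.of i)), Q.v (FreeGroup.of i) * Q.sE)) ∪
  (Set.range fun i =>
    (Q.sM * Q.sh (Q.v (FreeGroup.of i)), Q.v (FreeGroup.of i) * Q.sM)) ∪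
  {(Q.sE * Q.sE, 1), (Q.sM * Q.sM, 1),
    (Q.sM * Q.sh Q.sE * Q.sM, Q.sh Q.sE * Q.sM * Q.sh Q.sE),
    (Q.sM * Q.sh Q.sM * Q.sM, Q.sh Q.sM * Q.sM * Q.sh Q.sM),
    (e02 Q * ePi Q, Q.sE * e02 Q),
    (Q.sh (Q.u cw) * (Q.sh (Q.sh (Q.u cw⁻¹)) * Q.sh (Q.v cw⁻¹)) * e02 Q *
        Q.sh (Q.sh (Q.u cw)) *
        (Q.sh (Q.sh (Q.sh (Q.u cw⁻¹))) * Q.sh (Q.sh (Q.v cw⁻¹))) * Q.sh (e02 Q),
      Q.u cw * (Q.sh (Q.u cw⁻¹) * Q.v cw⁻¹) * e02 Q)}

/-- All equations hold. -/
def Rel (Q : Pre k G) : Prop := ∀ e ∈ Q.eqs R hs cw, e.1 = e.2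

theorem eqs_finite (hR : R.Finite) (hh : hs.Finite) (Q : Pre k G) : (Q.eqs R hs cw).Finite := by
  unfold eqs
  refine Set.Finite.union ?_ (by simp)
  refine Set.Finite.union ?_ (Set.finite_range _)
  refine Set.Finite.union ?_ (Set.finite_range _)
  refine Set.Finite.union ?_ (Set.finite_range _)
  refine Set.Finite.union ?_ (Set.finite_range _)
  exact ((hR.image _).union (hR.image _)).union (hh.image _)

theorem eqs_map {A : Type} [Group A] {Q : Pre k G} {Q' : Pre k A} {f : G →* A}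
    (hf : IsHom Q Q' f) {e : G × G} (he : e ∈ Q.eqs R hs cw) :
    (f e.1, f e.2) ∈ Q'.eqs R hs cw := by
  have h02 : f (e02 Q) = e02 Q' := by simp [e02, hf.sh, hf.sE, hf.sM]
  rcases he with
    ((((((⟨r, hr, rfl⟩ | ⟨r, hr, rfl⟩) | ⟨r, hr, rfl⟩) | ⟨x, rfl⟩) | ⟨z, rfl⟩) | ⟨i, rfl⟩) |
      ⟨i, rfl⟩) | he
  · exact Or.inl (Or.inl (Or.inl (Or.inl (Or.inl (Or.inl (Or.inl ⟨r, hr, by simp [hf.u]⟩))))))
  · exact Or.inl (Or.inl (Or.inl (Or.inl (Or.inl (Or.inl (Or.inr ⟨r, hr, by simp [hf.v]⟩))))))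
  · exact Or.inl (Or.inl (Or.inl (Or.inl (Or.inl (Or.inr
      ⟨r, hr, by simp [hf.u, hf.v, hf.sh]⟩)))))
  · exact Or.inl (Or.inl (Or.inl (Or.inl (Or.inr ⟨x, by simp [hf.v, hf.sh, hf.xval]⟩))))
  · exact Or.inl (Or.inl (Or.inl (Or.inr ⟨z, by simp [hf.sM, hf.sh, hf.xval]⟩)))
  · exact Or.inl (Or.inl (Or.inr ⟨i, by simp [hf.u, hf.v, hf.sh, hf.sE]⟩))
  · exact Or.inl (Or.inr ⟨i, by simp [hf.v, hf.sh, hf.sM]⟩)
  · refine Or.inr ?_
    simp only [Set.mem_insert_iff, Set.mem_singleton_iff] at he ⊢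
    rcases he with rfl | rfl | rfl | rfl | rfl | rfl <;>
      simp [h02, ePi, hf.u, hf.v, hf.sh, hf.sE, hf.sM]

/-- Iterated shift. -/
def pw (Q : Pre k G) : ℕ → G →* G
  | 0 => MonoidHom.id G
  | i + 1 => Q.sh.comp (pw Q i)

theorem pw_sh (Q : Pre k G) (i : ℕ) (x : G) : Q.pw i (Q.sh x) = Q.pw (i + 1) x := by
  induction i with
  | zero => rfl
  | succ i ih => exact congrArg Q.sh ih

end Pre

/-- What the presented group satisfies, with homomorphisms out of `P`. -/
structure ShiftAlg {k : ℕ} (φ : FreeGroup (Fin k) →* P) {G : Type} [Group G] (Q : Pre k G) where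
  /-- the first twist -/
  p : P →* G
  /-- the later twists -/
  lam : P →* G
  hp : ∀ w, p (φ w) = Q.u w
  hlam : ∀ w, lam (φ w) = Q.v w
  lam_sh : ∀ g y, lam g * Q.sh y = Q.sh y * lam g
  sM_sh : ∀ y, Q.sM * Q.sh (Q.sh y) = Q.sh (Q.sh y) * Q.sM
  sE_p : ∀ g, Q.sE * Q.sh (p g) = lam g * Q.sE
  sM_lam : ∀ g, Q.sM * Q.sh (lam g) = lam g * Q.sM

namespace ShiftAlg

variable {k : ℕ} {φ : FreeGroup (Fin k) →* P} {G : Type} [Group G] {Q : Pre k G}

/-- Twist values. -/
def lv (S : ShiftAlg φ Q) (n q : ℕ) : P →* G :=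
  (Q.pw (n - 1 - q)).comp (if q = 0 then S.p else S.lam)

/-- Transposition values. -/
def sg (_ : ShiftAlg φ Q) (n q : ℕ) : G := Q.pw (n - 2 - q) (if q = 0 then Q.sE else Q.sM)

theorem exists_hom (φs : Function.Surjective φ) {R : Set (FreeGroup (Fin k))}
    (hker : Subgroup.normalClosure R = φ.ker) {hs : Set (FreeGroup (Fin k))}
    {cw : FreeGroup (Fin k)} (hrel : Q.Rel R hs cw)
    (hgen : Subgroup.closure (Set.range Q.xval) = ⊤) : Nonempty (ShiftAlg φ Q) := by
  have e1 : φ.ker ≤ Q.u.ker := by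
    rw [← hker]
    refine Subgroup.normalClosure_le_normal fun r hr => ?_
    exact hrel (Q.u r, 1)
      (Or.inl (Or.inl (Or.inl (Or.inl (Or.inl (Or.inl (Or.inl ⟨r, hr, rfl⟩)))))))
  have e2 : φ.ker ≤ Q.v.ker := by
    rw [← hker]
    refine Subgroup.normalClosure_le_normal fun r hr => ?_
    exact hrel (Q.v r, 1)
      (Or.inl (Or.inl (Or.inl (Or.inl (Or.inl (Or.inl (Or.inr ⟨r, hr, rfl⟩)))))))
  let p : P →* G := MonoidHom.liftOfSurjective φ φs ⟨Q.u, e1⟩
  let lam : P →* G := MonoidHom.liftOfSurjective φ φs ⟨Q.v, e2⟩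
  have hp : ∀ w, p (φ w) = Q.u w := fun w => φ.liftOfRightInverse_comp_apply _ _ _ w
  have hlam : ∀ w, lam (φ w) = Q.v w := fun w => φ.liftOfRightInverse_comp_apply _ _ _ w
  refine ⟨⟨p, lam, hp, hlam, fun g y => ?_, fun y => ?_, fun g => ?_, fun g => ?_⟩⟩
  · obtain ⟨w, rfl⟩ := φs g
    rw [hlam]
    have hi : ∀ i, ∀ y, Q.v (FreeGroup.of i) * Q.sh y = Q.sh y * Q.v (FreeGroup.of i) := by
      intro i y
      have hy : y ∈ Subgroup.closure (Set.range Q.xval) := by rw [hgen]; trivial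
      have hle : Subgroup.closure (Set.range Q.xval) ≤
          (Subgroup.centralizer {Q.v (FreeGroup.of i)}).comap Q.sh := by
        rw [Subgroup.closure_le]
        rintro _ ⟨z, rfl⟩
        exact Subgroup.mem_centralizer_singleton_iff.2
          (hrel _ (Or.inl (Or.inl (Or.inl (Or.inl (Or.inr ⟨(i, z), rfl⟩)))))).symm
      exact (Subgroup.mem_centralizer_singleton_iff.1 (hle hy)).symm
    induction w using FreeGroup.induction_on with
    | C1 => simp
    | of i => exact hi i y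
    | inv_of i _ => rw [map_inv]; exact (Commute.inv_left (hi i y)).eq
    | mul a b ha hb => rw [map_mul]; exact (Commute.mul_left ha hb).eq
  · have hy : y ∈ Subgroup.closure (Set.range Q.xval) := by rw [hgen]; trivial
    have hle : Subgroup.closure (Set.range Q.xval) ≤
        (Subgroup.centralizer {Q.sM}).comap (Q.sh.comp Q.sh) := by
      rw [Subgroup.closure_le]
      rintro _ ⟨z, rfl⟩
      exact Subgroup.mem_centralizer_singleton_iff.2
        (hrel _ (Or.inl (Or.inl (Or.inl (Or.inr ⟨z, rfl⟩))))).symm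
    exact (Subgroup.mem_centralizer_singleton_iff.1 (hle hy)).symm
  · have : (MulAut.conj Q.sE).toMonoidHom.comp ((Q.sh.comp p).comp φ) = lam.comp φ :=
      FreeGroup.ext_hom _ _ fun i => by
        simp only [MonoidHom.comp_apply, hp, hlam, MulEquiv.coe_toMonoidHom, MulAut.conj_apply,
          mul_inv_eq_iff_eq_mul]
        exact hrel _ (Or.inl (Or.inl (Or.inr ⟨i, rfl⟩)))
    obtain ⟨w, rfl⟩ := φs g
    simpa [MulAut.conj_apply, mul_inv_eq_iff_eq_mul] using DFunLike.congr_fun this w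
  · have : (MulAut.conj Q.sM).toMonoidHom.comp ((Q.sh.comp lam).comp φ) = lam.comp φ :=
      FreeGroup.ext_hom _ _ fun i => by
        simp only [MonoidHom.comp_apply, hlam, MulEquiv.coe_toMonoidHom, MulAut.conj_apply,
          mul_inv_eq_iff_eq_mul]
        exact hrel _ (Or.inl (Or.inr ⟨i, rfl⟩))
    obtain ⟨w, rfl⟩ := φs g
    simpa [MulAut.conj_apply, mul_inv_eq_iff_eq_mul] using DFunLike.congr_fun this w

variable (S : ShiftAlg φ Q) {R : Set (FreeGroup (Fin k))} {hs : Set (FreeGroup (Fin k))}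
  {cw : FreeGroup (Fin k)}

theorem lvlRel (hrel : Q.Rel R hs cw) (n : ℕ) : LvlRel n (S.lv n) (S.sg n) := by
  have hmem : ∀ {e}, e ∈ ({(Q.sE * Q.sE, 1), (Q.sM * Q.sM, 1),
      (Q.sM * Q.sh Q.sE * Q.sM, Q.sh Q.sE * Q.sM * Q.sh Q.sE),
      (Q.sM * Q.sh Q.sM * Q.sM, Q.sh Q.sM * Q.sM * Q.sh Q.sM)} : Set (G × G)) → e.1 = e.2 := by
    intro e he
    refine hrel e (Or.inr ?_)
    simp only [Set.mem_insert_iff, Set.mem_singleton_iff] at he ⊢
    tauto
  refine ⟨⟨fun q hq => ?_, fun q hq => ?_, fun q r hqr hr => ?_⟩,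
    fun q r hqr hr g g' => ?_, fun q hq g => ?_, fun q r hq hr h1 h2 g => ?_⟩
  · rw [sg, ← map_mul]
    split_ifs
    · rw [show Q.sE * Q.sE = 1 from hmem (e := (Q.sE * Q.sE, 1)) (by simp), map_one]
    · rw [show Q.sM * Q.sM = 1 from hmem (e := (Q.sM * Q.sM, 1)) (by simp), map_one]
  · rw [sg, sg, show n - 2 - q = n - 2 - (q + 1) + 1 by omega, ← Q.pw_sh,
      if_neg (show ¬ q + 1 = 0 by omega), ← map_mul, ← map_mul, ← map_mul, ← map_mul]
    refine congrArg _ ?_
    split_ifs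
    · exact (hmem (e := (Q.sM * Q.sh Q.sE * Q.sM, _)) (by simp)).symm
    · exact (hmem (e := (Q.sM * Q.sh Q.sM * Q.sM, _)) (by simp)).symm
  · rw [sg, sg, show n - 2 - q = n - 2 - r + (r - q - 2) + 1 + 1 by omega,
      if_neg (show ¬ r = 0 by omega)]
    have e : ∀ i j x, Q.pw (i + j + 1 + 1) x = Q.pw i (Q.sh (Q.sh (Q.pw j x))) := by
      intro i j x
      induction i with
      | zero => simp [Pre.pw]
      | succ i ih => rw [show i + 1 + j + 1 + 1 = i + j + 1 + 1 + 1 by omega]; exact congrArg Q.sh ih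
    rw [e, ← map_mul, ← map_mul, S.sM_sh]
  · have e : ∀ i j x, Q.pw (i + j + 1) x = Q.pw i (Q.sh (Q.pw j x)) := by
      intro i j x
      induction i with
      | zero => simp [Pre.pw]
      | succ i ih => rw [show i + 1 + j + 1 = i + j + 1 + 1 by omega]; exact congrArg Q.sh ih
    simp only [lv, MonoidHom.comp_apply]
    rw [show n - 1 - q = n - 1 - r + (r - q - 1) + 1 by omega, e, if_neg (show ¬ r = 0 by omega),
      ← map_mul, ← map_mul, S.lam_sh]
  · simp only [lv, sg, MonoidHom.comp_apply]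
    rw [show n - 1 - q = n - 2 - q + 1 by omega, ← Q.pw_sh, show n - 1 - (q + 1) = n - 2 - q by omega,
      if_neg (show ¬ q + 1 = 0 by omega), ← map_mul, ← map_mul]
    refine congrArg _ ?_
    split_ifs
    · exact S.sE_p g
    · exact S.sM_lam g
  · simp only [lv, sg, MonoidHom.comp_apply]
    rcases Nat.lt_or_gt_of_ne h1 with hlt | hgt
    · have e : ∀ i j x, Q.pw (i + j + 1 + 1) x = Q.pw i (Q.sh (Q.sh (Q.pw j x))) := by
        intro i j x
        induction i with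
        | zero => simp [Pre.pw]
        | succ i ih =>
            rw [show i + 1 + j + 1 + 1 = i + j + 1 + 1 + 1 by omega]; exact congrArg Q.sh ih
      rw [show n - 1 - r = n - 2 - q + (q - r - 1) + 1 + 1 by omega, e,
        if_neg (show ¬ q = 0 by omega), ← map_mul, ← map_mul, S.sM_sh]
    · have e : ∀ i j x, Q.pw (i + j + 1) x = Q.pw i (Q.sh (Q.pw j x)) := by
        intro i j x
        induction i with
        | zero => simp [Pre.pw]
        | succ i ih => rw [show i + 1 + j + 1 = i + j + 1 + 1 by omega]; exact congrArg Q.sh ih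
      rw [show n - 2 - q = n - 1 - r + (r - q - 2) + 1 by omega, e,
        if_neg (show ¬ r = 0 by omega), ← map_mul, ← map_mul, S.lam_sh]

/-- The family. -/
noncomputable def rho (hrel : Q.Rel R hs cw) (n : ℕ) : Lvl P n →* G :=
  (exists_lvlHom (S.lvlRel hrel n)).choose

variable (hrel : Q.Rel R hs cw)

theorem rho_twist (n : ℕ) (q : Fin n) (g : P) : S.rho hrel n (Lvl.twist q g) = S.lv n q g :=
  (exists_lvlHom (S.lvlRel hrel n)).choose_spec.1 q g

theorem rho_swap (n q : ℕ) (hq : q + 1 < n) :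
    S.rho hrel n (Lvl.perm (swap ⟨q, Nat.lt_of_succ_lt hq⟩ ⟨q + 1, hq⟩)) = S.sg n q :=
  (exists_lvlHom (S.lvlRel hrel n)).choose_spec.2 q hq

theorem rho_up (n : ℕ) (w : Lvl P n) :
    S.rho hrel (n + 1) (up n w) = Q.sh (S.rho hrel n w) := by
  have : (S.rho hrel (n + 1)).comp (up n) = Q.sh.comp (S.rho hrel n) := by
    refine Lvl.hom_ext_gen (fun q g => ?_) fun q hq => ?_
    · simp only [MonoidHom.comp_apply, up_twist, rho_twist, lv, Fin.val_castSucc]
      rw [show n + 1 - 1 - (q : ℕ) = n - 1 - (q : ℕ) + 1 by omega]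
      rfl
    · simp only [MonoidHom.comp_apply, up_perm, rho_swap S hrel n q hq]
      have e : S.rho hrel (n + 1) (Lvl.perm (swap (⟨q, by omega⟩ : Fin n).castSucc
          (⟨q + 1, hq⟩ : Fin n).castSucc)) = S.sg (n + 1) q :=
        rho_swap S hrel (n + 1) q (by omega)
      rw [e]
      rw [sg, sg, show n + 1 - 2 - q = n - 2 - q + 1 by omega]
      rfl
  exact DFunLike.congr_fun this w

end ShiftAlg

end Vale.P193.Host
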