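import Vale.Agent.P193.Host.Present
import Vale.Agent.P193.Host.Shift

/-!
# The canonical family carries the shift into the lower half
-/

namespace Vale.P193.Host

variable {S P : Type} [Group P] [MulAction P S] [DecidableEq S] {s₀ : S}

variable (s₀) in
/-- The two halves in the base coordinate. -/
def halves0 (y : X S ⊕ X S) : X S :=
  Sum.elim (ins (atom s₀ false)) (ins (atom s₀ true)) y

theorem halves0_bijective : Function.Bijective (halves0 s₀ : X S ⊕ X S → X S) := by
  have hs : ∀ (b : Bool) (x : X S), ins (atom s₀ b) x s₀ 0 = b := fun b x => by simp [ins, atom]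
  refine ⟨fun a b h => ?_, fun x => ?_⟩
  · have := congrArg (fun z => z s₀ 0) h
    rcases a with a | a <;> rcases b with b | b <;> simp [halves0, hs] at this h ⊢ <;>
      exact ins_injective _ h
  · have e : ins (atom s₀ (x s₀ 0)) (Function.update x s₀ fun k => x s₀ (k + 1)) = x := by
      funext s k
      by_cases h : s = s₀
      · subst h; rcases k with - | k <;> simp [ins, atom]
      · simp [ins, atom, h]
    cases hb : x s₀ 0 <;> rw [hb] at e
    · exact ⟨Sum.inl _, e⟩
    · exact ⟨Sum.inr _, e⟩

variable (s₀) in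
/-- A permutation transported into the lower half of the base coordinate. -/
noncomputable def shPerm : Equiv.Perm (X S) →* Equiv.Perm (X S) where
  toFun g := (Equiv.ofBijective _ (halves0_bijective (s₀ := s₀))).permCongr
    (Equiv.sumCongr g (Equiv.refl _))
  map_one' := by ext x : 1; simp [Equiv.permCongr_apply]
  map_mul' g h := by
    refine Equiv.ext fun x => ?_
    obtain ⟨y, rfl⟩ := (halves0_bijective (s₀ := s₀)).2 x
    rcases y with y | y <;> simp [Equiv.permCongr_apply, Equiv.ofBijective_symm_apply_apply]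

theorem shPerm_inl (g : Equiv.Perm (X S)) (x : X S) :
    shPerm s₀ g (ins (atom s₀ false) x) = ins (atom s₀ false) (g x) := by
  show shPerm s₀ g (halves0 s₀ (Sum.inl x)) = _
  simp [shPerm, Equiv.permCongr_apply, Equiv.ofBijective_symm_apply_apply]
  rfl

theorem shPerm_inr (g : Equiv.Perm (X S)) (x : X S) :
    shPerm s₀ g (ins (atom s₀ true) x) = ins (atom s₀ true) x := by
  show shPerm s₀ g (halves0 s₀ (Sum.inr x)) = _
  simp [shPerm, Equiv.permCongr_apply, Equiv.ofBijective_symm_apply_apply]
  rfl

/-- A frame moved into the lower half. -/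
def low (s₀ : S) {n : ℕ} (F : Frame P S n) : Frame P S (n + 1) :=
  Fin.snoc (fun i => (bmul (atom s₀ false) (F i).1, (F i).2)) (atom s₀ true, 1)

omit [MulAction P S] in
theorem low_act {n : ℕ} (F : Frame P S n) (w : Lvl P n) :
    low s₀ (act F w) = act (low s₀ F) (up n w) := by
  funext i
  refine Fin.lastCases ?_ (fun j => ?_) i
  · simp [low, act, up]
  · simp [low, act, up]

theorem low_split {n : ℕ} (F : Frame P S (n + 1)) :
    low s₀ (split0 s₀ F) = split0 s₀ (low s₀ F) := by
  have ha : ∀ (φ : Brick S) s b, bmul (atom s₀ false) (child φ s b) =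
      child (bmul (atom s₀ false) φ) s b := fun φ s b => by
    funext t; simp [child, bmul]
  funext i
  refine Fin.cases ?_ (fun j => ?_) i
  · rw [show (0 : Fin (n + 3)) = (0 : Fin (n + 2)).castSucc from rfl, low, Fin.snoc_castSucc,
      Fin.castSucc_zero, split0_zero, split0_zero, low,
      show (0 : Fin (n + 2)) = (0 : Fin (n + 1)).castSucc from rfl, Fin.snoc_castSucc, ha]
  · refine Fin.cases ?_ (fun k => ?_) j
    · rw [split0_succ_zero, low, show (Fin.succ 0 : Fin (n + 3)) = (1 : Fin (n + 2)).castSucc from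
          rfl, Fin.snoc_castSucc, split0_one, low,
        show (0 : Fin (n + 2)) = (0 : Fin (n + 1)).castSucc from rfl, Fin.snoc_castSucc, ha]
    · rw [split0_succ]
      refine Fin.lastCases ?_ (fun l => ?_) k
      · simp only [low, Fin.succ_last, Fin.snoc_last]
      · simp only [low, Fin.succ_castSucc, Fin.snoc_castSucc, split0_succ]

theorem low_root : low s₀ (root : Frame P S 1) = split0 s₀ root := by
  funext i
  refine Fin.lastCases ?_ (fun j => ?_) i
  · rw [low, Fin.snoc_last]
    show _ = split0 s₀ root 1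
    refine Prod.ext (funext fun t => ?_) rfl
    simp [root, child, bmul]
  · rw [low, Fin.snoc_castSucc, Subsingleton.elim j 0, Fin.castSucc_zero, split0_zero]
    refine Prod.ext (funext fun t => ?_) rfl
    simp [root, child, bmul]

theorem reach_low {n : ℕ} {F : Frame P S n} (h : Reach s₀ n F) :
    Reach s₀ (n + 1) (low s₀ F) := by
  induction h with
  | root => rw [low_root]; exact Reach.root.split
  | act w _ ih => rw [low_act]; exact ih.act _
  | split _ ih => rw [low_split]; exact ih.split

theorem low_comb : ∀ m, low s₀ (comb P s₀ m) = comb P s₀ (m + 1)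
  | 0 => low_root
  | m + 1 => by rw [comb, low_split, low_comb m]; rfl

theorem Carries.low {n : ℕ} {g : Equiv.Perm (X S)} {F F' : Frame P S n} (h : Carries g F F') :
    Carries (shPerm s₀ g) (Host.low s₀ F) (Host.low s₀ F') := fun i x => by
  refine Fin.lastCases ?_ (fun j => ?_) i
  · simp [Host.low, shPerm_inr]
  · simp [Host.low, ins_bmul, shPerm_inl, h j x]

variable {c : P} (hS : Setting P S s₀ c)
include hS

theorem shPerm_mem {g : Equiv.Perm (X S)} (hg : g ∈ SV P s₀) : shPerm s₀ g ∈ SV P s₀ := by
  obtain ⟨n, F, F', hF, hF', e⟩ : g ∈ svSet P s₀ := (svSet_eq hS).subset hg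
  exact Subgroup.subset_closure ⟨_, _, _, reach_low hF, reach_low hF', e.low⟩

/-- The shift of the group into the lower half. -/
noncomputable def shSV : SV P s₀ →* SV P s₀ :=
  ((shPerm s₀).comp (SV P s₀).subtype).codRestrict _ fun g => shPerm_mem hS g.2

/-- The canonical family satisfies the shift relations. -/
theorem shiftRel_pi : ShiftRel (pi (P := P) s₀) := by
  refine ⟨shSV hS, fun n w => ?_, fun y => ?_⟩
  · rcases n with - | m
    · have : w = 1 := by
        refine Lvl.ext (Subsingleton.elim _ _) (funext fun i => i.elim0)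
      simp [this]
    · refine Subtype.ext (Carries.unique (reach_comb (m + 1)) (carries_pi _ _) ?_)
      show Carries (shPerm s₀ _) _ _
      rw [← low_comb m, ← low_act]
      exact (carries_pi m w).low
  · set σ : Lvl P 3 := Lvl.perm (Equiv.swap 1 2 * Equiv.swap 0 1)
    have hx : Carries ((x0 (pi (P := P) s₀) : SV P s₀) : Equiv.Perm (X S)) (comb P s₀ 2)
        (act (split0 s₀ (act (comb P s₀ 1) (s01 0))) σ) :=
      carries_step (carries_next (carries_pi 1 (s01 0))) σ
    let f : Brick S := atom s₀ false
    let t : Brick S := atom s₀ true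
    have eps : ∀ φ : Brick S, bmul (fun _ => []) φ = φ := fun φ => funext fun u => by simp [bmul]
    have c0 : comb P s₀ 2 0 = (bmul f f, 1) := by simp [comb, root, child, eps, f]
    have c1 : comb P s₀ 2 1 = (bmul f t, 1) := by simp [comb, root, child, eps, f, t]
    have c2 : comb P s₀ 2 2 = (t, 1) := by simp [comb, root, split0_two, child, eps, t]
    have h0 : act (split0 s₀ (act (comb P s₀ 1) (s01 0))) σ 0 = (f, 1) := by
      rw [show act (split0 s₀ (act (comb P s₀ 1) (s01 0))) σ 0 =
        split0 s₀ (act (comb P s₀ 1) (s01 0)) 2 by simp [σ, act_perm, -map_mul],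
        split0_two]
      simp [s01, act_perm, comb, root, child, eps, f]
    have h1 : act (split0 s₀ (act (comb P s₀ 1) (s01 0))) σ 1 = (bmul t f, 1) := by
      rw [show act (split0 s₀ (act (comb P s₀ 1) (s01 0))) σ 1 =
        split0 s₀ (act (comb P s₀ 1) (s01 0)) 0 by simp [σ, act_perm, -map_mul, Equiv.swap_apply_def],
        split0_zero]
      simp [s01, act_perm, comb, root, child, eps, f, t]
    have h2 : act (split0 s₀ (act (comb P s₀ 1) (s01 0))) σ 2 = (bmul t t, 1) := by
      rw [show act (split0 s₀ (act (comb P s₀ 1) (s01 0))) σ 2 =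
        split0 s₀ (act (comb P s₀ 1) (s01 0)) 1 by simp [σ, act_perm, -map_mul, Equiv.swap_apply_def],
        split0_one]
      simp [s01, act_perm, comb, root, child, eps, t]
    have tw1 : ∀ x : X S, tw (1 : P) x = x := fun x => by simp
    refine Subtype.ext (Equiv.ext fun z => ?_)
    obtain ⟨⟨i, x⟩, rfl⟩ := (reach_comb (P := P) (s₀ := s₀) 2).bijective.2 z
    simp only [shSV, Subgroup.coe_mul, MonoidHom.codRestrict_apply, MonoidHom.comp_apply,
      Subgroup.coe_subtype, Equiv.Perm.mul_apply]
    rw [carries_iff.1 hx]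
    have hx0 : ∀ u : X S, ((x0 (pi (P := P) s₀) : SV P s₀) : Equiv.Perm (X S)) (ins (bmul f f) u) = ins f u :=
      fun u => by have := hx 0 u; rwa [c0, h0, tw1] at this
    have hx1 : ∀ u : X S, ((x0 (pi (P := P) s₀) : SV P s₀) : Equiv.Perm (X S)) (ins (bmul f t) u) =
        ins (bmul t f) u := fun u => by have := hx 1 u; rwa [c1, h1, tw1] at this
    have hx2 : ∀ u : X S, ((x0 (pi (P := P) s₀) : SV P s₀) : Equiv.Perm (X S)) (ins t u) =
        ins (bmul t t) u := fun u => by have := hx 2 u; rwa [c2, h2, tw1] at this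
    simp only [f, t, ins_bmul] at hx0 hx1 hx2
    fin_cases i
    · simp [emb, c0, h0, ins_bmul, f, shPerm_inl, hx0]
    · simp [emb, c1, h1, ins_bmul, f, t, shPerm_inl, shPerm_inr, hx1]
    · simp [emb, c2, h2, ins_bmul, t, shPerm_inr, hx2]

end Vale.P193.Host
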