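import Vale.Agent.P193.Host.Incomp

/-!
# Bisection systems: the result of a sequence of bisections depends only on the bricks
-/

namespace Vale.P193.Host

variable (S : Type*) [DecidableEq S]

/-- States with bricks and a bisection operation. -/
structure Sys (Q : Type*) where
  /-- the bricks of a state -/
  bricks : Q → Set (Brick S)
  /-- valid states -/
  Good : Q → Prop
  /-- the operation -/
  op : Q → Brick S → S → Q
  incomp : ∀ q, Good q → ∀ φ ∈ bricks q, ∀ ψ ∈ bricks q, φ ≠ ψ → Incomp φ ψ
  good_op : ∀ q φ s, Good q → φ ∈ bricks q → Good (op q φ s)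
  bricks_op : ∀ q φ s, Good q → φ ∈ bricks q →
    bricks (op q φ s) = (bricks q \ {φ}) ∪ {child φ s false, child φ s true}
  comm : ∀ q φ ψ s t, Good q → φ ∈ bricks q → ψ ∈ bricks q → φ ≠ ψ →
    op (op q φ s) ψ t = op (op q ψ t) φ s
  square : ∀ q φ s t, Good q → φ ∈ bricks q → s ≠ t →
    op (op (op q φ s) (child φ s false) t) (child φ s true) t =
      op (op (op q φ t) (child φ t false) s) (child φ t true) s

/-- Binary trees of bisections. -/
inductive BTree
  | leaf
  | node (s : S) (l r : BTree)

variable {S} {Q : Type*}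

namespace BTree

/-- The leaves of a tree planted at a brick. -/
def leaves : BTree S → Brick S → Set (Brick S)
  | leaf, φ => {φ}
  | node s l r, φ => l.leaves (child φ s false) ∪ r.leaves (child φ s true)

/-- Number of leaves. -/
def count : BTree S → ℕ
  | leaf => 1
  | node _ l r => l.count + r.count

omit [DecidableEq S] in
theorem count_pos : ∀ T : BTree S, 0 < T.count
  | leaf => Nat.one_pos
  | node _ l _ => Nat.add_pos_left (count_pos l) _

/-- Every path passes a bisection in coordinate `t`. -/
def Deep (t : S) : BTree S → Prop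
  | leaf => False
  | node s l r => s = t ∨ (l.Deep t ∧ r.Deep t)

/-- Bisect every leaf in coordinate `t`. -/
def deepen (t : S) : BTree S → BTree S
  | leaf => node t leaf leaf
  | node s l r => node s (l.deepen t) (r.deepen t)

omit [DecidableEq S] in
theorem deep_deepen (t : S) : ∀ T : BTree S, (T.deepen t).Deep t
  | leaf => Or.inl rfl
  | node _ l r => Or.inr ⟨deep_deepen t l, deep_deepen t r⟩

/-- `T'` extends `T`. -/
inductive Grow : BTree S → BTree S → Prop
  | leaf (T) : Grow .leaf T
  | node {s l r l' r'} : Grow l l' → Grow r r' → Grow (.node s l r) (.node s l' r')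

omit [DecidableEq S] in
theorem grow_deepen (t : S) : ∀ T : BTree S, Grow T (T.deepen t)
  | leaf => .leaf _
  | node _ l r => .node (grow_deepen t l) (grow_deepen t r)

theorem leaves_below : ∀ (T : BTree S) (φ ψ : Brick S), ψ ∈ T.leaves φ → Below φ ψ
  | leaf, φ, ψ, h => by simp only [leaves, Set.mem_singleton_iff] at h; exact h ▸ Below.refl _
  | node s l r, φ, ψ, h => h.elim
      (fun h => (below_child φ s _).trans (leaves_below l _ _ h))
      (fun h => (below_child φ s _).trans (leaves_below r _ _ h))

theorem leaves_nonempty : ∀ (T : BTree S) (φ : Brick S), (T.leaves φ).Nonempty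
  | leaf, φ => ⟨φ, rfl⟩
  | node s l _, φ => (leaves_nonempty l (child φ s false)).inl

theorem deep_iff {t : S} : ∀ (T : BTree S) (φ : Brick S),
    T.Deep t ↔ ∀ ψ ∈ T.leaves φ, (φ t).length < (ψ t).length
  | leaf, φ => by simp [Deep, leaves]
  | node s l r, φ => by
    rcases eq_or_ne s t with rfl | hst
    · refine iff_of_true (Or.inl rfl) fun ψ hψ => ?_
      rcases hψ with h | h <;>
      · have h' := (leaves_below _ _ _ h s).length_le
        simp [child_same] at h'
        omega
    · simp only [Deep, hst, false_or, deep_iff l (child φ s false), deep_iff r (child φ s true),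
        child_other φ (Ne.symm hst), leaves, Set.mem_union, or_imp, forall_and]

/-- Bisections along a tree planted at a brick. -/
def plant (Y : Sys S Q) : BTree S → Q → Brick S → Q
  | leaf, q, _ => q
  | node s l r, q, φ =>
      r.plant Y (l.plant Y (Y.op q φ s) (child φ s false)) (child φ s true)

end BTree

namespace Sys

open BTree

variable (Y : Sys S Q) {q : Q} {φ ψ : Brick S}

theorem mem_op_left {s : S} {b : Bool} (hq : Y.Good q) (h : φ ∈ Y.bricks q) :
    child φ s b ∈ Y.bricks (Y.op q φ s) := by
  rw [Y.bricks_op q φ s hq h]; cases b <;> simp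

theorem mem_op_other {s : S} (hq : Y.Good q) (h : φ ∈ Y.bricks q) (h' : ψ ∈ Y.bricks q)
    (hne : ψ ≠ φ) : ψ ∈ Y.bricks (Y.op q φ s) := by
  rw [Y.bricks_op q φ s hq h]; simp [h', hne]

theorem plant_spec : ∀ (T : BTree S) (q : Q) (φ : Brick S), Y.Good q → φ ∈ Y.bricks q →
    Y.Good (T.plant Y q φ) ∧ Y.bricks (T.plant Y q φ) = (Y.bricks q \ {φ}) ∪ T.leaves φ
  | .leaf, q, φ, hq, h => by
    refine ⟨hq, ?_⟩
    simp only [plant, leaves, Set.sdiff_union_self, Set.union_eq_self_of_subset_right,
      Set.singleton_subset_iff.2 h]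
  | .node s l r, q, φ, hq, h => by
    have g1 := Y.good_op q φ s hq h
    obtain ⟨g2, b2⟩ := plant_spec l _ _ g1 (Y.mem_op_left (b := false) hq h)
    have hm : child φ s true ∈ Y.bricks (l.plant Y (Y.op q φ s) (child φ s false)) := by
      rw [b2]
      exact Or.inl ⟨Y.mem_op_left hq h, fun h' => (incomp_child φ s).ne h'.symm⟩
    obtain ⟨g3, b3⟩ := plant_spec r _ _ g2 hm
    refine ⟨g3, ?_⟩
    rw [plant, b3, b2, Y.bricks_op q φ s hq h]
    have hl : child φ s true ∉ l.leaves (child φ s false) := fun h' =>
      not_below_of_incomp (incomp_child φ s) (leaves_below l _ _ h') (Below.refl _)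
    have hne : ∀ b, child φ s b ∉ Y.bricks q := fun b h' => by
      rcases eq_or_ne (child φ s b) φ with e | e
      · have := congrArg List.length (congrFun e s)
        simp [child_same] at this
      · exact not_below_of_incomp (Y.incomp q hq _ h' _ h e) (Below.refl _) (below_child φ s b)
    ext x
    simp only [leaves, Set.mem_union, Set.mem_sdiff, Set.mem_insert_iff, Set.mem_singleton_iff]
    have h1 : x ∈ l.leaves (child φ s false) → x ≠ child φ s true := fun h' e => hl (e ▸ h')
    have h2 : x ∈ Y.bricks q → x ≠ child φ s false ∧ x ≠ child φ s true := fun h' =>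
      ⟨fun e => hne _ (e ▸ h'), fun e => hne _ (e ▸ h')⟩
    tauto

theorem plant_good (T : BTree S) (hq : Y.Good q) (h : φ ∈ Y.bricks q) : Y.Good (T.plant Y q φ) :=
  (Y.plant_spec T q φ hq h).1

theorem mem_plant_other (T : BTree S) (hq : Y.Good q) (h : φ ∈ Y.bricks q)
    (h' : ψ ∈ Y.bricks q) (hne : ψ ≠ φ) : ψ ∈ Y.bricks (T.plant Y q φ) := by
  rw [(Y.plant_spec T q φ hq h).2]; exact Or.inl ⟨h', hne⟩

theorem mem_mid {s : S} (l : BTree S) (hq : Y.Good q) (h : φ ∈ Y.bricks q) :
    child φ s true ∈ Y.bricks (l.plant Y (Y.op q φ s) (child φ s false)) :=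
  Y.mem_plant_other l (Y.good_op q φ s hq h) (Y.mem_op_left hq h) (Y.mem_op_left hq h)
    (incomp_child φ s).ne.symm

theorem child_ne {s : S} {b : Bool} (hq : Y.Good q) (h : φ ∈ Y.bricks q) (h' : ψ ∈ Y.bricks q)
    (hne : φ ≠ ψ) : child φ s b ≠ ψ :=
  ((Y.incomp q hq φ h ψ h' hne).below_left (below_child φ s b)).ne

theorem plant_op : ∀ (T : BTree S) (q : Q) (φ ψ : Brick S) (t : S), Y.Good q → φ ∈ Y.bricks q →
    ψ ∈ Y.bricks q → φ ≠ ψ →
    Y.op (T.plant Y q φ) ψ t = T.plant Y (Y.op q ψ t) φ
  | .leaf, _, _, _, _, _, _, _, _ => rfl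
  | .node s l r, q, φ, ψ, t, hq, h, h', hne => by
    have g1 := Y.good_op q φ s hq h
    have m1 := Y.mem_op_other (s := s) hq h h' hne.symm
    have n0 := Y.child_ne (s := s) (b := false) hq h h' hne
    have n1 := Y.child_ne (s := s) (b := true) hq h h' hne
    have g2 := Y.plant_good l g1 (Y.mem_op_left (b := false) hq h)
    have m2 := Y.mem_plant_other l g1 (Y.mem_op_left hq h) m1 n0.symm
    rw [plant, plant_op r _ _ ψ t g2 (Y.mem_mid l hq h) m2 n1,
      plant_op l _ _ ψ t g1 (Y.mem_op_left hq h) m1 n0, Y.comm q φ ψ s t hq h h' hne]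
    rfl

theorem plant_comm : ∀ (U T : BTree S) (q : Q) (φ ψ : Brick S), Y.Good q → φ ∈ Y.bricks q →
    ψ ∈ Y.bricks q → φ ≠ ψ →
    U.plant Y (T.plant Y q φ) ψ = T.plant Y (U.plant Y q ψ) φ
  | .leaf, _, _, _, _, _, _, _, _ => rfl
  | .node t l r, T, q, φ, ψ, hq, h, h', hne => by
    have g1 := Y.good_op q ψ t hq h'
    have m1 := Y.mem_op_other (s := t) hq h' h hne
    have n0 := Y.child_ne (s := t) (b := false) hq h' h hne.symm
    have n1 := Y.child_ne (s := t) (b := true) hq h' h hne.symm
    simp only [plant]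
    rw [Y.plant_op T q φ ψ t hq h h' hne,
      plant_comm l T _ φ _ g1 m1 (Y.mem_op_left hq h') n0.symm,
      plant_comm r T _ φ _ (Y.plant_good l g1 (Y.mem_op_left hq h'))
        (Y.mem_plant_other l g1 (Y.mem_op_left hq h') m1 n0.symm) (Y.mem_mid l hq h') n1.symm]

/-- Bisecting a brick first in `s`, then both halves in `t`, and the four quarters further. -/
theorem plant_four {s t : S} (hst : s ≠ t) (a b c d : BTree S) (hq : Y.Good q)
    (h : φ ∈ Y.bricks q) :
    (BTree.node s (.node t a b) (.node t c d)).plant Y q φ =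
      (BTree.node t (.node s a c) (.node s b d)).plant Y q φ := by
  -- four quarters: move both bisections in the second coordinate to the front
  have key : ∀ (s t : S) (a b c d : BTree S),
      (BTree.node s (.node t a b) (.node t c d)).plant Y q φ =
        d.plant Y (c.plant Y (b.plant Y (a.plant Y
          (Y.op (Y.op (Y.op q φ s) (child φ s false) t) (child φ s true) t)
          (child (child φ s false) t false)) (child (child φ s false) t true))
          (child (child φ s true) t false)) (child (child φ s true) t true) := by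
    intro s t a b c d
    have g1 := Y.good_op q φ s hq h
    have mf := Y.mem_op_left (s := s) (b := false) hq h
    have mt := Y.mem_op_left (s := s) (b := true) hq h
    have hne := (incomp_child φ s).ne
    have g2 := Y.good_op _ (child φ s false) t g1 mf
    have mt2 := Y.mem_op_other (s := t) g1 mf mt hne.symm
    have n0 := Y.child_ne (s := t) (b := false) g1 mf mt hne
    have n1 := Y.child_ne (s := t) (b := true) g1 mf mt hne
    have g3 := Y.plant_good a g2 (Y.mem_op_left (b := false) g1 mf)
    have mt3 := Y.mem_plant_other a g2 (Y.mem_op_left g1 mf) mt2 n0.symm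
    simp only [plant]
    rw [Y.plant_op b _ _ (child φ s true) t g3 (Y.mem_mid a g1 mf) mt3 n1,
      Y.plant_op a _ _ (child φ s true) t g2 (Y.mem_op_left g1 mf) mt2 n0]
  rw [key, key, Y.square q φ s t hq h hst, child_comm φ hst false false,
    child_comm φ hst false true, child_comm φ hst true false, child_comm φ hst true true]
  have g1 := Y.good_op q φ t hq h
  have mf := Y.mem_op_left (s := t) (b := false) hq h
  have mt := Y.mem_op_left (s := t) (b := true) hq h
  have hne := (incomp_child φ t).ne
  have g2 := Y.good_op _ (child φ t false) s g1 mf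
  have mt2 := Y.mem_op_other (s := s) g1 mf mt hne.symm
  have g3 := Y.good_op _ (child φ t true) s g2 mt2
  have u0 : child (child φ t false) s false ∈
      Y.bricks (Y.op (Y.op (Y.op q φ t) (child φ t false) s) (child φ t true) s) :=
    Y.mem_op_other g2 mt2 (Y.mem_op_left g1 mf)
      (Y.child_ne (s := s) g1 mf mt hne)
  have u1 : child (child φ t false) s true ∈
      Y.bricks (Y.op (Y.op (Y.op q φ t) (child φ t false) s) (child φ t true) s) :=
    Y.mem_op_other g2 mt2 (Y.mem_op_left g1 mf)
      (Y.child_ne (s := s) g1 mf mt hne)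
  have v0 : child (child φ t true) s false ∈
      Y.bricks (Y.op (Y.op (Y.op q φ t) (child φ t false) s) (child φ t true) s) :=
    Y.mem_op_left g2 mt2
  have e01 : child (child φ t true) s false ≠ child (child φ t false) s true :=
    ((incomp_child φ t).symm.below (below_child _ _ _) (below_child _ _ _)).ne
  have e00 : child (child φ t false) s false ≠ child (child φ t true) s false :=
    ((incomp_child φ t).below (below_child _ _ _) (below_child _ _ _)).ne
  have e0 : child (child φ t false) s false ≠ child (child φ t false) s true :=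
    (incomp_child _ s).ne
  rw [Y.plant_comm c b _ _ _ (Y.plant_good a g3 u0) (Y.mem_plant_other a g3 u0 v0 e00.symm)
    (Y.mem_plant_other a g3 u0 u1 e0.symm) e01]

/-- A tree that passes `t` on every path can start with `t`. -/
theorem move (t : S) : ∀ T : BTree S, T.Deep t → ∃ l r, l.count + r.count = T.count ∧
    ∀ q φ, Y.Good q → φ ∈ Y.bricks q → T.plant Y q φ = (BTree.node t l r).plant Y q φ
  | .leaf, h => h.elim
  | .node s l r, h => by
    rcases eq_or_ne s t with rfl | hst
    · exact ⟨l, r, rfl, fun _ _ _ _ => rfl⟩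
    · obtain ⟨hl, hr⟩ := h.resolve_left hst
      obtain ⟨a, b, hc1, h1⟩ := move t l hl
      obtain ⟨c, d, hc2, h2⟩ := move t r hr
      refine ⟨.node s a c, .node s b d, by simp [count]; omega, fun q φ hq hφ => ?_⟩
      rw [← Y.plant_four hst a b c d hq hφ]
      have m := Y.mem_op_left (s := s) (b := false) hq hφ
      show r.plant Y (l.plant Y (Y.op q φ s) _) _ =
        (BTree.node t c d).plant Y ((BTree.node t a b).plant Y (Y.op q φ s) _) _
      rw [h1 _ _ (Y.good_op q φ s hq hφ) m,
        h2 _ _ (Y.plant_good _ (Y.good_op q φ s hq hφ) m) (Y.mem_mid _ hq hφ)]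

/-- Trees with the same leaves give the same state. -/
theorem plant_congr : ∀ (n : ℕ) (T U : BTree S), T.count ≤ n → ∀ q φ, Y.Good q →
    φ ∈ Y.bricks q → T.leaves φ = U.leaves φ → T.plant Y q φ = U.plant Y q φ := by
  intro n
  induction n with
  | zero => intro T _ h; have := T.count_pos; omega
  | succ n ih =>
    intro T U hn q φ hq hφ hTU
    cases U with
    | leaf =>
      cases T with
      | leaf => rfl
      | node s l r =>
        exfalso
        obtain ⟨ψ, hψ⟩ := l.leaves_nonempty (child φ s false)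
        have h1 : ψ ∈ BTree.leaf.leaves φ := hTU ▸ Or.inl hψ
        have h2 := (leaves_below l _ _ hψ s).length_le
        rw [Set.mem_singleton_iff.1 h1] at h2
        simp [child_same] at h2
    | node t lu ru =>
      have hd : T.Deep t := (deep_iff T φ).2 (hTU ▸ (deep_iff _ φ).1 (Or.inl rfl))
      obtain ⟨l, r, hc, hmove⟩ := Y.move t T hd
      rw [hmove q φ hq hφ]
      have hlv : T.leaves φ = (BTree.node t l r).leaves φ := by
        have e := congrArg Y.bricks (hmove q φ hq hφ)
        rw [(Y.plant_spec _ q φ hq hφ).2, (Y.plant_spec _ q φ hq hφ).2] at e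
        have hd : ∀ (V : BTree S) x, x ∈ V.leaves φ → ¬ (x ∈ Y.bricks q \ {φ}) := fun V x hx hx' =>
          not_below_of_incomp (Y.incomp q hq x hx'.1 φ hφ hx'.2) (Below.refl _)
            (leaves_below V _ _ hx)
        ext x
        exact ⟨fun hx => ((Set.ext_iff.1 e x).1 (Or.inr hx)).resolve_left (hd T x hx),
          fun hx => ((Set.ext_iff.1 e x).2 (Or.inr hx)).resolve_left (hd _ x hx)⟩
      have e : (BTree.node t l r).leaves φ = (BTree.node t lu ru).leaves φ := hlv.symm.trans hTU
      have hsep : ∀ (V W : BTree S) x, x ∈ V.leaves (child φ t false) →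
          x ∈ W.leaves (child φ t true) → False := fun V W x hx hx' =>
        not_below_of_incomp (incomp_child φ t) (leaves_below V _ _ hx) (leaves_below W _ _ hx')
      have el : l.leaves (child φ t false) = lu.leaves (child φ t false) := by
        ext x
        exact ⟨fun hx => ((Set.ext_iff.1 e x).1 (Or.inl hx)).resolve_right (hsep l ru x hx),
          fun hx => ((Set.ext_iff.1 e x).2 (Or.inl hx)).resolve_right (hsep lu r x hx)⟩
      have er : r.leaves (child φ t true) = ru.leaves (child φ t true) := by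
        ext x
        exact ⟨fun hx => ((Set.ext_iff.1 e x).1 (Or.inr hx)).resolve_left fun h => hsep lu r x h hx,
          fun hx => ((Set.ext_iff.1 e x).2 (Or.inr hx)).resolve_left fun h => hsep l ru x h hx⟩
      have := l.count_pos
      have := r.count_pos
      simp only [plant]
      rw [ih l lu (by omega) _ _ (Y.good_op q φ t hq hφ) (Y.mem_op_left hq hφ) el,
        ih r ru (by omega) _ _ (Y.plant_good lu (Y.good_op q φ t hq hφ) (Y.mem_op_left hq hφ))
          (Y.mem_mid lu hq hφ) er]

/-- A bisection of a leaf is a tree again. -/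
theorem op_plant : ∀ (T : BTree S) (q : Q) (φ ψ : Brick S) (t : S), Y.Good q → φ ∈ Y.bricks q →
    ψ ∈ T.leaves φ → ∃ T' : BTree S, Y.op (T.plant Y q φ) ψ t = T'.plant Y q φ
  | .leaf, q, φ, ψ, t, _, _, h => by
    rw [Set.mem_singleton_iff.1 h]; exact ⟨.node t .leaf .leaf, rfl⟩
  | .node s l r, q, φ, ψ, t, hq, hφ, h => by
    have g1 := Y.good_op q φ s hq hφ
    have m := Y.mem_op_left (s := s) (b := false) hq hφ
    rcases h with h | h
    · obtain ⟨l', hl'⟩ := op_plant l _ _ ψ t g1 m h
      refine ⟨.node s l' r, ?_⟩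
      simp only [plant]
      rw [Y.plant_op r _ _ ψ t (Y.plant_good l g1 m) (Y.mem_mid l hq hφ)
        (by rw [(Y.plant_spec l _ _ g1 m).2]; exact Or.inr h)
        ((incomp_child φ s).symm.below (Below.refl _) (leaves_below l _ _ h)).ne, hl']
    · obtain ⟨r', hr'⟩ := op_plant r _ _ ψ t (Y.plant_good l g1 m) (Y.mem_mid l hq hφ) h
      exact ⟨.node s l r', hr'⟩

/-- One state is obtained from the other by bisections. -/
inductive Le (Z : Sys S Q) : Q → Q → Prop
  | refl (a : Q) : Le Z a a
  | step {a b : Q} {x : Brick S} {t : S} : Le Z a b → x ∈ Z.bricks b → Le Z a (Z.op b x t)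

theorem Le.trans {a b c : Q} (h : Y.Le a b) (h' : Y.Le b c) : Y.Le a c := by
  induction h' with
  | refl => exact h
  | step _ hm ih => exact ih.step hm

theorem le_plant : ∀ (T : BTree S) (q : Q) (φ : Brick S), Y.Good q → φ ∈ Y.bricks q →
    Y.Le q (T.plant Y q φ)
  | .leaf, _, _, _, _ => .refl _
  | .node s l r, q, φ, hq, h =>
    Le.trans Y ((Le.refl q).step h (t := s))
      (Le.trans Y (le_plant l _ _ (Y.good_op q φ s hq h) (Y.mem_op_left hq h))
        (le_plant r _ _ (Y.plant_good l (Y.good_op q φ s hq h) (Y.mem_op_left hq h))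
          (Y.mem_mid l hq h)))

/-- Comparing trees below the two halves. -/
theorem le_halves {l r l' r' : BTree S} {s : S} (hq : Y.Good q) (h : φ ∈ Y.bricks q)
    (hl : ∀ q φ, Y.Good q → φ ∈ Y.bricks q → Y.Le (l.plant Y q φ) (l'.plant Y q φ))
    (hr : ∀ q φ, Y.Good q → φ ∈ Y.bricks q → Y.Le (r.plant Y q φ) (r'.plant Y q φ)) :
    Y.Le ((BTree.node s l r).plant Y q φ) ((BTree.node s l' r').plant Y q φ) := by
  have g1 := Y.good_op q φ s hq h
  have mf := Y.mem_op_left (s := s) (b := false) hq h
  have mt := Y.mem_op_left (s := s) (b := true) hq h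
  have hne := (incomp_child φ s).ne
  simp only [plant]
  refine Le.trans Y ?_ (hr _ _ (Y.plant_good l' g1 mf) (Y.mem_mid l' hq h))
  rw [Y.plant_comm r l _ _ _ g1 mf mt hne, Y.plant_comm r l' _ _ _ g1 mf mt hne]
  exact hl _ _ (Y.plant_good r g1 mt) (Y.mem_plant_other r g1 mt mf hne)

theorem le_of_grow {T T' : BTree S} (h : Grow T T') : ∀ q φ, Y.Good q → φ ∈ Y.bricks q →
    Y.Le (T.plant Y q φ) (T'.plant Y q φ) := by
  induction h with
  | leaf T => intro q φ hq hφ; exact Y.le_plant T q φ hq hφ
  | node _ _ ih ih' => intro q φ hq hφ; exact Y.le_halves hq hφ ih ih'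

/-- Two trees have a common refinement. -/
theorem join : ∀ U T : BTree S, ∃ U' : BTree S, Grow U U' ∧
    ∀ q φ, Y.Good q → φ ∈ Y.bricks q → Y.Le (T.plant Y q φ) (U'.plant Y q φ)
  | .leaf, T => ⟨T, .leaf T, fun _ _ _ _ => .refl _⟩
  | .node t lu ru, T => by
    obtain ⟨a, b, -, hab⟩ := Y.move t (T.deepen t) (deep_deepen t T)
    obtain ⟨l', hl, hl'⟩ := join lu a
    obtain ⟨r', hr, hr'⟩ := join ru b
    refine ⟨.node t l' r', .node hl hr, fun q φ hq hφ => ?_⟩
    refine Le.trans Y (Y.le_of_grow (grow_deepen t T) q φ hq hφ) ?_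
    rw [hab q φ hq hφ]
    exact Y.le_halves hq hφ hl' hr'

end Sys

end Vale.P193.Host
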