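import Vale.Agent.P193.Host.Plan
import Vale.Agent.P193.Host.Tree
import Vale.Agent.P193.Host.Frames
import Vale.Agent.P193.Host.Moves

/-!
# The value of a reachable frame under a compatible family
-/

namespace Vale.P193.Host

variable {S P A : Type} [Group P] [MulAction P S] [Group A] {s₀ : S} {c : P}
  {ρ : ∀ n, Lvl P n →* A}

namespace Compat

variable (hρ : Compat s₀ c ρ)
include hρ

theorem dbl {n : ℕ} (w : Lvl P (n + 1)) (h : Lvl.Dblable s₀ w) :
    ρ (n + 2) w.dbl = ρ (n + 1) w := by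
  obtain ⟨D, rfl⟩ := hρ (n + 2)
  exact D.dbl n le_rfl w h

theorem disj (n : ℕ) :
    ρ (n + 3) (s02 n) * ρ (n + 4) (sπ n) = ρ (n + 2) (s01 n) * ρ (n + 3) (s02 n) := by
  obtain ⟨D, rfl⟩ := hρ (n + 4)
  exact D.disj n le_rfl

theorem coord (n : ℕ) :
    ρ (n + 2) (Lvl.twist 0 c) * ρ (n + 3) (tw01 (n + 1) c⁻¹) * ρ (n + 3) (s02 n) *
        ρ (n + 3) (Lvl.twist 0 c) * ρ (n + 4) (tw01 (n + 2) c⁻¹) * ρ (n + 4) (s02 (n + 1)) =
      ρ (n + 1) (Lvl.twist 0 c) * ρ (n + 2) (tw01 n c⁻¹) * ρ (n + 3) (s02 n) := by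
  obtain ⟨D, rfl⟩ := hρ (n + 4)
  exact D.coord n le_rfl

end Compat

variable (ρ) in
/-- Frames with values, up to the action of the levels. -/
def valSetoid (n : ℕ) : Setoid (Frame P S n × A) where
  r x y := ∃ w, y.1 = act x.1 w ∧ y.2 = x.2 * ρ n w
  iseqv :=
    { refl := fun x => ⟨1, by simp, by simp⟩
      symm := fun {x y} ⟨w, h1, h2⟩ => ⟨w⁻¹, by rw [h1, ← act_mul]; simp, by simp [h2]⟩
      trans := fun {x y z} ⟨w, h1, h2⟩ ⟨v, h3, h4⟩ =>
        ⟨w * v, by rw [h3, h1, act_mul], by rw [h4, h2, map_mul, mul_assoc]⟩ }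

variable (S ρ) in
/-- States. -/
abbrev St : Type := Σ n, Quotient (valSetoid (S := S) ρ n)

variable (ρ) in
/-- The state of a frame with a value. -/
def mk {n : ℕ} (F : Frame P S n) (a : A) : St S ρ := ⟨n, Quotient.mk _ (F, a)⟩

omit [MulAction P S] in
theorem mk_eq {n : ℕ} {F G : Frame P S n} {a b : A} (h : mk ρ F a = mk ρ G b) :
    ∃ w, G = act F w ∧ b = a * ρ n w := by
  simp only [mk, Sigma.mk.injEq, heq_eq_eq, true_and] at h
  exact Quotient.exact h

omit [MulAction P S] in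
theorem mk_act {n : ℕ} (F : Frame P S n) (a : A) (w : Lvl P n) :
    mk ρ (act F w) (a * ρ n w) = mk ρ F a := by
  simp only [mk, Sigma.mk.injEq, heq_eq_eq, true_and]
  exact (Quotient.sound (s := valSetoid ρ n) ⟨w, rfl, rfl⟩).symm

omit [MulAction P S] in
theorem exists_mk (q : St S ρ) : ∃ (n : ℕ) (F : Frame P S n) (a : A), q = mk ρ F a := by
  obtain ⟨n, x⟩ := q
  induction x using Quotient.ind with | _ x => exact ⟨n, x.1, x.2, rfl⟩

/-- The bricks of a state. -/
def bricks (q : St S ρ) : Set (Brick S) :=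
  Quotient.liftOn q.2 (fun x => Set.range fun i => (x.1 i).1) fun x y ⟨w, h, _⟩ => by
    ext φ
    simp only [Set.mem_range, h, act]
    exact ⟨fun ⟨i, hi⟩ => ⟨w.σ.symm i, by simpa using hi⟩, fun ⟨i, hi⟩ => ⟨w.σ i, hi⟩⟩

omit [MulAction P S] in
@[simp] theorem bricks_mk {n : ℕ} (F : Frame P S n) (a : A) :
    bricks (mk ρ F a) = Set.range fun i => (F i).1 := rfl

/-- The bricks are pairwise incompatible. -/
def IsF {n : ℕ} (F : Frame P S n) : Prop := ∀ i j, i ≠ j → Incomp (F i).1 (F j).1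

omit [MulAction P S] in
theorem IsF.act {n : ℕ} {F : Frame P S n} (h : IsF F) (w : Lvl P n) : IsF (Host.act F w) :=
  fun _ _ hij => h _ _ (w.σ.injective.ne hij)

omit [Group P] [MulAction P S] in
theorem IsF.inj {n : ℕ} {F : Frame P S n} (h : IsF F) {i j : Fin n}
    (e : (F i).1 = (F j).1) : i = j :=
  by_contra fun hij => (h i j hij).ne e

/-- Valid states. -/
def Good (q : St S ρ) : Prop := ∀ (n : ℕ) (F : Frame P S n) (a : A), q = mk ρ F a → IsF F

omit [MulAction P S] in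
theorem good_mk {n : ℕ} {F : Frame P S n} {a : A} (h : IsF F) : Good (mk ρ F a) := by
  intro m G b e
  obtain rfl : n = m := congrArg Sigma.fst e
  obtain ⟨w, rfl, -⟩ := mk_eq e
  exact h.act w

variable [DecidableEq S]

theorem isF_split0 {n : ℕ} {F : Frame P S (n + 1)} (h : IsF F) : IsF (split0 s₀ F) := by
  intro i j hij
  have key : ∀ (b : Bool) (k : Fin n), Incomp (child (F 0).1 ((F 0).2 • s₀) b) (F k.succ).1 :=
    fun b k => (h 0 k.succ (Fin.succ_ne_zero k).symm).below_left (below_child _ _ _)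
  induction i using Fin.cases with
  | zero =>
    induction j using Fin.cases with
    | zero => exact absurd rfl hij
    | succ j =>
      induction j using Fin.cases with
      | zero => exact incomp_child _ _
      | succ k => exact key _ k
  | succ i =>
    induction i using Fin.cases with
    | zero =>
      induction j using Fin.cases with
      | zero => exact (incomp_child _ _).symm
      | succ j =>
        induction j using Fin.cases with
        | zero => exact absurd rfl hij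
        | succ k => exact key _ k
    | succ k =>
      induction j using Fin.cases with
      | zero => exact (key _ k).symm
      | succ j =>
        induction j using Fin.cases with
        | zero => exact (key _ k).symm
        | succ l => exact h k.succ l.succ (fun e => hij (congrArg Fin.succ e))

open Classical in
variable (s₀ ρ) in
/-- The bisection of a brick of a state. -/
noncomputable def op (q : St S ρ) (φ : Brick S) (s : S) : St S ρ :=
  if h : ∃ (n : ℕ) (F : Frame P S (n + 1)) (a : A), q = mk ρ F a ∧ (F 0).1 = φ ∧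
      (F 0).2 • s₀ = s then
    mk ρ (split0 s₀ h.choose_spec.choose) h.choose_spec.choose_spec.choose
  else q

theorem op_mk (hρ : Compat s₀ c ρ) {n : ℕ} {F : Frame P S (n + 1)} (a : A) {φ : Brick S} {s : S}
    (hF : IsF F) (hφ : (F 0).1 = φ) (hs : (F 0).2 • s₀ = s) :
    op s₀ ρ (mk ρ F a) φ s = mk ρ (split0 s₀ F) a := by
  have h : ∃ (m : ℕ) (G : Frame P S (m + 1)) (b : A), mk ρ F a = mk ρ G b ∧ (G 0).1 = φ ∧
      (G 0).2 • s₀ = s := ⟨n, F, a, rfl, hφ, hs⟩
  rw [op, dif_pos h]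
  obtain ⟨e, h1, h2⟩ := h.choose_spec.choose_spec.choose_spec
  suffices key : ∀ (m : ℕ) (G : Frame P S (m + 1)) (b : A), mk ρ F a = mk ρ G b → (G 0).1 = φ →
      (G 0).2 • s₀ = s → mk ρ (split0 s₀ G) b = mk ρ (split0 s₀ F) a from key _ _ _ e h1 h2
  clear e h1 h2 h
  intro m G b e h1 h2
  obtain rfl : n = m := Nat.succ_injective (congrArg Sigma.fst e)
  obtain ⟨w, rfl, rfl⟩ := mk_eq e
  have hw : w.σ 0 = 0 := hF.inj (h1.trans hφ.symm)
  have hw' : Lvl.Dblable s₀ w := ⟨hw, by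
    simp only [act, hw, mul_smul] at h2
    exact smul_left_cancel _ (h2.trans hs.symm)⟩
  rw [split0_act s₀ F w hw', ← hρ.dbl w hw', mk_act]

omit [MulAction P S] [DecidableEq S] in
/-- A representative with a given brick first, labelled by a given coordinate. -/
theorem exists_rep {q : St S ρ} (hq : Good q) {φ : Brick S} (hφ : φ ∈ bricks q) (g : P) :
    ∃ (n : ℕ) (F : Frame P S (n + 1)) (a : A), q = mk ρ F a ∧ IsF F ∧ F 0 = (φ, g) := by
  obtain ⟨n, F, a, rfl⟩ := exists_mk q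
  obtain ⟨i, hi⟩ : ∃ i : Fin n, (F i).1 = φ := hφ
  obtain ⟨n, rfl⟩ : ∃ m, n = m + 1 := ⟨n - 1, by have := i.2; omega⟩
  let w : Lvl P (n + 1) :=
    Lvl.perm (Equiv.swap 0 i) * Lvl.twist 0 ((F i).2⁻¹ * g)
  refine ⟨n, act F w, a * ρ _ w, (mk_act F a w).symm, (hq _ F a rfl).act w, ?_⟩
  simp [act, w, ← hi, -map_mul, -map_inv]

omit [MulAction P S] [DecidableEq S] in
/-- A representative with two given bricks in front. -/
theorem exists_rep₂ {q : St S ρ} (hq : Good q) {φ ψ : Brick S} (hφ : φ ∈ bricks q)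
    (hψ : ψ ∈ bricks q) (hne : φ ≠ ψ) (g h : P) :
    ∃ (n : ℕ) (F : Frame P S (n + 2)) (a : A), q = mk ρ F a ∧ IsF F ∧ F 0 = (φ, g) ∧
      F 1 = (ψ, h) := by
  obtain ⟨n, F, a, rfl, hF, h0⟩ := exists_rep hq hφ g
  obtain ⟨j, hj⟩ : ∃ j : Fin (n + 1), (F j).1 = ψ := hψ
  have hj0 : j ≠ 0 := fun e => hne (by rw [← hj]; simp [e, h0])
  obtain ⟨m, rfl⟩ : ∃ m, n = m + 1 :=
    ⟨n - 1, by have := j.2; have : (j : ℕ) ≠ 0 := fun e => hj0 (Fin.ext e); omega⟩
  let w : Lvl P (m + 2) :=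
    Lvl.perm (Equiv.swap 1 j) * Lvl.twist 1 ((F j).2⁻¹ * h)
  refine ⟨m, act F w, a * ρ _ w, (mk_act F a w).symm, hF.act w, ?_, ?_⟩
  · simp [act, w, Equiv.swap_apply_of_ne_of_ne (a := (1 : Fin (m + 2))) (b := j) (x := 0)
      (by simp) (Ne.symm hj0), h0, -map_mul, -map_inv]
  · simp [act, w, ← hj, -map_mul, -map_inv]

variable (hS : Setting P S s₀ c) (hρ : Compat s₀ c ρ)
include hS hρ

/-- States form a bisection system. -/
noncomputable def system : Sys S (St S ρ) where
  bricks := bricks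
  Good := Good
  op := op s₀ ρ
  incomp q hq φ hφ ψ hψ hne := by
    obtain ⟨n, F, a, rfl⟩ := exists_mk q
    obtain ⟨i, rfl⟩ := hφ
    obtain ⟨j, rfl⟩ := hψ
    exact hq _ F a rfl i j fun e => hne (by rw [e])
  good_op q φ s hq hφ := by
    obtain ⟨g, hg⟩ := hS.trans s
    obtain ⟨n, F, a, rfl, hF, h0⟩ := exists_rep hq hφ g
    rw [op_mk hρ a hF (by rw [h0]) (by rw [h0]; exact hg)]
    exact good_mk (isF_split0 hF)
  bricks_op q φ s hq hφ := by
    obtain ⟨g, rfl⟩ := hS.trans s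
    obtain ⟨n, F, a, rfl, hF, h0⟩ := exists_rep hq hφ g
    rw [op_mk hρ a hF (by rw [h0]) (by rw [h0])]
    simp only [bricks_mk]
    ext ψ
    simp only [Set.mem_range, Set.mem_union, Set.mem_sdiff, Set.mem_insert_iff,
      Set.mem_singleton_iff, Fin.exists_fin_succ]
    constructor
    · rintro (h | h | ⟨k, rfl⟩)
      · exact Or.inr (Or.inl (by rw [← h]; simp [h0]))
      · exact Or.inr (Or.inr (by rw [← h]; simp [h0]))
      · refine Or.inl ⟨Or.inr ⟨k, rfl⟩, fun e => ?_⟩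
        exact Fin.succ_ne_zero k (hF.inj (by simpa [h0] using e))
    · rintro (⟨h | ⟨k, rfl⟩, hne⟩ | h | h)
      · exact absurd (by rw [← h]; simp [h0]) hne
      · exact Or.inr (Or.inr ⟨k, rfl⟩)
      · exact Or.inl (by rw [h]; simp [h0])
      · exact Or.inr (Or.inl (by rw [h]; simp [h0]))
  comm q φ ψ s t hq hφ hψ hne := by
    obtain ⟨g, rfl⟩ := hS.trans s
    obtain ⟨h, rfl⟩ := hS.trans t
    obtain ⟨n, F, a, rfl, hF, h0, h1⟩ := exists_rep₂ hq hφ hψ hne g h
    have f1 : IsF (split0 s₀ F) := isF_split0 hF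
    have f2 : IsF (split0 s₀ (act F (s01 n))) := isF_split0 (hF.act _)
    rw [op_mk hρ a hF (by rw [h0]) (by rw [h0]), ← mk_act (split0 s₀ F) a (s02 n),
      op_mk hρ _ (f1.act _) (by simp [act_s02_zero, split0_two, h1])
        (by simp [act_s02_zero, split0_two, h1]),
      ← mk_act _ _ (sπ n), split_disj, mul_assoc, hρ.disj, ← mul_assoc, ← mk_act F a (s01 n),
      op_mk hρ _ (hF.act _) (by simp [act_s01_zero, h1]) (by simp [act_s01_zero, h1]),
      ← mk_act (split0 s₀ (act F (s01 n))) _ (s02 n),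
      op_mk hρ _ (f2.act _) (by simp [act_s02_zero, split0_two, s01, act_perm, h0])
        (by simp [act_s02_zero, split0_two, s01, act_perm, h0])]
  square q φ s t hq hφ hst := by
    obtain ⟨g₀, rfl⟩ := hS.trans s
    obtain ⟨k, hk, hk'⟩ := hS.pairs (g₀⁻¹ • t) fun e => hst (by rw [← e, smul_inv_smul])
    obtain ⟨n, F, a, rfl, hF, h0⟩ := exists_rep hq hφ (g₀ * k)
    have e0 : (F 0).2 • s₀ = g₀ • s₀ := by rw [h0, mul_smul, hk]
    have e1 : (F 0).2 • c • s₀ = t := by rw [h0, mul_smul, hk', smul_inv_smul]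
    have hc : (F 0).2 • c • s₀ ≠ (F 0).2 • s₀ := by rw [e0, e1]; exact hst.symm
    have f1 := (isF_split0 (s₀ := s₀) hF).act (Lvl.twist 0 c)
    have f2 := ((isF_split0 (s₀ := s₀) f1).act (tw01 (n + 1) c⁻¹)).act (s02 n)
    have f3 := hF.act (Lvl.twist 0 c)
    have f4 := (isF_split0 (s₀ := s₀) f3).act (tw01 n c⁻¹)
    have f5 := (isF_split0 (s₀ := s₀) f4).act (s02 n)
    have hφ' : (F 0).1 = φ := by rw [h0]
    rw [op_mk hρ a hF hφ' e0, ← mk_act (split0 s₀ F) a (Lvl.twist 0 c),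
      op_mk hρ _ f1 (by simp [act_twist, hφ', e0]) (by simp [act_twist, mul_smul, e1]),
      ← mk_act (split0 s₀ (act (split0 s₀ F) _)) _ (tw01 (n + 1) c⁻¹), ← mk_act _ _ (s02 n),
      ← mk_act _ _ (Lvl.twist 0 c),
      op_mk hρ _ (f2.act _)
        (by simp [act_twist, act_s02_zero, act_tw01_two, split0_two, hφ', e0])
        (by simp [act_twist, act_s02_zero, act_tw01_two, split0_two, mul_smul, e1]),
      ← mk_act _ _ (tw01 (n + 2) c⁻¹), ← mk_act _ _ (s02 (n + 1)), split_coord F c hc,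
      ← mk_act F a (Lvl.twist 0 c),
      op_mk hρ _ f3 (by simp [act_twist, hφ']) (by simp [act_twist, mul_smul, e1]),
      ← mk_act (split0 s₀ (act F _)) _ (tw01 n c⁻¹),
      op_mk hρ _ f4 (by simp [act_twist, act_tw01, hφ', mul_smul, e1])
        (by simp [act_twist, act_tw01, mul_smul, e0]),
      ← mk_act (split0 s₀ (act (split0 s₀ (act F _)) _)) _ (s02 n),
      op_mk hρ _ f5
        (by simp [act_twist, act_tw01, act_s02_zero, split0_two, hφ', mul_smul, e1])
        (by simp [act_twist, act_tw01, act_s02_zero, split0_two, mul_smul, e0])]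
    simp only [mul_assoc] at *
    congr 1
    have := hρ.coord n
    simp only [mul_assoc] at this
    rw [this]

/-- States obtained from the root by bisections. -/
def Reached (q : St S ρ) : Prop :=
  ∃ T : BTree S, q = T.plant (system hS hρ) (mk ρ root 1) fun _ => []

theorem good_root : (system hS hρ).Good (mk ρ root 1) ∧
    (system hS hρ).bricks (mk ρ root 1) = {fun _ => []} :=
  ⟨good_mk fun i j hij => absurd (Subsingleton.elim (α := Fin 1) i j) hij,
    by simp [system, root]⟩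

theorem reached_bricks {n : ℕ} {F : Frame P S n} {a : A} {T : BTree S}
    (e : mk ρ F a = T.plant (system hS hρ) (mk ρ root 1) fun _ => []) :
    (Set.range fun i => (F i).1) = T.leaves fun _ => [] := by
  obtain ⟨hg, hb⟩ := good_root hS hρ
  have := ((system hS hρ).plant_spec T _ (fun _ => []) hg (by rw [hb]; rfl)).2
  rw [← e, hb, sdiff_self] at this
  simpa [system] using this

theorem exists_reached {n : ℕ} {F : Frame P S n} (h : Reach s₀ n F) :
    ∃ a, Reached hS hρ (mk ρ F a) := by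
  induction h with
  | root => exact ⟨1, .leaf, rfl⟩
  | @act n F w _ ih =>
    obtain ⟨a, T, ha⟩ := ih
    exact ⟨a * ρ n w, T, by rw [mk_act, ha]⟩
  | @split n F hF ih =>
    obtain ⟨a, T, ha⟩ := ih
    obtain ⟨hg, hb⟩ := good_root hS hρ
    have hmem : (F 0).1 ∈ T.leaves fun _ => [] := by
      rw [← reached_bricks hS hρ ha]; exact ⟨0, rfl⟩
    obtain ⟨T', hT'⟩ := (system hS hρ).op_plant T _ (fun _ => []) _ ((F 0).2 • s₀) hg
      (by rw [hb]; rfl) hmem
    rw [← ha] at hT'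
    exact ⟨a, T', (op_mk hρ a hF.incomp rfl rfl).symm.trans hT'⟩

theorem reached_unique {n : ℕ} {F : Frame P S n} {a b : A} (h : Reach s₀ n F)
    (ha : Reached hS hρ (mk ρ F a)) (hb : Reached hS hρ (mk ρ F b)) : a = b := by
  obtain ⟨T, hT⟩ := ha
  obtain ⟨U, hU⟩ := hb
  obtain ⟨hg, hr⟩ := good_root hS hρ
  have e : mk ρ F a = mk ρ F b := by
    rw [hT, hU]
    exact (system hS hρ).plant_congr _ T U le_rfl _ _ hg (by rw [hr]; rfl)
      ((reached_bricks hS hρ hT).symm.trans (reached_bricks hS hρ hU))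
  obtain ⟨w, hw, rfl⟩ := mk_eq e
  have hw1 : w = 1 := by
    have hσ : ∀ i, w.σ i = i := fun i =>
      IsF.inj h.incomp (congrArg Prod.fst (congrFun hw i)).symm
    refine Lvl.ext (Equiv.ext hσ) (funext fun i => ?_)
    have := congrArg Prod.snd (congrFun hw i)
    simp only [act, hσ] at this
    exact mul_left_cancel (this.symm.trans (mul_one _).symm)
  simp [hw1]

/-- A compatible family gives a value to every reachable frame. -/
theorem exists_val : ∃ val : ∀ n, Frame P S n → A, val 1 root = 1 ∧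
    (∀ n F w, Reach s₀ n F → val n (act F w) = val n F * ρ n w) ∧
    ∀ n F, Reach s₀ (n + 1) F → val (n + 2) (split0 s₀ F) = val (n + 1) F := by
  classical
  let val : ∀ n, Frame P S n → A := fun n F =>
    if h : ∃ a, Reached hS hρ (mk ρ F a) then h.choose else 1
  have hval : ∀ n (F : Frame P S n), Reach s₀ n F → ∀ a, Reached hS hρ (mk ρ F a) →
      val n F = a := fun n F hF a ha => by
    have h : ∃ a, Reached hS hρ (mk ρ F a) := ⟨a, ha⟩
    simp only [val, dif_pos h]
    exact reached_unique hS hρ hF h.choose_spec ha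
  refine ⟨val, hval _ _ .root _ ⟨.leaf, rfl⟩, fun n F w hF => ?_, fun n F hF => ?_⟩
  · obtain ⟨a, T, ha⟩ := exists_reached hS hρ hF
    rw [hval _ _ hF a ⟨T, ha⟩]
    exact hval _ _ (.act w hF) _ ⟨T, by rw [mk_act, ha]⟩
  · obtain ⟨a, T, ha⟩ := exists_reached hS hρ hF
    obtain ⟨hg, hb⟩ := good_root hS hρ
    obtain ⟨T', hT'⟩ := (system hS hρ).op_plant T _ (fun _ => []) _ ((F 0).2 • s₀) hg
      (by rw [hb]; rfl) (by rw [← reached_bricks hS hρ ha]; exact ⟨0, rfl⟩)
    rw [← ha] at hT'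
    rw [hval _ _ hF a ⟨T, ha⟩]
    exact hval _ _ (.split hF) a ⟨T', (op_mk hρ a hF.incomp rfl rfl).symm.trans hT'⟩

theorem refines_of_le {q q' : St S ρ} (h : Sys.Le (system hS hρ) q q') :
    ∀ {n : ℕ} {F : Frame P S n} {a : A}, q = mk ρ F a → Reach s₀ n F →
      ∃ (m : ℕ) (K : Frame P S m) (b : A), q' = mk ρ K b ∧ Refines s₀ F m K := by
  induction h with
  | refl => exact fun e _ => ⟨_, _, _, e, .refl⟩
  | @step q' φ s _ hφ ih =>
    intro n F a e hF
    obtain ⟨m, K, b, rfl, hK⟩ := ih e hF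
    obtain ⟨i, rfl⟩ : ∃ i : Fin m, (K i).1 = φ := hφ
    obtain ⟨m, rfl⟩ : ∃ l, m = l + 1 := ⟨m - 1, by have := i.2; omega⟩
    obtain ⟨g, rfl⟩ := hS.trans s
    let w : Lvl P (m + 1) := Lvl.perm (Equiv.swap 0 i) * Lvl.twist 0 ((K i).2⁻¹ * g)
    refine ⟨m + 2, split0 s₀ (act K w), b * ρ _ w, ?_, .split (.act w hK)⟩
    show op s₀ ρ _ _ _ = _
    rw [← mk_act K b w, op_mk hρ _ (IsF.act (hK.reach hF).incomp w)] <;>
      simp [act, w, -map_mul, -map_inv]

/-- Two reachable frames have a common refinement. -/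
theorem exists_common {n n' : ℕ} {F : Frame P S n} {G : Frame P S n'} (hF : Reach s₀ n F)
    (hG : Reach s₀ n' G) :
    ∃ (m : ℕ) (K : Frame P S m), Refines s₀ F m K ∧ Refines s₀ G m K := by
  obtain ⟨a, T, ha⟩ := exists_reached hS hρ hF
  obtain ⟨b, U, hb⟩ := exists_reached hS hρ hG
  obtain ⟨hg, hr⟩ := good_root hS hρ
  obtain ⟨U', hgrow, hle⟩ := (system hS hρ).join T U
  have h1 := (system hS hρ).le_of_grow hgrow (mk ρ root 1) (fun _ => []) hg (by rw [hr]; rfl)
  have h2 := hle (mk ρ root 1) (fun _ => []) hg (by rw [hr]; rfl)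
  obtain ⟨m, K, x, hx, hK⟩ := refines_of_le hS hρ h1 ha.symm hF
  obtain ⟨m', K', x', hx', hK'⟩ := refines_of_le hS hρ h2 hb.symm hG
  rw [hx] at hx'
  obtain rfl : m = m' := congrArg Sigma.fst hx'
  obtain ⟨w, rfl, -⟩ := mk_eq hx'
  exact ⟨m, _, .act w hK, hK'⟩

end Vale.P193.Host
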